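import Vale.Agent.P073.AB.Spec
import Vale.Agent.P073.HB.Acl4

/-!
# P073: from `IsSobolev` to the weak derivative as a continuous linear map
-/

namespace Vale.Agent.P073.PK

open MeasureTheory Set Filter Topology Vale.Agent.P073.St
open Vale.Agent.P073.AB (cl)
open Vale.Agent.P073.HB (WeakDeriv GoodSeg)
open scoped ENNReal NNReal ContDiff

theorem cl_apply (A : Mat) (v : V) (i : Fin 3) : cl A v i = ∑ j, A i j * v j := by
  simp only [cl, LinearMap.coe_toContinuousLinearMap', Matrix.toLin'_apply, Matrix.mulVec,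
    dotProduct, Matrix.of_apply]

/-- `cl` is linear. -/
noncomputable def clL : Mat →ₗ[ℝ] (V →L[ℝ] V) where
  toFun := cl
  map_add' A B := by
    ext v i
    simp only [cl_apply, ContinuousLinearMap.add_apply, Pi.add_apply, add_mul,
      Finset.sum_add_distrib]
  map_smul' c A := by
    ext v i
    simp only [cl_apply, ContinuousLinearMap.smul_apply, Pi.smul_apply, smul_eq_mul, mul_assoc,
      Finset.mul_sum, RingHom.id_apply]

theorem continuous_cl : Continuous cl :=
  (clL.continuous_of_finiteDimensional : Continuous clL)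

theorem enorm_cl_le (A : Mat) : ‖cl A‖ₑ ≤ ∑ i, ∑ j, ‖A i j‖ₑ := by
  have h : ‖cl A‖ ≤ ∑ i, ∑ j, ‖A i j‖ := by
    refine ContinuousLinearMap.opNorm_le_bound _ (by positivity) fun v => ?_
    rw [pi_norm_le_iff_of_nonneg (by positivity)]
    intro i
    rw [cl_apply]
    calc ‖∑ j, A i j * v j‖ ≤ ∑ j, ‖A i j * v j‖ := norm_sum_le _ _
      _ ≤ ∑ j, ‖A i j‖ * ‖v‖ := Finset.sum_le_sum fun j _ => by
          rw [norm_mul]
          exact mul_le_mul_of_nonneg_left (norm_le_pi_norm v j) (norm_nonneg _)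
      _ = (∑ j, ‖A i j‖) * ‖v‖ := by rw [Finset.sum_mul]
      _ ≤ _ := by
          refine mul_le_mul_of_nonneg_right ?_ (norm_nonneg _)
          exact Finset.single_le_sum (f := fun i => ∑ j, ‖A i j‖)
            (fun i _ => Finset.sum_nonneg fun j _ => norm_nonneg _) (Finset.mem_univ i)
  have h2 : ‖cl A‖ₑ = ENNReal.ofReal ‖cl A‖ := (ofReal_norm_eq_enorm _).symm
  rw [h2]
  refine (ENNReal.ofReal_le_ofReal h).trans ?_
  rw [ENNReal.ofReal_sum_of_nonneg fun i _ => Finset.sum_nonneg fun j _ => norm_nonneg _]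
  refine Finset.sum_le_sum fun i _ => ?_
  rw [ENNReal.ofReal_sum_of_nonneg fun j _ => norm_nonneg _]
  exact Finset.sum_le_sum fun j _ => (ofReal_norm_eq_enorm _).le

variable {p : ℝ} {Ω Λ : Set V} {f : V → V} {F : V → Mat}

theorem IsSob.aesm (h : IsSobolev p Ω f F) :
    AEStronglyMeasurable (fun x => cl (F x)) (volume.restrict Ω) := by
  refine continuous_cl.comp_aestronglyMeasurable ?_
  refine AEMeasurable.aestronglyMeasurable ?_
  refine aemeasurable_pi_iff.2 fun i => aemeasurable_pi_iff.2 fun j => ?_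
  exact (h.2.1 i j).aestronglyMeasurable.aemeasurable

theorem IsSob.memLp_cl (h : IsSobolev p Ω f F) :
    MemLp (fun x => cl (F x)) (ENNReal.ofReal p) (volume.restrict Ω) := by
  have h1 : MemLp (fun x => ∑ i, ∑ j, |F x i j|) (ENNReal.ofReal p) (volume.restrict Ω) :=
    memLp_finsetSum _ fun i _ => memLp_finsetSum _ fun j _ => (h.2.1 i j).norm
  refine h1.mono (IsSob.aesm h) (ae_of_all _ fun x => ?_)
  have h2 := enorm_cl_le (F x)
  have h3 : ‖cl (F x)‖ ≤ ∑ i, ∑ j, |F x i j| := by
    rw [← ofReal_norm_eq_enorm] at h2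
    have h4 : ∑ i, ∑ j, ‖F x i j‖ₑ = ENNReal.ofReal (∑ i, ∑ j, |F x i j|) := by
      rw [ENNReal.ofReal_sum_of_nonneg fun i _ => Finset.sum_nonneg fun j _ => abs_nonneg _]
      refine Finset.sum_congr rfl fun i _ => ?_
      rw [ENNReal.ofReal_sum_of_nonneg fun j _ => abs_nonneg _]
      exact Finset.sum_congr rfl fun j _ => (ofReal_norm_eq_enorm _).symm
    rw [h4] at h2
    exact (ENNReal.ofReal_le_ofReal_iff (by positivity)).1 h2
  exact h3.trans (le_abs_self _)

/-- the energy of the derivative is finite -/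
theorem IsSob.lintegral_ne_top (hp : 1 ≤ p) (h : IsSobolev p Ω f F) :
    ∫⁻ x in Ω, ‖cl (F x)‖ₑ ^ p ≠ ⊤ := by
  have h1 := (IsSob.memLp_cl h)
  have hp0 : ENNReal.ofReal p ≠ 0 := by
    rw [Ne, ENNReal.ofReal_eq_zero]; linarith
  have h2 := (eLpNorm_lt_top_iff_lintegral_rpow_enorm_lt_top hp0 ENNReal.ofReal_ne_top).1 h1.2
  rw [ENNReal.toReal_ofReal (by linarith)] at h2
  exact h2.ne

theorem volume_ne_top_of_domain (hΩ : IsBoundedDomain Ω) : volume Ω ≠ ⊤ := by
  obtain ⟨_, _, R, hR⟩ := hΩ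
  have h1 : Ω ⊆ Metric.closedBall 0 R := by
    intro x hx
    rw [mem_closedBall_zero_iff]
    have hR0 : 0 ≤ R := (Real.sqrt_nonneg _).trans (hR x hx)
    rw [pi_norm_le_iff_of_nonneg hR0]
    intro i
    refine le_trans ?_ (hR x hx)
    rw [euc, Real.norm_eq_abs]
    exact Real.abs_le_sqrt (Finset.single_le_sum (f := fun i => x i ^ 2)
      (fun i _ => sq_nonneg _) (Finset.mem_univ i))
  exact ((measure_mono h1).trans_lt Metric.isBounded_closedBall.measure_lt_top).ne

theorem isBounded_of_domain (hΩ : IsBoundedDomain Ω) : Bornology.IsBounded Ω := by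
  obtain ⟨_, _, R, hR⟩ := hΩ
  refine (Metric.isBounded_closedBall (x := (0 : V)) (r := R)).subset fun x hx => ?_
  rw [mem_closedBall_zero_iff]
  have hR0 : 0 ≤ R := (Real.sqrt_nonneg _).trans (hR x hx)
  rw [pi_norm_le_iff_of_nonneg hR0]
  intro i
  refine le_trans ?_ (hR x hx)
  rw [euc, Real.norm_eq_abs]
  exact Real.abs_le_sqrt (Finset.single_le_sum (f := fun i => x i ^ 2)
    (fun i _ => sq_nonneg _) (Finset.mem_univ i))

theorem InLp.integrableOn (hp : 1 ≤ p) (hv : volume Ω ≠ ⊤) {u : V → ℝ} (h : InLp p Ω u) :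
    IntegrableOn u Ω := by
  haveI : IsFiniteMeasure (volume.restrict Ω) := ⟨by
    rw [Measure.restrict_apply_univ]; exact lt_top_iff_ne_top.2 hv⟩
  exact MemLp.integrable (by
    rw [← ENNReal.ofReal_one]; exact ENNReal.ofReal_le_ofReal hp) h

theorem IsSob.integrableOn_cl (hp : 1 ≤ p) (hv : volume Ω ≠ ⊤) (h : IsSobolev p Ω f F) :
    IntegrableOn (fun x => cl (F x)) Ω := by
  haveI : IsFiniteMeasure (volume.restrict Ω) := ⟨by
    rw [Measure.restrict_apply_univ]; exact lt_top_iff_ne_top.2 hv⟩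
  exact MemLp.integrable (by
    rw [← ENNReal.ofReal_one]; exact ENNReal.ofReal_le_ofReal hp) (IsSob.memLp_cl h)

theorem IsSob.locallyIntegrableOn_cl (hp : 1 ≤ p) (hv : volume Ω ≠ ⊤) (h : IsSobolev p Ω f F) :
    LocallyIntegrableOn (fun x => cl (F x)) Ω :=
  (IsSob.integrableOn_cl hp hv h).locallyIntegrableOn

theorem pd_eq_fderiv {φ : V → ℝ} (hφ : ContDiff ℝ ∞ φ) (x : V) (j : Fin 3) :
    pd φ x j = fderiv ℝ φ x (Pi.single j 1) := by
  have h1 : HasDerivAt (fun t : ℝ => Function.update x j t) (Pi.single j 1) (x j) :=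
    hasDerivAt_update x j (x j)
  have h2 : HasFDerivAt φ (fderiv ℝ φ (Function.update x j (x j))) (Function.update x j (x j)) :=
    ((hφ.differentiable (by simp)) _).hasFDerivAt
  have h3 := h2.comp_hasDerivAt (x j) h1
  rw [Function.update_eq_self] at h3
  exact h3.deriv

/-- **The weak derivative identity** for `cl (F x)`. -/
theorem IsSob.weakDeriv (hp : 1 ≤ p) (hv : volume Ω ≠ ⊤) (h : IsSobolev p Ω f F) :
    WeakDeriv volume Ω f (fun x => cl (F x)) := by
  intro φ hφ hc hs v
  have hcont : Continuous φ := hφ.continuous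
  obtain ⟨C, hC⟩ := hc.exists_bound_of_continuous hcont
  have hdc : ∀ w : V, Continuous fun x => fderiv ℝ φ x w := fun w =>
    (hφ.continuous_fderiv (by simp)).clm_apply continuous_const
  have hds : ∀ w : V, HasCompactSupport fun x => fderiv ℝ φ x w := fun w =>
    (hc.fderiv (𝕜 := ℝ)).comp_left (g := fun L : V →L[ℝ] ℝ => L w) rfl
  have hF : ∀ i j, IntegrableOn (fun x => F x i j) Ω := fun i j =>
    InLp.integrableOn hp hv (h.2.1 i j)
  have hfi : ∀ i, IntegrableOn (fun x => f x i) Ω := fun i =>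
    InLp.integrableOn hp hv (h.1 i)
  have hφF : ∀ i j, IntegrableOn (fun x => φ x * F x i j) Ω := fun i j => by
    refine (hF i j).bdd_mul hcont.aestronglyMeasurable (ae_of_all _ hC)
  have hφf : ∀ (w : V) i, IntegrableOn (fun x => fderiv ℝ φ x w * f x i) Ω := fun w i => by
    obtain ⟨C', hC'⟩ := (hds w).exists_bound_of_continuous (hdc w)
    exact (hfi i).bdd_mul (hdc w).aestronglyMeasurable (ae_of_all _ hC')
  have htest : IsTest Ω φ := ⟨hφ.contDiffOn, hc, hs⟩
  have key : ∀ i j, ∫ x in Ω, φ x * F x i j = - ∫ x in Ω, fderiv ℝ φ x (Pi.single j 1) * f x i := by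
    intro i j
    have h1 := h.2.2 φ htest i j
    unfold St.int at h1
    rw [h1]
    congr 1
    refine integral_congr_ae (ae_of_all _ fun x => ?_)
    simp only [pd_eq_fderiv hφ]
  funext i
  rw [Pi.neg_apply]
  rw [eval_integral (f := fun x => φ x • cl (F x) v) (fun i => ?_),
    eval_integral (f := fun x => (fderiv ℝ φ x v) • f x) (fun i => ?_)]
  · simp only [Pi.smul_apply, smul_eq_mul, cl_apply]
    have e1 : ∀ x, φ x * ∑ j, F x i j * v j = ∑ j, v j * (φ x * F x i j) := by
      intro x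
      rw [Finset.mul_sum]
      exact Finset.sum_congr rfl fun j _ => by ring
    have e2 : ∀ x, fderiv ℝ φ x v * f x i =
        ∑ j, v j * (fderiv ℝ φ x (Pi.single j 1) * f x i) := by
      intro x
      have h3 : v = ∑ j, v j • (Pi.single j (1 : ℝ) : V) := by
        funext l
        simp [Finset.sum_apply, Pi.single_apply]
      conv_lhs => rw [h3]
      rw [map_sum, Finset.sum_mul]
      refine Finset.sum_congr rfl fun j _ => ?_
      rw [map_smul, smul_eq_mul, mul_assoc]
    simp only [e1, e2]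
    rw [integral_finset_sum _ fun j _ => (hφF i j).const_mul (v j),
      integral_finset_sum _ fun j _ => (hφf (Pi.single j 1) i).const_mul (v j),
      ← Finset.sum_neg_distrib]
    refine Finset.sum_congr rfl fun j _ => ?_
    rw [integral_const_mul, integral_const_mul, key i j, mul_neg]
  · simp only [Pi.smul_apply, smul_eq_mul]
    exact hφf v i
  · simp only [Pi.smul_apply, smul_eq_mul, cl_apply]
    have e1 : ∀ x, φ x * ∑ j, F x i j * v j = ∑ j, v j * (φ x * F x i j) := by
      intro x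
      rw [Finset.mul_sum]
      exact Finset.sum_congr rfl fun j _ => by ring
    simp only [e1]
    exact integrable_finset_sum _ fun j _ => (hφF i j).const_mul (v j)

end Vale.Agent.P073.PK
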