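import Vale.Agent.P073.PK.Sob560b
import Vale.Agent.P073.Spec.Top

/-!
# P073: good origins and the inputs of the block NET
-/

namespace Vale.Agent.P073.PK

open MeasureTheory Set Filter Topology Metric Vale.Agent.P073.St
open Vale.Agent.P073.AB (cl RatGood eInt edge pt Idx)
open Vale.Agent.P073.HB (GoodSeg)
open P073.Net (Graph ACOn)
open P073.PLS (Rat3)
open scoped ENNReal

variable {p : ℝ} {Ω Λ : Set V} {f : V → V} {F : V → Mat} {v : V}

theorem RatGood.goodSeg (h : RatGood v Ω f F) {a b : V} (ha : a ∈ Rat3 v) (hb : b ∈ Rat3 v)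
    (hs : segment ℝ a b ⊆ Ω) : GoodSeg f (fun x => cl (F x)) a (b - a) := by
  obtain ⟨q, hq⟩ := ha
  obtain ⟨q', hq'⟩ := hb
  exact h a b (fun k => ⟨q k, hq k⟩) (fun k => ⟨q' k, hq' k⟩) hs

/-- the input of the topology part -/
theorem RatGood.ratAC (h : RatGood v Ω f F) : P073.Top.RatAC v Ω f := by
  intro a ha b hb hs
  have h1 := RatGood.goodSeg h ha hb hs
  exact ⟨fun s => cl (F (a + s • (b - a))) (b - a), h1.1, h1.2⟩

/-- the input of the block NET: absolute continuity on a graph with rational vertices -/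
theorem RatGood.acOn (h : RatGood v Ω f F) (G : Graph Ω)
    (hG : ∀ i, G.a i ∈ Rat3 v ∧ G.b i ∈ Rat3 v) :
    ACOn G f (fun i t => cl (F (G.e i t)) (G.b i - G.a i)) where
  int i := (RatGood.goodSeg h (hG i).1 (hG i).2 (G.sub i)).1
  eq i t ht := by
    have h1 := (RatGood.goodSeg h (hG i).1 (hG i).2 (G.sub i)).2 t ht
    have h2 : G.e i 0 = G.a i := by simp [Graph.e]
    rw [h2]
    exact h1

theorem euc_le_two_norm (w : V) : euc w ≤ 2 * ‖w‖ := by
  rw [euc]
  refine Real.sqrt_le_iff.2 ⟨by positivity, ?_⟩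
  have h1 : ∀ i, w i ^ 2 ≤ ‖w‖ ^ 2 := fun i => by
    rw [← sq_abs (w i)]
    exact pow_le_pow_left₀ (abs_nonneg _) (norm_le_pi_norm w i) 2
  rw [Fin.sum_univ_three]
  nlinarith [h1 0, h1 1, h1 2]

/-- finite energy on a dyadic edge, in the form used by the block NET -/
theorem intervalIntegrable_euc {e : Idx × Fin 3} (hp : 1 ≤ p)
    (hg : GoodSeg f (fun x => cl (F x)) (pt v e.1.1 e.1.2)
      ((1 / 2 ^ e.1.1 : ℝ) • SQ.ev e.2))
    (hfin : eInt v e (fun x => ENNReal.ofReal (‖cl (F x) (SQ.ev e.2)‖ ^ p)) ≠ ⊤) :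
    IntervalIntegrable (fun t : ℝ => euc (cl (F (pt v e.1.1 e.1.2 +
      t • ((1 / 2 ^ e.1.1 : ℝ) • SQ.ev e.2))) ((1 / 2 ^ e.1.1 : ℝ) • SQ.ev e.2)) ^ p) volume 0 1 := by
  set x := pt v e.1.1 e.1.2
  set w := (1 / 2 ^ e.1.1 : ℝ) • SQ.ev e.2 with hw
  have hi := hg.integrableOn
  have hm : AEStronglyMeasurable (fun t : ℝ => cl (F (x + t • w)) w) (volume.restrict (Ioc 0 1)) :=
    hi.aestronglyMeasurable
  have hce : Continuous (euc : V → ℝ) := by
    unfold euc
    fun_prop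
  have hm2 : AEStronglyMeasurable (fun t : ℝ => euc (cl (F (x + t • w)) w) ^ p)
      (volume.restrict (Ioc 0 1)) :=
    ((hce.comp_aestronglyMeasurable hm).aemeasurable.pow_const p).aestronglyMeasurable
  rw [intervalIntegrable_iff_integrableOn_Ioc_of_le zero_le_one]
  refine ⟨hm2, ?_⟩
  have h1 : ∫⁻ t in Icc (0:ℝ) 1, ENNReal.ofReal (‖cl (F (x + t • w)) (SQ.ev e.2)‖ ^ p) ≠ ⊤ := by
    intro htop
    apply hfin
    rw [eInt]
    rw [ENNReal.mul_eq_top]
    left
    refine ⟨?_, htop⟩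
    rw [Ne, ENNReal.ofReal_eq_zero, not_le]
    positivity
  rw [hasFiniteIntegral_iff_enorm]
  have h2 : ∀ t : ℝ, ‖euc (cl (F (x + t • w)) w) ^ p‖ₑ ≤
      ENNReal.ofReal (2 ^ p) * ENNReal.ofReal (‖cl (F (x + t • w)) (SQ.ev e.2)‖ ^ p) := by
    intro t
    have h3 : 0 ≤ euc (cl (F (x + t • w)) w) := Real.sqrt_nonneg _
    rw [← ofReal_norm, Real.norm_of_nonneg (Real.rpow_nonneg h3 p),
      ← ENNReal.ofReal_mul (by positivity), ← Real.mul_rpow (by norm_num) (norm_nonneg _)]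
    refine ENNReal.ofReal_le_ofReal (Real.rpow_le_rpow h3 ?_ (by linarith))
    refine (euc_le_two_norm _).trans ?_
    refine mul_le_mul_of_nonneg_left ?_ (by norm_num)
    rw [hw, map_smul, norm_smul, Real.norm_of_nonneg (by positivity)]
    have h4 : (1 / 2 ^ e.1.1 : ℝ) ≤ 1 := by
      rw [div_le_one (by positivity)]
      exact one_le_pow₀ (by norm_num)
    nlinarith [norm_nonneg (cl (F (x + t • w)) (SQ.ev e.2))]
  refine (lintegral_mono h2).trans_lt ?_
  rw [lintegral_const_mul' _ _ ENNReal.ofReal_ne_top]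
  refine ENNReal.mul_lt_top ENNReal.ofReal_lt_top ?_
  rw [restrict_Ioc_eq_restrict_Icc]
  exact lt_top_iff_ne_top.2 h1

end Vale.Agent.P073.PK
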