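import Vale.Agent.P073.PK.Strands
import Mathlib.Topology.MetricSpace.Thickening

/-!
# P073, packing: points near the boundary of the domain, and sections
-/

set_option linter.unusedSectionVars false

namespace Vale.Agent.P073.PK

open Set Filter Topology Metric MeasureTheory
open scoped ENNReal

section far

variable {X Y : Type*} [PseudoMetricSpace X] [PseudoMetricSpace Y] [ProperSpace Y]

/-- A compact subset of an open set has a compact neighbourhood at a definite distance. -/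
theorem exists_closed_thickening {Λ : Set Y} (hΛ : IsOpen Λ) {S : Set Y} (hS : IsCompact S)
    (hSΛ : S ⊆ Λ) : ∃ d : ℝ, 0 < d ∧ cthickening d S ⊆ Λ ∧ IsCompact (cthickening d S) := by
  obtain ⟨d, hd, h⟩ := hS.exists_cthickening_subset_open hΛ hSΛ
  exact ⟨d, hd, h, hS.cthickening⟩

/-- For a homeomorphism onto an open set, the points near the boundary have images far from the
image of a compact set. -/
theorem exists_compact_far {Ω : Set X} {Λ : Set Y} {f : X → Y} {g : Y → X} (hΛ : IsOpen Λ)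
    (hf : ContinuousOn f Ω) (hg : ContinuousOn g Λ) (hgΩ : MapsTo g Λ Ω)
    (hfΛ : MapsTo f Ω Λ) (hgf : ∀ x ∈ Ω, g (f x) = x) {T : Set X} (hT : IsCompact T) (hTΩ : T ⊆ Ω) :
    ∃ C ⊆ Ω, IsCompact C ∧ ∃ d : ℝ, 0 < d ∧ cthickening d (f '' T) ⊆ Λ ∧
      ∀ x ∈ Ω, x ∉ C → ∀ y ∈ T, d ≤ dist (f x) (f y) := by
  obtain ⟨d, hd, h1, h2⟩ := exists_closed_thickening hΛ (hT.image_of_continuousOn (hf.mono hTΩ))
    (by rintro _ ⟨x, hx, rfl⟩; exact hfΛ (hTΩ hx))
  refine ⟨g '' cthickening d (f '' T), ?_, h2.image_of_continuousOn (hg.mono h1), d, hd, h1, ?_⟩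
  · rintro _ ⟨y, hy, rfl⟩
    exact hgΩ (h1 hy)
  · intro x hx hxC y hy
    by_contra hlt
    push Not at hlt
    refine hxC ⟨f x, ?_, hgf x hx⟩
    exact thickening_subset_cthickening _ _ (mem_thickening_iff.2 ⟨f y, mem_image_of_mem f hy, hlt⟩)

end far

/-! ### Sections by coordinate planes -/

section sections

/-- The section `v i = c`. -/
def sec (i : Fin 3) (c : ℝ) (u : Fin 2 → ℝ) : Fin 3 → ℝ := i.insertNth c u

/-- The linear part of the section map. -/
noncomputable def secL (i : Fin 3) : (Fin 2 → ℝ) →L[ℝ] (Fin 3 → ℝ) :=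
  LinearMap.toContinuousLinearMap
    { toFun := fun u => i.insertNth (0 : ℝ) u
      map_add' := fun u v => by
        ext j
        rcases Fin.eq_self_or_eq_succAbove i j with rfl | ⟨l, rfl⟩
        · simp
        · simp
      map_smul' := fun a u => by
        ext j
        rcases Fin.eq_self_or_eq_succAbove i j with rfl | ⟨l, rfl⟩
        · simp
        · simp }

theorem secL_apply (i : Fin 3) (u : Fin 2 → ℝ) : secL i u = i.insertNth (0 : ℝ) u := rfl

theorem secL_same (i : Fin 3) (u : Fin 2 → ℝ) : secL i u i = 0 := by simp [secL_apply]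

theorem secL_succAbove (i : Fin 3) (u : Fin 2 → ℝ) (l : Fin 2) : secL i u (i.succAbove l) = u l := by
  simp [secL_apply]

theorem sec_same (i : Fin 3) (c : ℝ) (u : Fin 2 → ℝ) : sec i c u i = c := by simp [sec]

theorem sec_succAbove (i : Fin 3) (c : ℝ) (u : Fin 2 → ℝ) (l : Fin 2) :
    sec i c u (i.succAbove l) = u l := by simp [sec]

theorem sec_eq (i : Fin 3) (c : ℝ) (u : Fin 2 → ℝ) : sec i c u = sec i c 0 + secL i u := by
  ext j
  rcases Fin.eq_self_or_eq_succAbove i j with rfl | ⟨l, rfl⟩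
  · simp [sec_same, secL_same]
  · simp [sec_succAbove, secL_succAbove]

theorem sec_sub (i : Fin 3) (c : ℝ) (u v : Fin 2 → ℝ) : sec i c u - sec i c v = secL i (u - v) := by
  rw [sec_eq i c u, sec_eq i c v, map_sub]; abel

theorem norm_secL (i : Fin 3) (u : Fin 2 → ℝ) : ‖secL i u‖ = ‖u‖ := by
  refine le_antisymm ?_ ?_
  · rw [pi_norm_le_iff_of_nonneg (norm_nonneg _)]
    intro j
    rcases Fin.eq_self_or_eq_succAbove i j with rfl | ⟨l, rfl⟩
    · simp [secL_same]
    · rw [secL_succAbove]; exact norm_le_pi_norm u l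
  · rw [pi_norm_le_iff_of_nonneg (norm_nonneg _)]
    intro l
    rw [← secL_succAbove i u l]
    exact norm_le_pi_norm _ _

theorem continuous_sec (i : Fin 3) (c : ℝ) : Continuous (sec i c) := by
  have : sec i c = fun u => sec i c 0 + secL i u := funext fun u => sec_eq i c u
  rw [this]; fun_prop

theorem sec_injective (i : Fin 3) (c : ℝ) : Function.Injective (sec i c) := by
  intro u v h
  have h1 := sec_sub i c u v
  rw [h, sub_self] at h1
  have h2 : ‖u - v‖ = 0 := by rw [← norm_secL i, ← h1, norm_zero]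
  exact sub_eq_zero.1 (norm_eq_zero.1 h2)

theorem isClosedEmbedding_sec (i : Fin 3) (c : ℝ) : IsClosedEmbedding (sec i c) := by
  have hiso : Isometry (sec i c) := by
    refine Isometry.of_dist_eq fun u v => ?_
    rw [dist_eq_norm, dist_eq_norm, sec_sub, norm_secL]
  exact hiso.isClosedEmbedding

theorem sec_segment (i : Fin 3) (c : ℝ) (a v : Fin 2 → ℝ) (t : ℝ) :
    sec i c (a + t • v) = sec i c a + t • secL i v := by
  rw [sec_eq i c (a + t • v), sec_eq i c a, map_add, map_smul]; abel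

variable {Y : Type*} [NormedAddCommGroup Y] [NormedSpace ℝ Y]

/-- Restriction of the derivative to the section. -/
noncomputable def secD (F : (Fin 3 → ℝ) → ((Fin 3 → ℝ) →L[ℝ] Y)) (i : Fin 3) (c : ℝ)
    (u : Fin 2 → ℝ) : (Fin 2 → ℝ) →L[ℝ] Y := (F (sec i c u)).comp (secL i)

theorem norm_secD_le (F : (Fin 3 → ℝ) → ((Fin 3 → ℝ) →L[ℝ] Y)) (i : Fin 3) (c : ℝ)
    (u : Fin 2 → ℝ) : ‖secD F i c u‖ ≤ ‖F (sec i c u)‖ := by
  refine ContinuousLinearMap.opNorm_le_bound _ (norm_nonneg _) fun v => ?_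
  rw [secD, ContinuousLinearMap.comp_apply, ← norm_secL i v]
  exact ContinuousLinearMap.le_opNorm _ _

theorem UDiff.sec {f : (Fin 3 → ℝ) → Y} {F : (Fin 3 → ℝ) → ((Fin 3 → ℝ) →L[ℝ] Y)}
    {T : Set (Fin 3 → ℝ)} (h : UDiff f F T) (i : Fin 3) (c : ℝ) :
    UDiff (fun u => f (sec i c u)) (secD F i c) (PK.sec i c ⁻¹' T) := by
  intro η hη
  obtain ⟨δ, hδ, h1⟩ := h η hη
  refine ⟨δ, hδ, fun x hx y hy hxy => ?_⟩
  have h2 := h1 _ hx _ hy (by rwa [sec_sub, norm_secL])
  rw [sec_sub, norm_secL] at h2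
  exact h2

theorem GoodSeg.sec {f : (Fin 3 → ℝ) → Y} {F : (Fin 3 → ℝ) → ((Fin 3 → ℝ) →L[ℝ] Y)}
    {i : Fin 3} {c : ℝ} {a v : Fin 2 → ℝ}
    (h : HB.GoodSeg f F (PK.sec i c a) (secL i v)) :
    HB.GoodSeg (fun u => f (PK.sec i c u)) (secD F i c) a v := by
  refine ⟨?_, ?_⟩
  · refine h.1.congr fun s _ => ?_
    simp only [secD, ContinuousLinearMap.comp_apply, sec_segment]
  · intro t ht
    simp only [secD, ContinuousLinearMap.comp_apply, sec_segment]
    exact h.2 t ht

end sections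

end Vale.Agent.P073.PK
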