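import Vale.Agent.P073.PK.Rank
import Vale.Agent.P073.HB.Haj5

/-!
# P073, packing: decomposition of the domain by the kind of the derivative
-/

set_option linter.unusedSectionVars false

namespace Vale.Agent.P073.PK

open Set Filter Topology Metric MeasureTheory
open scoped ENNReal
open Vale.Agent.P073.HB

namespace Kind

/-- An injective numbering of the kinds. -/
def idx : Kind → ℕ
  | .three => 0
  | .two i => 1 + i
  | .one i => 4 + i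
  | .zero => 7

theorem idx_injective : Function.Injective idx := by
  intro a b h
  cases a <;> cases b <;> simp only [idx] at h <;> first | rfl | omega | (congr 1; omega)

end Kind

variable {Y : Type*} [NormedAddCommGroup Y] [NormedSpace ℝ Y] [FiniteDimensional ℝ Y]
  {Ω : Set (Fin 3 → ℝ)} {F : (Fin 3 → ℝ) → ((Fin 3 → ℝ) →L[ℝ] Y)}

/-- The density `1 + ‖F‖ ^ p`. -/
noncomputable def edens (F : (Fin 3 → ℝ) → ((Fin 3 → ℝ) →L[ℝ] Y)) (p : ℝ) (x : Fin 3 → ℝ) : ℝ≥0∞ :=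
  1 + ‖F x‖ₑ ^ p

theorem lintegral_edens_ne_top (hμ : volume Ω ≠ ⊤) {p : ℝ} (hFp : ∫⁻ z in Ω, ‖F z‖ₑ ^ p ≠ ⊤) :
    ∫⁻ z in Ω, edens F p z ≠ ⊤ := by
  simp only [edens]
  rw [lintegral_add_left measurable_const, setLIntegral_const, one_mul]
  exact ENNReal.add_ne_top.2 ⟨hμ, hFp⟩

/-- The sets on which the derivative is of the given kinds; they are pairwise disjoint and
their complement in `Ω` carries little energy. -/
structure KindSets (Ω : Set (Fin 3 → ℝ)) (F : (Fin 3 → ℝ) → ((Fin 3 → ℝ) →L[ℝ] Y)) (θ M : ℝ)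
    (K : Kind → Set (Fin 3 → ℝ)) : Prop where
  meas : ∀ κ, MeasurableSet (K κ)
  sub : ∀ κ, K κ ⊆ Ω
  disj : Pairwise (Function.onFun Disjoint K)
  kind : ∀ κ, ∀ x ∈ K κ, HasKind κ θ M (F x)

theorem exists_kindSets (hΩ : MeasurableSet Ω) (hμ : volume Ω ≠ ⊤)
    (hF : AEStronglyMeasurable F (volume.restrict Ω)) {p : ℝ}
    (hFp : ∫⁻ z in Ω, ‖F z‖ₑ ^ p ≠ ⊤) {ε : ℝ≥0∞} (hε : ε ≠ 0) :
    ∃ θ M : ℝ, 0 < θ ∧ θ ≤ 1 ∧ 1 ≤ M ∧ ∃ K, KindSets Ω F θ M K ∧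
      ∫⁻ x in Ω \ ⋃ κ, K κ, edens F p x < ε := by
  classical
  set F₁ := hF.mk F with hF₁
  have hF₁m : Measurable F₁ := hF.stronglyMeasurable_mk.measurable
  set N := toMeasurable (volume.restrict Ω) {x | F x ≠ F₁ x} with hN
  have hN0 : volume.restrict Ω N = 0 := by
    rw [hN, measure_toMeasurable]
    exact ae_iff.1 hF.ae_eq_mk
  have hNm : MeasurableSet N := measurableSet_toMeasurable _ _
  have hNe : ∀ x, x ∉ N → F x = F₁ x := fun x hx => by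
    by_contra h
    exact hx (subset_toMeasurable _ _ h)
  set base : ℕ → Kind → Set (Fin 3 → ℝ) := fun n κ =>
    (Ω ∩ F₁ ⁻¹' {A | HasKind κ (1 / ((n : ℝ) + 1)) (n + 1) A}) \ N with hbase
  have hbm : ∀ n κ, MeasurableSet (base n κ) := fun n κ =>
    (hΩ.inter (hF₁m (isClosed_hasKind κ _ _).measurableSet)).diff hNm
  have hmono : ∀ κ, Monotone fun n => base n κ := by
    intro κ n m hnm x hx
    refine ⟨⟨hx.1.1, ?_⟩, hx.2⟩
    have h1 : HasKind κ (1 / ((n : ℝ) + 1)) (n + 1) (F₁ x) := hx.1.2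
    have hc : (n : ℝ) ≤ m := by exact_mod_cast hnm
    exact h1.mono (one_div_le_one_div_of_le (by positivity) (by linarith)) (by linarith)
  set ν := (volume.restrict Ω).withDensity (edens F p) with hν
  have hνΩ : ν univ ≠ ⊤ := by
    rw [hν, withDensity_apply _ MeasurableSet.univ, Measure.restrict_univ]
    exact lintegral_edens_ne_top hμ hFp
  have : IsFiniteMeasure ν := ⟨lt_top_iff_ne_top.2 hνΩ⟩
  have hint : ν (⋂ n : ℕ, Ω \ ⋃ κ, base n κ) = 0 := by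
    refine measure_mono_null ?_ (withDensity_absolutelyContinuous _ _ hN0)
    intro x hx
    by_contra hxN
    rw [mem_iInter] at hx
    obtain ⟨κ, θ, hθ, hk⟩ := exists_hasKind (F₁ x)
    obtain ⟨n, hn⟩ := exists_nat_ge (max (1 / θ) ‖F₁ x‖)
    refine (hx n).2 (mem_iUnion.2 ⟨κ, ⟨(hx n).1, ?_⟩, hxN⟩)
    refine hk.mono ?_ ?_
    · rw [one_div_le (by positivity) hθ]
      have := (le_max_left _ _).trans hn
      linarith
    · have := (le_max_right _ _).trans hn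
      linarith
  have htend : Tendsto (fun n : ℕ => ν (Ω \ ⋃ κ, base n κ)) atTop (𝓝 0) := by
    rw [← hint]
    refine tendsto_measure_iInter_atTop (fun n => ?_) ?_ ⟨0, measure_ne_top _ _⟩
    · exact (hΩ.diff (MeasurableSet.iUnion fun κ => hbm n κ)).nullMeasurableSet
    · intro n m hnm
      exact sdiff_subset_sdiff_right (iUnion_mono fun κ => hmono κ hnm)
  obtain ⟨n, hn⟩ := (htend.eventually (gt_mem_nhds (pos_iff_ne_zero.2 hε))).exists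
  set K : Kind → Set (Fin 3 → ℝ) := fun κ =>
    base n κ \ ⋃ κ' : Kind, ⋃ _ : κ'.idx < κ.idx, base n κ' with hK
  have hU : ⋃ κ, K κ = ⋃ κ, base n κ := by
    refine Subset.antisymm (iUnion_mono fun κ => sdiff_subset) ?_
    intro x hx
    rw [mem_iUnion] at hx
    have hex : ∃ j, ∃ κ : Kind, κ.idx = j ∧ x ∈ base n κ := by
      obtain ⟨κ, hκ⟩ := hx
      exact ⟨_, κ, rfl, hκ⟩
    obtain ⟨κ, hκj, hκ⟩ := Nat.find_spec hex
    refine mem_iUnion.2 ⟨κ, hκ, ?_⟩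
    simp only [mem_iUnion, not_exists]
    intro κ' hlt hx'
    rw [hκj] at hlt
    exact Nat.find_min hex hlt ⟨κ', rfl, hx'⟩
  refine ⟨1 / ((n : ℝ) + 1), n + 1, by positivity, ?_, by simp, K, ⟨?_, ?_, ?_, ?_⟩, ?_⟩
  · rw [div_le_one (by positivity)]
    simp
  · intro κ
    exact (hbm n κ).diff (MeasurableSet.iUnion fun κ' => MeasurableSet.iUnion fun _ => hbm n κ')
  · intro κ x hx
    exact hx.1.1.1
  · intro κ κ' hne
    rw [Function.onFun, Set.disjoint_left]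
    intro x hx hx'
    rcases lt_trichotomy κ.idx κ'.idx with h | h | h
    · exact hx'.2 (mem_iUnion.2 ⟨κ, mem_iUnion.2 ⟨h, hx.1⟩⟩)
    · exact hne (Kind.idx_injective h)
    · exact hx.2 (mem_iUnion.2 ⟨κ', mem_iUnion.2 ⟨h, hx'.1⟩⟩)
  · intro κ x hx
    rw [hNe x hx.1.2]
    exact hx.1.1.2
  · rw [hU]
    have hm : MeasurableSet (Ω \ ⋃ κ, base n κ) := hΩ.diff (MeasurableSet.iUnion fun κ => hbm n κ)
    have h1 : ν (Ω \ ⋃ κ, base n κ) = ∫⁻ x in Ω \ ⋃ κ, base n κ, edens F p x := by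
      rw [hν, withDensity_apply _ hm, Measure.restrict_restrict hm,
        inter_eq_left.2 (sdiff_subset : Ω \ ⋃ κ, base n κ ⊆ Ω)]
    rw [← h1]
    exact hn

/-- The good property of a compact set: uniform differentiability and uniform Lebesgue points. -/
def Lusin (f : (Fin 3 → ℝ) → Y) (F : (Fin 3 → ℝ) → ((Fin 3 → ℝ) →L[ℝ] Y)) (p : ℝ)
    (Ω T : Set (Fin 3 → ℝ)) : Prop :=
  ∀ η : ℝ, 0 < η → ∃ δ > 0, ∀ x ∈ T, ball x δ ⊆ Ω ∧
    (∀ r, 0 < r → r ≤ δ →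
      ∫⁻ z in ball x r, ‖F z - F x‖ₑ ^ p ≤ ENNReal.ofReal η ^ p * volume (ball x r)) ∧
    (∀ r, 0 < r → r ≤ δ →
      ∫⁻ z in ball x r, ‖f z - f x - F x (z - x)‖ₑ ^ p ≤
        ENNReal.ofReal (η * r) ^ p * volume (ball x r)) ∧
    ∀ y ∈ T, ‖y - x‖ ≤ δ →
      ‖F y - F x‖ ≤ η ∧ ‖f y - f x - F x (y - x)‖ ≤ η * ‖y - x‖

theorem Lusin.uDiff {f : (Fin 3 → ℝ) → Y} {p : ℝ} {T : Set (Fin 3 → ℝ)} (h : Lusin f F p Ω T) :
    UDiff f F T := by
  intro η hη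
  obtain ⟨δ, hδ, h1⟩ := h η hη
  exact ⟨δ, hδ, fun x hx y hy hxy => ((h1 x hx).2.2.2 y hy hxy.le).2⟩

theorem Lusin.mono {f : (Fin 3 → ℝ) → Y} {p : ℝ} {T T' : Set (Fin 3 → ℝ)} (h : Lusin f F p Ω T)
    (hT : T' ⊆ T) : Lusin f F p Ω T' := by
  intro η hη
  obtain ⟨δ, hδ, h1⟩ := h η hη
  exact ⟨δ, hδ, fun x hx => ⟨(h1 x (hT hx)).1, (h1 x (hT hx)).2.1, (h1 x (hT hx)).2.2.1,
    fun y hy => (h1 x (hT hx)).2.2.2 y (hT hy)⟩⟩

/-- The compact pieces: `T κ` inside `K κ`, with the Lusin property, and `TZ` inside the rest;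
they carry all the energy but `ε`. -/
structure Pieces (Ω : Set (Fin 3 → ℝ)) (f : (Fin 3 → ℝ) → Y)
    (F : (Fin 3 → ℝ) → ((Fin 3 → ℝ) →L[ℝ] Y)) (p θ M : ℝ) (ε : ℝ≥0∞)
    (K T : Kind → Set (Fin 3 → ℝ)) (TZ : Set (Fin 3 → ℝ)) : Prop where
  sub : ∀ κ, T κ ⊆ K κ
  compact : ∀ κ, IsCompact (T κ)
  subZ : TZ ⊆ Ω \ ⋃ κ, K κ
  compactZ : IsCompact TZ
  cont : ∀ κ, ContinuousOn F (T κ)
  lusin : ∀ κ, Lusin f F p Ω (T κ)
  energy : ∫⁻ x in Ω \ ((⋃ κ, T κ) ∪ TZ), edens F p x < ε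

theorem exists_pieces {f : (Fin 3 → ℝ) → Y} (hΩ : IsOpen Ω) (hμ : volume Ω ≠ ⊤)
    (hf : ContinuousOn f Ω) (hF : AEStronglyMeasurable F (volume.restrict Ω))
    (hw : WeakDeriv volume Ω f F) {p : ℝ} (hp : 1 ≤ p)
    (hFp : ∫⁻ z in Ω, ‖F z‖ₑ ^ p ≠ ⊤) {θ M : ℝ} {K : Kind → Set (Fin 3 → ℝ)}
    (hK : KindSets Ω F θ M K) {ε : ℝ≥0∞} (hε : ε ≠ 0) :
    ∃ T TZ, Pieces Ω f F p θ M ε K T TZ := by
  classical
  obtain ⟨δ, hδ, hδε⟩ := exists_pos_setLIntegral_lt_of_measure_lt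
    (lintegral_edens_ne_top hμ hFp) hε
  have hδ9 : δ / 9 ≠ 0 := by
    simp only [Ne, ENNReal.div_eq_zero_iff, not_or]
    exact ⟨hδ.ne', by norm_num⟩
  have h1 : ∀ κ, ∃ T ⊆ K κ, IsCompact T ∧ volume (K κ \ T) < δ / 9 ∧ ContinuousOn F T ∧
      Lusin f F p Ω T := fun κ => by
    obtain ⟨T, hT, hc, hv, hcont, hl⟩ := exists_lusin_set (μ := volume) hΩ hμ hf hF hw hp hFp
      (hK.meas κ) (hK.sub κ) hδ9
    exact ⟨T, hT, hc, hv, hcont, hl⟩
  choose T hTK hTc hTv hTcont hTl using h1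
  have hZm : MeasurableSet (Ω \ ⋃ κ, K κ) := hΩ.measurableSet.diff (MeasurableSet.iUnion hK.meas)
  have hZt : volume (Ω \ ⋃ κ, K κ) ≠ ⊤ := ne_top_of_le_ne_top hμ (measure_mono sdiff_subset)
  obtain ⟨TZ, hTZ, hTZc, hTZv⟩ := hZm.exists_isCompact_sdiff_lt hZt hδ9
  refine ⟨T, TZ, hTK, hTc, hTZ, hTZc, hTcont, hTl, ?_⟩
  have hsub : Ω \ ((⋃ κ, T κ) ∪ TZ) ⊆ (⋃ κ, (K κ \ T κ)) ∪ ((Ω \ ⋃ κ, K κ) \ TZ) := by
    rintro x ⟨hx, hn⟩
    rw [mem_union, not_or] at hn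
    by_cases hxK : x ∈ ⋃ κ, K κ
    · obtain ⟨κ, hκ⟩ := mem_iUnion.1 hxK
      exact Or.inl (mem_iUnion.2 ⟨κ, hκ, fun h => hn.1 (mem_iUnion.2 ⟨κ, h⟩)⟩)
    · exact Or.inr ⟨⟨hx, hxK⟩, hn.2⟩
  have hcard : Fintype.card Kind = 8 := by decide
  have hvol : volume (Ω \ ((⋃ κ, T κ) ∪ TZ)) < δ := by
    refine (measure_mono hsub).trans_lt ((measure_union_le _ _).trans_lt ?_)
    have h2 : volume (⋃ κ, (K κ \ T κ)) ≤ 8 * (δ / 9) := by
      refine (measure_iUnion_fintype_le _ _).trans ?_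
      calc ∑ κ, volume (K κ \ T κ) ≤ ∑ _κ : Kind, δ / 9 := Finset.sum_le_sum fun κ _ => (hTv κ).le
        _ = 8 * (δ / 9) := by
          rw [Finset.sum_const, Finset.card_univ, hcard, nsmul_eq_mul]
          norm_num
    by_cases hδt : δ = ⊤
    · subst hδt
      refine lt_top_iff_ne_top.2 (ENNReal.add_ne_top.2 ⟨?_, ?_⟩)
      · refine ne_top_of_le_ne_top hμ (measure_mono ?_)
        exact iUnion_subset fun κ => sdiff_subset.trans (hK.sub κ)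
      · exact ne_top_of_le_ne_top hμ (measure_mono (sdiff_subset.trans sdiff_subset))
    calc volume (⋃ κ, (K κ \ T κ)) + volume ((Ω \ ⋃ κ, K κ) \ TZ)
        < 8 * (δ / 9) + δ / 9 := ENNReal.add_lt_add_of_le_of_lt
          (ne_top_of_le_ne_top (by finiteness) h2) h2 hTZv
      _ = 9 * (δ / 9) := by ring
      _ = δ := ENNReal.mul_div_cancel (by norm_num) (by norm_num)
  have h3 := hδε (Ω \ ((⋃ κ, T κ) ∪ TZ)) ((Measure.restrict_apply_le _ _).trans_lt hvol)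
  have hm : MeasurableSet (Ω \ ((⋃ κ, T κ) ∪ TZ)) := hΩ.measurableSet.diff
    ((MeasurableSet.iUnion fun κ => (hTc κ).isClosed.measurableSet).union hTZc.isClosed.measurableSet)
  rwa [Measure.restrict_restrict hm, inter_eq_left.2 (sdiff_subset : _ ⊆ Ω)] at h3

namespace Pieces

variable {f : (Fin 3 → ℝ) → Y} {p θ M : ℝ} {ε : ℝ≥0∞} {K T : Kind → Set (Fin 3 → ℝ)}
  {TZ : Set (Fin 3 → ℝ)}

/-- Everything except the piece `T κ`. -/
def others (T : Kind → Set (Fin 3 → ℝ)) (TZ : Set (Fin 3 → ℝ)) (κ : Kind) : Set (Fin 3 → ℝ) :=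
  (⋃ κ' : Kind, ⋃ _ : κ' ≠ κ, T κ') ∪ TZ

theorem compact_others (h : Pieces Ω f F p θ M ε K T TZ) (κ : Kind) :
    IsCompact (others T TZ κ) :=
  (isCompact_iUnion fun κ' => isCompact_iUnion fun _ => h.compact κ').union h.compactZ

theorem disjoint_others (h : Pieces Ω f F p θ M ε K T TZ) (hK : KindSets Ω F θ M K) (κ : Kind) :
    Disjoint (T κ) (others T TZ κ) := by
  rw [Set.disjoint_left]
  intro x hx hx'
  rcases hx' with hx' | hx'
  · simp only [mem_iUnion] at hx'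
    obtain ⟨κ', hne, hx'⟩ := hx'
    exact Set.disjoint_left.1 (hK.disj (Ne.symm hne)) (h.sub κ hx) (h.sub κ' hx')
  · exact (h.subZ hx').2 (mem_iUnion.2 ⟨κ, h.sub κ hx⟩)

theorem union_others (T : Kind → Set (Fin 3 → ℝ)) (TZ : Set (Fin 3 → ℝ)) (κ : Kind) :
    T κ ∪ others T TZ κ = (⋃ κ, T κ) ∪ TZ := by
  ext x
  simp only [others, mem_union, mem_iUnion]
  constructor
  · rintro (h | ⟨κ', -, h⟩ | h)
    · exact Or.inl ⟨κ, h⟩
    · exact Or.inl ⟨κ', h⟩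
    · exact Or.inr h
  · rintro (⟨κ', h⟩ | h)
    · by_cases hκ : κ' = κ
      · subst hκ; exact Or.inl h
      · exact Or.inr (Or.inl ⟨κ', hκ, h⟩)
    · exact Or.inr (Or.inr h)

end Pieces

end Vale.Agent.P073.PK
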