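import Vale.Agent.P073.PK.Origins

/-!
# P073: sections of the lattice by coordinate planes, averages over the origins
-/

set_option linter.unusedSectionVars false

namespace Vale.Agent.P073.PK

open Set Filter Topology Metric MeasureTheory
open scoped ENNReal NNReal
open Vale.Agent.P073.HB

/-- The other two coordinates. -/
def oth (i : Fin 3) (o : Fin 3 → ℝ) : Fin 2 → ℝ := fun l => o (i.succAbove l)

theorem sec_oth (i : Fin 3) (x : Fin 3 → ℝ) : sec i (x i) (oth i x) = x := by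
  ext j
  rcases Fin.eq_self_or_eq_succAbove i j with rfl | ⟨l, rfl⟩
  · rw [sec_same]
  · rw [sec_succAbove]; rfl

theorem oth_sec (i : Fin 3) (c : ℝ) (u : Fin 2 → ℝ) : oth i (sec i c u) = u := by
  ext l
  rw [oth, sec_succAbove]

/-- The meshes `h` in direction `i` and `m` in the other directions. -/
def mes (i : Fin 3) (h m : ℝ) : Fin 3 → ℝ := i.insertNth h fun _ => m

/-- Integration over the planes. -/
theorem lintegral_sec (i : Fin 3) {κ : (Fin 3 → ℝ) → ℝ≥0∞} (hκ : AEMeasurable κ) :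
    ∫⁻ c, ∫⁻ u, κ (sec i c u) = ∫⁻ x, κ x := by
  have h1 := volume_preserving_piFinSuccAbove (fun _ : Fin 3 => ℝ) i
  have h2 := (h1.symm _).lintegral_comp_emb (MeasurableEquiv.measurableEmbedding _) κ
  rw [← h2]
  have h3 : AEMeasurable (fun q : ℝ × (Fin 2 → ℝ) => κ ((MeasurableEquiv.piFinSuccAbove
      (fun _ : Fin 3 => ℝ) i).symm q)) (volume.prod volume) :=
    hκ.comp_quasiMeasurePreserving (h1.symm _).quasiMeasurePreserving
  rw [Measure.volume_eq_prod, lintegral_prod _ h3]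
  rfl

/-- Integration over the box, plane by plane. -/
theorem setLIntegral_obox (i : Fin 3) {Ψ : (Fin 3 → ℝ) → ℝ≥0∞}
    (hΨ : AEMeasurable Ψ (volume.restrict (obox 3 1))) :
    ∫⁻ o in obox 3 1, Ψ o = ∫⁻ c in Ico (0 : ℝ) 1, ∫⁻ u in obox 2 1, Ψ (sec i c u) := by
  have hb := measurableSet_obox (k := 3) 1
  have hb2 := measurableSet_obox (k := 2) 1
  have h1 := lintegral_sec i (κ := (obox 3 1).indicator Ψ)
    ((aemeasurable_indicator_iff hb).2 hΨ)
  rw [lintegral_indicator hb] at h1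
  rw [← h1, ← lintegral_indicator measurableSet_Ico]
  refine lintegral_congr fun c => ?_
  have hmem : ∀ u, sec i c u ∈ obox 3 1 ↔ c ∈ Ico (0 : ℝ) 1 ∧ u ∈ obox 2 1 := by
    intro u
    constructor
    · intro h
      refine ⟨?_, fun l => ?_⟩
      · have := h i; rwa [sec_same] at this
      · have := h (i.succAbove l); rwa [sec_succAbove] at this
    · rintro ⟨hc1, hu1⟩ j
      rcases Fin.eq_self_or_eq_succAbove i j with rfl | ⟨l, rfl⟩
      · rw [sec_same]; exact hc1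
      · rw [sec_succAbove]; exact hu1 l
  by_cases hc : c ∈ Ico (0 : ℝ) 1
  · rw [indicator_of_mem hc, ← lintegral_indicator hb2]
    refine lintegral_congr fun u => ?_
    by_cases hu : u ∈ obox 2 1
    · rw [indicator_of_mem ((hmem u).2 ⟨hc, hu⟩), indicator_of_mem hu]
    · rw [indicator_of_notMem (fun h => hu ((hmem u).1 h).2), indicator_of_notMem hu]
  · rw [indicator_of_notMem hc]
    have : ∀ u, (obox 3 1).indicator Ψ (sec i c u) = 0 := fun u =>
      indicator_of_notMem (fun h => hc ((hmem u).1 h).1) _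
    simp [this]

/-- A point of the lattice in a plane. -/
theorem vM_sec (i : Fin 3) (o : Fin 3 → ℝ) (h m : ℝ) (z : ℤ) (z' : Fin 2 → ℤ) (t : ℝ)
    (w : Fin 2 → ℝ) :
    vM o (mes i h m) (i.insertNth z z') + t • secL i w =
      sec i (o i + h * z) (vx (oth i o) m z' + t • w) := by
  ext j
  rcases Fin.eq_self_or_eq_succAbove i j with rfl | ⟨l, rfl⟩
  · simp [vM, mes, sec_same, secL_same]
  · simp [vM, mes, sec_succAbove, secL_succAbove, vx, oth]

/-- The edge sum of the plane `z`. -/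
noncomputable def planeSum (κ : (Fin 3 → ℝ) → ℝ≥0∞) (i : Fin 3) (h m : ℝ) (o : Fin 3 → ℝ) (z : ℤ) :
    ℝ≥0∞ := edgeSum (fun u => κ (sec i (o i + h * z) u)) (oth i o) m

/-- The integral over the plane `z`. -/
noncomputable def planeInt (κ : (Fin 3 → ℝ) → ℝ≥0∞) (i : Fin 3) (h : ℝ) (o : Fin 3 → ℝ) (z : ℤ) :
    ℝ≥0∞ := ∫⁻ u, κ (sec i (o i + h * z) u)

theorem planeSum_eq (κ : (Fin 3 → ℝ) → ℝ≥0∞) (i : Fin 3) (h m : ℝ) (o : Fin 3 → ℝ) (z : ℤ) :
    planeSum κ i h m o z = ∑ j : Fin 2, ∑' z' : Fin 2 → ℤ, ∫⁻ t in Ioc (0 : ℝ) 1,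
      κ (vM o (mes i h m) (i.insertNth z z') + t • secL i (ev m j)) := by
  rw [planeSum, edgeSum, ENNReal.tsum_prod', ENNReal.tsum_comm, tsum_fintype]
  refine Finset.sum_congr rfl fun j _ => tsum_congr fun z' => ?_
  refine lintegral_congr fun t => ?_
  rw [vM_sec]

theorem aemeasurable_planeSum {κ : (Fin 3 → ℝ) → ℝ≥0∞} (hκ : AEMeasurable κ) (i : Fin 3)
    (h m : ℝ) (z : ℤ) : AEMeasurable fun o => planeSum κ i h m o z := by
  simp only [planeSum_eq, vM_eq]
  refine Finset.aemeasurable_fun_sum _ fun j _ => AEMeasurable.tsum fun z' => ?_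
  exact aemeasurable_segAvg (μ := volume) hκ _ _

/-- The sum of the edge sums of all the planes. -/
theorem tsum_planeSum (κ : (Fin 3 → ℝ) → ℝ≥0∞) (i : Fin 3) (h m : ℝ) (o : Fin 3 → ℝ) :
    ∑' z : ℤ, planeSum κ i h m o z =
      ∑ j : Fin 2, latSum κ (mes i h m) (secL i (ev m j)) o := by
  simp only [planeSum_eq]
  rw [Summable.tsum_finsetSum fun _ _ => ENNReal.summable]
  refine Finset.sum_congr rfl fun j _ => ?_
  rw [latSum, ← (Fin.insertNthEquiv (fun _ : Fin 3 => ℤ) i).tsum_eq, ENNReal.tsum_prod']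
  rfl

theorem mes_inv (i : Fin 3) (n n' : ℕ) : mes i (1 / (n : ℝ)) (1 / (n' : ℝ)) =
    fun j => 1 / (((i.insertNth n fun _ => n' : Fin 3 → ℕ) j : ℕ) : ℝ) := by
  ext j
  rcases Fin.eq_self_or_eq_succAbove i j with rfl | ⟨l, rfl⟩
  · simp [mes]
  · simp [mes]

theorem prod_mes (i : Fin 3) (n n' : ℕ) :
    ∏ j, (((i.insertNth n fun _ => n' : Fin 3 → ℕ) j : ℕ) : ℝ≥0∞) = n * n' ^ 2 := by
  rw [Fin.prod_univ_succAbove _ i]
  simp

/-- **The average of the plane sums.** -/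
theorem lintegral_planeSum {n n' : ℕ} (hn : 0 < n) (hn' : 0 < n') {κ : (Fin 3 → ℝ) → ℝ≥0∞}
    (hκ : AEMeasurable κ) (i : Fin 3) :
    ∫⁻ o in obox 3 1, ∑' z : ℤ, planeSum κ i (1 / (n : ℝ)) (1 / (n' : ℝ)) o z =
      2 * ((n : ℝ≥0∞) * n' ^ 2) * ∫⁻ x, κ x := by
  simp only [tsum_planeSum]
  rw [lintegral_finsetSum']
  · have h1 : ∀ j : Fin 2, ∫⁻ o in obox 3 1, latSum κ (mes i (1 / (n : ℝ)) (1 / (n' : ℝ)))
        (secL i (ev (1 / (n' : ℝ)) j)) o = (n * n' ^ 2) * ∫⁻ x, κ x := by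
      intro j
      rw [mes_inv, lintegral_latSum _ hκ, prod_mes]
      intro l
      rcases Fin.eq_self_or_eq_succAbove i l with rfl | ⟨l, rfl⟩
      · simpa using hn
      · simpa using hn'
    simp only [h1]
    rw [Finset.sum_const, Finset.card_univ, Fintype.card_fin, nsmul_eq_mul, mul_assoc]
    push_cast
    ring
  · intro j _
    exact (aemeasurable_latSum hκ _ _).restrict

/-- The average of a sum over a lattice in dimension one. -/
theorem tsum_lintegral_Ico {n : ℕ} (hn : 0 < n) {g : ℝ → ℝ≥0∞} (hg : AEMeasurable g) :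
    ∑' z : ℤ, ∫⁻ c in Ico (0 : ℝ) 1, g (c + 1 / (n : ℝ) * z) = n * ∫⁻ x, g x := by
  have hp := volume_preserving_funUnique (Fin 1) ℝ
  have h1 : AEMeasurable fun x : Fin 1 → ℝ => g (x 0) :=
    hg.comp_quasiMeasurePreserving hp.quasiMeasurePreserving
  have h2 := tsum_lintegral_box (n := fun _ : Fin 1 => n) (fun _ => hn) h1 (0 : Fin 1 → ℝ)
  rw [Fin.prod_univ_one, ← (Equiv.funUnique (Fin 1) ℤ).symm.tsum_eq] at h2
  have h3 : ∫⁻ x : Fin 1 → ℝ, g (x 0) = ∫⁻ x, g x :=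
    hp.lintegral_comp_emb (MeasurableEquiv.measurableEmbedding _) g
  rw [h3] at h2
  rw [← h2]
  refine tsum_congr fun z => ?_
  have h4 := hp.setLIntegral_comp_preimage_emb (MeasurableEquiv.measurableEmbedding _)
    (fun c : ℝ => g (c + 1 / (n : ℝ) * z)) (Ico (0 : ℝ) 1)
  rw [← h4]
  have h5 : (MeasurableEquiv.funUnique (Fin 1) ℝ) ⁻¹' (Ico (0 : ℝ) 1) = obox 1 1 := by
    ext x
    simp only [mem_preimage, obox, mem_ofPred_eq, MeasurableEquiv.funUnique_apply]
    constructor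
    · intro h j
      have : j = default := Subsingleton.elim _ _
      rw [this]; exact h
    · intro h; exact h default
  rw [h5]
  refine lintegral_congr fun o => ?_
  simp [vM]

/-- **The average of the plane integrals.** -/
theorem lintegral_planeInt {n : ℕ} (hn : 0 < n) {κ : (Fin 3 → ℝ) → ℝ≥0∞}
    (hκ : AEMeasurable κ) (i : Fin 3) :
    ∫⁻ o in obox 3 1, ∑' z : ℤ, planeInt κ i (1 / (n : ℝ)) o z = n * ∫⁻ x, κ x := by
  have hG : AEMeasurable (fun c => ∫⁻ u, κ (sec i c u)) := by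
    have h1 := volume_preserving_piFinSuccAbove (fun _ : Fin 3 => ℝ) i
    have h3 : AEMeasurable (fun q : ℝ × (Fin 2 → ℝ) => κ ((MeasurableEquiv.piFinSuccAbove
        (fun _ : Fin 3 => ℝ) i).symm q)) (volume.prod volume) :=
      hκ.comp_quasiMeasurePreserving (h1.symm _).quasiMeasurePreserving
    exact h3.lintegral_prod_right'
  have hG' : ∀ z : ℤ, AEMeasurable (fun c : ℝ => ∫⁻ u, κ (sec i (c + 1 / (n : ℝ) * z) u)) :=
    fun z => hG.comp_quasiMeasurePreserving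
      (measurePreserving_add_right volume (1 / (n : ℝ) * z)).quasiMeasurePreserving
  have hGz : ∀ z : ℤ, AEMeasurable (fun o : Fin 3 → ℝ => planeInt κ i (1 / (n : ℝ)) o z) := by
    intro z
    have h5 : Measure.QuasiMeasurePreserving (fun o : Fin 3 → ℝ => o i) volume volume :=
      Measure.quasiMeasurePreserving_eval _ i
    exact (hG' z).comp_quasiMeasurePreserving h5
  rw [setLIntegral_obox i (AEMeasurable.tsum hGz).restrict]
  have h6 : ∀ c : ℝ, ∫⁻ u in obox 2 1, ∑' z : ℤ, planeInt κ i (1 / (n : ℝ)) (sec i c u) z =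
      ∑' z : ℤ, ∫⁻ u, κ (sec i (c + 1 / (n : ℝ) * z) u) := by
    intro c
    simp only [planeInt, sec_same]
    rw [setLIntegral_const, volume_obox]
    simp
  simp only [h6]
  rw [lintegral_tsum fun z => (hG' z).restrict, tsum_lintegral_Ico hn hG, lintegral_sec i hκ]

/-- Fatou's lemma for sums. -/
theorem tsum_liminf_le {ι : Type*} (a : ι → ℕ → ℝ≥0∞) :
    ∑' z, liminf (fun l => a z l) atTop ≤ liminf (fun l => ∑' z, a z l) atTop := by
  let _ : MeasurableSpace ι := ⊤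
  have h := lintegral_liminf_le (μ := (Measure.count : Measure ι)) (f := fun l z => a z l)
    (u := atTop) (fun l => measurable_from_top)
  rw [lintegral_count' measurable_from_top] at h
  refine h.trans_eq ?_
  congr 1
  funext l
  exact lintegral_count' measurable_from_top

theorem lintegral_planeSum_scaled {n : ℕ} (hn : 0 < n) {κ : (Fin 3 → ℝ) → ℝ≥0∞}
    (hκ : AEMeasurable κ) (i : Fin 3) (l : ℕ) :
    ∑' z : ℤ, ∫⁻ o in obox 3 1, planeSum κ i (1 / (n : ℝ)) (1 / 2 ^ l) o z *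
      ((2 : ℝ≥0∞) ^ l)⁻¹ ^ 2 = 2 * n * ∫⁻ x, κ x := by
  have hm : ∀ z : ℤ, AEMeasurable (fun o => planeSum κ i (1 / (n : ℝ)) (1 / 2 ^ l) o z)
        (volume.restrict (obox 3 1)) := fun z => (aemeasurable_planeSum hκ i _ _ z).restrict
  rw [← lintegral_tsum fun z => (hm z).mul_const _]
  simp only [ENNReal.tsum_mul_right]
  rw [lintegral_mul_const'' _ (AEMeasurable.tsum hm)]
  have h1 := lintegral_planeSum hn (n' := 2 ^ l) (by positivity) hκ i
  push_cast at h1
  rw [h1]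
  have h2 : ((2 : ℝ≥0∞) ^ l) * ((2 : ℝ≥0∞) ^ l)⁻¹ = 1 :=
    ENNReal.mul_inv_cancel (by positivity) (by finiteness)
  calc 2 * ((n : ℝ≥0∞) * (2 ^ l) ^ 2) * (∫⁻ x, κ x) * ((2 : ℝ≥0∞) ^ l)⁻¹ ^ 2
      = 2 * n * (∫⁻ x, κ x) * (((2 : ℝ≥0∞) ^ l) * ((2 : ℝ≥0∞) ^ l)⁻¹) ^ 2 := by ring
    _ = _ := by rw [h2]; ring

/-- **Fatou's lemma for the sections**: the edge sums of the planes with meshes `2 ^ (-l)`. -/
theorem lintegral_liminf_planeSum_le {n : ℕ} (hn : 0 < n) {κ : (Fin 3 → ℝ) → ℝ≥0∞}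
    (hκ : AEMeasurable κ) (i : Fin 3) :
    ∫⁻ o in obox 3 1, ∑' z : ℤ, liminf (fun l : ℕ =>
      planeSum κ i (1 / (n : ℝ)) (1 / 2 ^ l) o z * ((2 : ℝ≥0∞) ^ l)⁻¹ ^ 2) atTop ≤
        2 * n * ∫⁻ x, κ x := by
  have hm : ∀ (z : ℤ) (l : ℕ), AEMeasurable (fun o =>
      planeSum κ i (1 / (n : ℝ)) (1 / 2 ^ l) o z * ((2 : ℝ≥0∞) ^ l)⁻¹ ^ 2)
        (volume.restrict (obox 3 1)) := fun z l =>
    ((aemeasurable_planeSum hκ i _ _ z).mul_const _).restrict
  rw [lintegral_tsum fun z => aemeasurable_liminf (hm z)]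
  refine (ENNReal.tsum_le_tsum fun z => lintegral_liminf_le' (hm z)).trans ?_
  refine (tsum_liminf_le _).trans ?_
  simp only [lintegral_planeSum_scaled hn hκ i]
  rw [liminf_const]

end Vale.Agent.P073.PK
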