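import Vale.Agent.P073.PK.GrdT
import Vale.Agent.P073.PK.Planes

/-!
# P073: periodic functionals of the origin of a dyadic lattice
-/

set_option linter.unusedSectionVars false

namespace Vale.Agent.P073.PK

open Set Filter Topology Metric MeasureTheory Vale.Agent.P073.St
open scoped ENNReal NNReal
open Vale.Agent.P073.HB (GoodSeg vx edgeSum obox exists_good_point volume_obox measurableSet_obox
  tsum_box_le)
open Vale.Agent.P073.AB

variable {k : ℕ}

/-- `Φ` is periodic, with the lattice of mesh `2 ^ (-n)`. -/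
def Per (n : ℕ) (Φ : (Fin k → ℝ) → ℝ≥0∞) : Prop :=
  ∀ (o : Fin k → ℝ) (w : Fin k → ℤ), Φ (vx o (ms n) w) = Φ o

theorem ms_split {n l : ℕ} (h : n ≤ l) : ms n = ms l * ((2 ^ (l - n) : ℤ) : ℝ) := by
  obtain ⟨j, rfl⟩ := Nat.exists_eq_add_of_le h
  rw [Nat.add_sub_cancel_left]
  simp only [ms]
  push_cast
  rw [pow_add]
  field_simp

theorem vx_vx (o : Fin k → ℝ) {n l : ℕ} (h : n ≤ l) (w z : Fin k → ℤ) :
    vx (vx o (ms n) w) (ms l) z = vx o (ms l) (z + (2 ^ (l - n) : ℤ) • w) := by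
  funext i
  simp only [vx, Pi.add_apply, Pi.smul_apply, smul_eq_mul]
  rw [ms_split h]
  push_cast
  ring

theorem ofReal_ms_mul (n : ℕ) : ((2 : ℝ≥0∞) ^ n) * ENNReal.ofReal (ms n) = 1 := by
  have h1 : ENNReal.ofReal (ms n) = ((2 : ℝ≥0∞) ^ n)⁻¹ := by
    rw [ms, one_div, ENNReal.ofReal_inv_of_pos (by positivity), ENNReal.ofReal_pow (by norm_num)]
    norm_num
  rw [h1]
  exact ENNReal.mul_inv_cancel (by positivity) (by finiteness)

theorem Per.lintegral_le {n : ℕ} {Φ : (Fin k → ℝ) → ℝ≥0∞} (h : Per n Φ) :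
    ∫⁻ o in obox k (ms n), Φ o ≤ ENNReal.ofReal (ms n) ^ k * ∫⁻ o in obox k 1, Φ o := by
  classical
  have h1 := tsum_box_le (k := k) (ms_pos n) (κ := (obox k 1).indicator Φ) 0
  rw [lintegral_indicator (measurableSet_obox 1)] at h1
  set S : Finset (Fin k → ℤ) := Fintype.piFinset fun _ => Finset.Ico 0 (2 ^ n) with hS
  have hc : (S.card : ℝ≥0∞) = ((2 : ℝ≥0∞) ^ n) ^ k := by
    rw [hS, Fintype.card_piFinset]
    have h4 : ((2 : ℤ) ^ n).toNat = 2 ^ n := by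
      rw [show ((2 : ℤ) ^ n) = ((2 ^ n : ℕ) : ℤ) by push_cast; rfl, Int.toNat_natCast]
    simp [h4]
  have h2 : ∀ z ∈ S, ∫⁻ o in obox k (ms n), (obox k 1).indicator Φ (vx o (ms n) z + 0) =
      ∫⁻ o in obox k (ms n), Φ o := by
    intro z hz
    refine setLIntegral_congr_fun (measurableSet_obox _) fun o ho => ?_
    simp only [add_zero]
    rw [indicator_of_mem, h o z]
    intro i
    have h3 := Finset.mem_Ico.1 (Fintype.mem_piFinset.1 hz i)
    have h4 : (0 : ℝ) ≤ z i := by exact_mod_cast h3.1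
    have h5 : (z i : ℝ) + 1 ≤ 2 ^ n := by exact_mod_cast h3.2
    have hms := ms_pos n
    have h6 : ms n * 2 ^ n = 1 := by simp [ms]
    simp only [vx]
    constructor
    · have := (ho i).1
      positivity
    · have := (ho i).2
      have h7 := mul_le_mul_of_nonneg_left h5 hms.le
      nlinarith
  have h3 : (S.card : ℝ≥0∞) * ∫⁻ o in obox k (ms n), Φ o ≤ ∫⁻ o in obox k 1, Φ o := by
    calc (S.card : ℝ≥0∞) * ∫⁻ o in obox k (ms n), Φ o
        = ∑ z ∈ S, ∫⁻ o in obox k (ms n), (obox k 1).indicator Φ (vx o (ms n) z + 0) := by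
          rw [Finset.sum_congr rfl h2, Finset.sum_const, nsmul_eq_mul]
      _ ≤ _ := (ENNReal.sum_le_tsum _).trans h1
  rw [hc] at h3
  calc ∫⁻ o in obox k (ms n), Φ o
      = (((2 : ℝ≥0∞) ^ n) * ENNReal.ofReal (ms n)) ^ k * ∫⁻ o in obox k (ms n), Φ o := by
        rw [ofReal_ms_mul, one_pow, one_mul]
    _ = ENNReal.ofReal (ms n) ^ k * (((2 : ℝ≥0∞) ^ n) ^ k * ∫⁻ o in obox k (ms n), Φ o) := by
        rw [mul_pow]; ring
    _ ≤ _ := by gcongr

/-- **A good origin in the small box** for periodic functionals. -/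
theorem exists_per_origin {n : ℕ} {ι : Type*} (J : Finset ι) (Φ : ι → (Fin k → ℝ) → ℝ≥0∞)
    (hΦ : ∀ j ∈ J, AEMeasurable (Φ j)) (hper : ∀ j ∈ J, Per n (Φ j)) {P : (Fin k → ℝ) → Prop}
    (hP : ∀ᵐ o, P o) :
    ∃ o ∈ obox k (ms n), P o ∧ ∀ j ∈ J, Φ j o ≤ J.card * ∫⁻ o in obox k 1, Φ j o := by
  have hm := ms_pos n
  have h0 : volume (obox k (ms n)) ≠ 0 := by
    rw [volume_obox]
    exact pow_ne_zero _ (ENNReal.ofReal_pos.2 hm).ne'
  have ht : volume (obox k (ms n)) ≠ ⊤ := by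
    rw [volume_obox]
    finiteness
  obtain ⟨o, ho, hPo, hJ⟩ := exists_good_point h0 ht (measurableSet_obox (ms n)) J Φ
    (fun j hj => (hΦ j hj).restrict) (P := P) (by filter_upwards [hP] with x hx _ using hx)
  refine ⟨o, ho, hPo, fun j hj => ?_⟩
  have h1 := (hJ j hj).trans (mul_le_mul' le_rfl (hper j hj).lintegral_le)
  rw [volume_obox] at h1
  have h2 : ((2 : ℝ≥0∞) ^ n) ^ k * ENNReal.ofReal (ms n) ^ k = 1 := by
    rw [← mul_pow, ofReal_ms_mul, one_pow]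
  calc Φ j o = Φ j o * (((2 : ℝ≥0∞) ^ n) ^ k * ENNReal.ofReal (ms n) ^ k) := by
        rw [h2, mul_one]
    _ = ((2 : ℝ≥0∞) ^ n) ^ k * (Φ j o * ENNReal.ofReal (ms n) ^ k) := by ring
    _ ≤ ((2 : ℝ≥0∞) ^ n) ^ k * (J.card * (ENNReal.ofReal (ms n) ^ k *
          ∫⁻ o in obox k 1, Φ j o)) := by gcongr
    _ = J.card * ((((2 : ℝ≥0∞) ^ n) ^ k * ENNReal.ofReal (ms n) ^ k) *
          ∫⁻ o in obox k 1, Φ j o) := by ring
    _ = _ := by rw [h2, one_mul]

theorem per_edgeSum {n l : ℕ} (h : n ≤ l) (κ : (Fin k → ℝ) → ℝ≥0∞) :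
    Per n fun o => edgeSum κ o (ms l) := by
  intro o w
  simp only [edgeSum]
  simp only [vx_vx o h w]
  exact ((Equiv.addRight ((2 ^ (l - n) : ℤ) • w)).prodCongr (Equiv.refl (Fin k))).tsum_eq
    (fun q : (Fin k → ℤ) × Fin k => ∫⁻ s in Ioc (0 : ℝ) 1, κ (vx o (ms l) q.1 + s • HB.ev (ms l) q.2))

theorem Per.mul_const {n : ℕ} {Φ : (Fin k → ℝ) → ℝ≥0∞} (h : Per n Φ) (c : ℝ≥0∞) :
    Per n fun o => Φ o * c := fun o w => by simp only [h o w]

theorem per_liminf {n n₁ : ℕ} {Φ : ℕ → (Fin k → ℝ) → ℝ≥0∞} (h : ∀ l, n₁ ≤ l → Per n (Φ l)) :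
    Per n fun o => liminf (fun l => Φ l o) atTop := by
  intro o w
  refine Filter.liminf_congr ?_
  filter_upwards [eventually_ge_atTop n₁] with l hl
  exact h l hl o w

theorem oth_vx (i : Fin 3) (o : Fin 3 → ℝ) (m : ℝ) (w : Fin 3 → ℤ) :
    oth i (vx o m w) = vx (oth i o) m fun l => w (i.succAbove l) := rfl

theorem plane_shift (i : Fin 3) (o : Fin 3 → ℝ) {n n' : ℕ} (h : n ≤ n') (w : Fin 3 → ℤ) (z : ℤ) :
    (vx o (ms n) w) i + ms n' * z = o i + ms n' * ((z + 2 ^ (n' - n) * w i : ℤ) : ℝ) := by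
  simp only [vx]
  rw [ms_split h]
  push_cast
  ring

theorem per_planeSum {n n' l : ℕ} (hn : n ≤ n') (hl : n ≤ l) (κ : (Fin 3 → ℝ) → ℝ≥0∞) (i : Fin 3) :
    Per n fun o => ∑' z : ℤ, planeSum κ i (ms n') (ms l) o z := by
  intro o w
  have h1 : ∀ z : ℤ, planeSum κ i (ms n') (ms l) (vx o (ms n) w) z =
      planeSum κ i (ms n') (ms l) o (z + 2 ^ (n' - n) * w i) := by
    intro z
    rw [planeSum, oth_vx, plane_shift i o hn w z]
    exact per_edgeSum hl _ _ _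
  simp only [h1]
  exact (Equiv.addRight (2 ^ (n' - n) * w i : ℤ)).tsum_eq
    (fun z => planeSum κ i (ms n') (ms l) o z)

theorem per_planeInt {n n' : ℕ} (hn : n ≤ n') (κ : (Fin 3 → ℝ) → ℝ≥0∞) (i : Fin 3) :
    Per n fun o => ∑' z : ℤ, planeInt κ i (ms n') o z := by
  intro o w
  have h1 : ∀ z : ℤ, planeInt κ i (ms n') (vx o (ms n) w) z =
      planeInt κ i (ms n') o (z + 2 ^ (n' - n) * w i) := by
    intro z
    rw [planeInt, plane_shift i o hn w z]
    rfl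
  simp only [h1]
  exact (Equiv.addRight (2 ^ (n' - n) * w i : ℤ)).tsum_eq (fun z => planeInt κ i (ms n') o z)

theorem layer_eq_empty (Ω : Set V) {n l : ℕ} (h : l < n) : layer Ω n l = ∅ := by
  refine eq_empty_of_forall_notMem fun x hx => ?_
  have h1 : (1 / 2 ^ l : ℝ) ≤ rho Ω n x := hx.1
  have h2 : rho Ω n x ≤ 1 / 2 ^ n := min_le_left _ _
  have h3 : (1 / 2 ^ n : ℝ) < 1 / 2 ^ l :=
    one_div_lt_one_div_of_lt (by positivity) (pow_lt_pow_right₀ (by norm_num) h)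
  linarith

theorem edgeSum_zero (o : Fin k → ℝ) (m : ℝ) : edgeSum (fun _ : Fin k → ℝ => (0 : ℝ≥0∞)) o m = 0 := by
  simp [edgeSum]

theorem per_tileSum (Ω : Set V) (n : ℕ) (κ : V → ℝ≥0∞) : Per n (tileSum Ω n κ) := by
  intro o w
  unfold tileSum
  refine tsum_congr fun l => ?_
  rcases lt_or_ge l n with h | h
  · have h1 : (layer Ω n l).indicator κ = fun _ => 0 := by
      rw [layer_eq_empty Ω h]
      simp
    rw [h1, edgeSum_zero, edgeSum_zero]
  · congr 1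
    exact per_edgeSum h _ o w

end Vale.Agent.P073.PK
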