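import Vale.Agent.P073.PK.GridCount
import Vale.Agent.P073.PK.Far

/-!
# P073: one generic origin for all the meshes

`latSum κ M w o` is the sum over the lattice `o + ∏ M i ℤ` of the integrals of `κ` over the
segments with vector `w`. For `M i = 1 / n i` its average over the unit box of the origins is
`(∏ n i) ∫ κ` at most. Fatou's lemma gives one origin which is good for infinitely many meshes.
-/

set_option linter.unusedSectionVars false

namespace Vale.Agent.P073.PK

open Set Filter Topology Metric MeasureTheory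
open scoped ENNReal NNReal
open Vale.Agent.P073.HB

variable {k : ℕ}

/-- The point `z` of the lattice with origin `o` and meshes `M i`. -/
def vM (o M : Fin k → ℝ) (z : Fin k → ℤ) : Fin k → ℝ := fun i => o i + M i * z i

theorem vM_const (o : Fin k → ℝ) (m : ℝ) (z : Fin k → ℤ) : vM o (fun _ => m) z = vx o m z := rfl

theorem vM_eq (o M : Fin k → ℝ) (z : Fin k → ℤ) : vM o M z = o + fun i => M i * (z i : ℝ) := rfl

/-- The sum over the lattice of the integrals over the segments with vector `w`. -/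
noncomputable def latSum (κ : (Fin k → ℝ) → ℝ≥0∞) (M w o : Fin k → ℝ) : ℝ≥0∞ :=
  ∑' z : Fin k → ℤ, ∫⁻ t in Ioc (0 : ℝ) 1, κ (vM o M z + t • w)

/-- The number of lattice points in a translate of the unit box. -/
theorem tsum_indicator_box {n : Fin k → ℕ} (hn : ∀ i, 0 < n i) (x : Fin k → ℝ) :
    ∑' z : Fin k → ℤ, (obox k 1).indicator (1 : (Fin k → ℝ) → ℝ≥0∞)
      (x - fun i => (1 / (n i : ℝ)) * (z i : ℝ)) = ∏ i, (n i : ℝ≥0∞) := by
  classical
  set S : Finset (Fin k → ℤ) := Fintype.piFinset fun i => Finset.Ioc ⌊(n i : ℝ) * (x i - 1)⌋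
    ⌊(n i : ℝ) * x i⌋ with hS
  have hmem : ∀ z : Fin k → ℤ, (x - fun i => (1 / (n i : ℝ)) * (z i : ℝ)) ∈ obox k 1 ↔ z ∈ S := by
    intro z
    rw [hS, Fintype.mem_piFinset]
    refine forall_congr' fun i => ?_
    have hni : (0 : ℝ) < n i := by exact_mod_cast hn i
    rw [Finset.mem_Ioc, Int.floor_lt, Int.le_floor, Pi.sub_apply]
    constructor
    · rintro ⟨h1, h2⟩
      constructor
      · have h3 : x i - 1 < 1 / (n i : ℝ) * z i := by linarith
        calc (n i : ℝ) * (x i - 1) < n i * (1 / (n i : ℝ) * z i) := mul_lt_mul_of_pos_left h3 hni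
          _ = z i := by field_simp
      · have h3 : 1 / (n i : ℝ) * z i ≤ x i := by linarith
        calc (z i : ℝ) = n i * (1 / (n i : ℝ) * z i) := by field_simp
          _ ≤ _ := mul_le_mul_of_nonneg_left h3 hni.le
    · rintro ⟨h1, h2⟩
      have h3 : (1 / (n i : ℝ)) * (n i * (x i - 1)) < 1 / (n i : ℝ) * z i :=
        mul_lt_mul_of_pos_left h1 (by positivity)
      have h4 : (1 / (n i : ℝ)) * z i ≤ 1 / (n i : ℝ) * (n i * x i) :=
        mul_le_mul_of_nonneg_left h2 (by positivity)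
      have e1 : (1 / (n i : ℝ)) * (n i * (x i - 1)) = x i - 1 := by field_simp
      have e2 : (1 / (n i : ℝ)) * (n i * x i) = x i := by field_simp
      rw [e1] at h3
      rw [e2] at h4
      constructor <;> linarith
  have h1 : ∀ z : Fin k → ℤ, (obox k 1).indicator (1 : (Fin k → ℝ) → ℝ≥0∞)
      (x - fun i => (1 / (n i : ℝ)) * (z i : ℝ)) = if z ∈ S then 1 else 0 := by
    intro z
    by_cases hz : z ∈ S
    · rw [indicator_of_mem ((hmem z).2 hz), if_pos hz, Pi.one_apply]
    · rw [indicator_of_notMem (fun h => hz ((hmem z).1 h)), if_neg hz]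
  simp only [h1]
  rw [tsum_eq_sum (s := S) (fun z hz => if_neg hz), Finset.sum_congr rfl fun z hz => if_pos hz,
    Finset.sum_const, nsmul_eq_mul, mul_one, hS, Fintype.card_piFinset]
  push_cast
  refine Finset.prod_congr rfl fun i _ => ?_
  rw [Int.card_Ioc]
  have e : ⌊(n i : ℝ) * x i⌋ - ⌊(n i : ℝ) * (x i - 1)⌋ = n i := by
    have : (n i : ℝ) * (x i - 1) = n i * x i - (n i : ℕ) := by ring
    rw [this, Int.floor_sub_natCast]
    ring
  rw [e, Int.toNat_natCast]

/-- The average of a sum over a lattice. -/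
theorem tsum_lintegral_box {n : Fin k → ℕ} (hn : ∀ i, 0 < n i) {κ : (Fin k → ℝ) → ℝ≥0∞}
    (hκ : AEMeasurable κ) (w : Fin k → ℝ) :
    ∑' z : Fin k → ℤ, ∫⁻ o in obox k 1, κ (vM o (fun i => 1 / (n i : ℝ)) z + w) =
      (∏ i, (n i : ℝ≥0∞)) * ∫⁻ x, κ x := by
  have e : ∀ z : Fin k → ℤ, ∫⁻ o in obox k 1, κ (vM o (fun i => 1 / (n i : ℝ)) z + w) =
      ∫⁻ x, (obox k 1).indicator (1 : (Fin k → ℝ) → ℝ≥0∞)
        ((x - w) - fun i => (1 / (n i : ℝ)) * (z i : ℝ)) * κ x := by
    intro z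
    set a : Fin k → ℝ := (fun i => (1 / (n i : ℝ)) * (z i : ℝ)) + w with ha
    have h1 : ∫⁻ o in obox k 1, κ (vM o (fun i => 1 / (n i : ℝ)) z + w) =
        ∫⁻ o, (obox k 1).indicator (1 : (Fin k → ℝ) → ℝ≥0∞) o * κ (o + a) := by
      rw [← lintegral_indicator (measurableSet_obox 1)]
      refine lintegral_congr fun o => ?_
      have e1 : vM o (fun i => 1 / (n i : ℝ)) z + w = o + a := by
        rw [vM_eq, ha, add_assoc]
      by_cases ho : o ∈ obox k 1
      · rw [indicator_of_mem ho, indicator_of_mem ho, Pi.one_apply, one_mul, e1]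
      · rw [indicator_of_notMem ho, indicator_of_notMem ho, zero_mul]
    rw [h1]
    have h2 := lintegral_add_right_eq_self (μ := (volume : Measure (Fin k → ℝ)))
      (fun x => (obox k 1).indicator (1 : (Fin k → ℝ) → ℝ≥0∞) (x - a) * κ x) a
    simp only [add_sub_cancel_right] at h2
    rw [h2]
    refine lintegral_congr fun x => ?_
    congr 2
    rw [ha]
    abel
  simp only [e]
  rw [← lintegral_tsum]
  · simp only [ENNReal.tsum_mul_right]
    have h3 : ∀ x : Fin k → ℝ, (∑' z : Fin k → ℤ, (obox k 1).indicator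
        (1 : (Fin k → ℝ) → ℝ≥0∞) ((x - w) - fun i => (1 / (n i : ℝ)) * (z i : ℝ))) =
          ∏ i, (n i : ℝ≥0∞) := fun x => tsum_indicator_box hn (x - w)
    simp only [h3]
    rw [lintegral_const_mul' _ _ (ENNReal.prod_ne_top fun i _ => ENNReal.natCast_ne_top _)]
  · intro z
    refine AEMeasurable.mul (Measurable.aemeasurable ?_) hκ
    exact (measurable_one.indicator (measurableSet_obox 1)).comp (by fun_prop)

theorem aemeasurable_latSum {κ : (Fin k → ℝ) → ℝ≥0∞} (hκ : AEMeasurable κ) (M w : Fin k → ℝ) :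
    AEMeasurable fun o : Fin k → ℝ => latSum κ M w o := by
  unfold latSum
  simp only [vM_eq]
  exact AEMeasurable.tsum fun z => aemeasurable_segAvg (μ := volume) hκ _ _

/-- **The average of the lattice sum over the unit box.** -/
theorem lintegral_latSum {n : Fin k → ℕ} (hn : ∀ i, 0 < n i) {κ : (Fin k → ℝ) → ℝ≥0∞}
    (hκ : AEMeasurable κ) (w : Fin k → ℝ) :
    ∫⁻ o in obox k 1, latSum κ (fun i => 1 / (n i : ℝ)) w o = (∏ i, (n i : ℝ≥0∞)) * ∫⁻ x, κ x := by
  unfold latSum
  have hm2 : ∀ z : Fin k → ℤ, AEMeasurable (fun q : (Fin k → ℝ) × ℝ =>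
      κ (vM q.1 (fun i => 1 / (n i : ℝ)) z + q.2 • w))
      ((volume.restrict (obox k 1)).prod (volume.restrict (Ioc (0 : ℝ) 1))) := by
    intro z
    have h2 := aemeasurable_shear (μ := volume) hκ (fun i => (1 / (n i : ℝ)) * (z i : ℝ)) w
    simp only [vM_eq]
    refine h2.mono_measure ?_
    rw [← Measure.restrict_univ (μ := volume.restrict (Ioc (0 : ℝ) 1)), Measure.prod_restrict,
      Measure.restrict_univ]
    exact Measure.restrict_le_self
  rw [lintegral_tsum fun z => (by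
    have := (aemeasurable_segAvg (μ := volume) hκ (fun i => (1 / (n i : ℝ)) * (z i : ℝ)) w)
    simp only [vM_eq]
    exact this.restrict)]
  have h1 : ∀ z : Fin k → ℤ, ∫⁻ o in obox k 1, (∫⁻ t in Ioc (0 : ℝ) 1,
      κ (vM o (fun i => 1 / (n i : ℝ)) z + t • w)) = ∫⁻ t in Ioc (0 : ℝ) 1, ∫⁻ o in obox k 1,
        κ (vM o (fun i => 1 / (n i : ℝ)) z + t • w) := fun z => lintegral_lintegral_swap (hm2 z)
  simp only [h1]
  rw [← lintegral_tsum fun z => (hm2 z).lintegral_prod_left']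
  simp only [tsum_lintegral_box hn hκ]
  rw [setLIntegral_const, Real.volume_Ioc]
  simp

theorem edgeSum_eq_latSum (κ : (Fin k → ℝ) → ℝ≥0∞) (o : Fin k → ℝ) (m : ℝ) :
    edgeSum κ o m = ∑ i : Fin k, latSum κ (fun _ => m) (ev m i) o := by
  rw [edgeSum, ENNReal.tsum_prod', ENNReal.tsum_comm, tsum_fintype]
  rfl

/-- **The average of the edge sums over the unit box of the origins**, with mesh `2 ^ (-l)`. -/
theorem lintegral_edgeSum_scaled {κ : (Fin k → ℝ) → ℝ≥0∞} (hκ : AEMeasurable κ) (l : ℕ) :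
    ∫⁻ o in obox k 1, edgeSum κ o (1 / 2 ^ l) * ((2 : ℝ≥0∞) ^ l)⁻¹ ^ k = k * ∫⁻ x, κ x := by
  rw [lintegral_mul_const'' _ (aemeasurable_edgeSum hκ _).restrict]
  simp only [edgeSum_eq_latSum]
  rw [lintegral_finsetSum' _ fun i _ => (aemeasurable_latSum hκ _ _).restrict]
  have h1 : ∀ i : Fin k, ∫⁻ o in obox k 1, latSum κ (fun _ => 1 / 2 ^ l) (ev (1 / 2 ^ l) i) o =
      ((2 : ℝ≥0∞) ^ l) ^ k * ∫⁻ x, κ x := by
    intro i
    have h2 := lintegral_latSum (n := fun _ : Fin k => 2 ^ l) (fun _ => by positivity) hκ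
      (ev (1 / 2 ^ l) i)
    push_cast at h2
    rw [h2, Finset.prod_const, Finset.card_univ, Fintype.card_fin]
  simp only [h1]
  rw [Finset.sum_const, Finset.card_univ, Fintype.card_fin, nsmul_eq_mul]
  have h2 : ((2 : ℝ≥0∞) ^ l) * ((2 : ℝ≥0∞) ^ l)⁻¹ = 1 :=
    ENNReal.mul_inv_cancel (by positivity) (by finiteness)
  calc (k : ℝ≥0∞) * (((2 : ℝ≥0∞) ^ l) ^ k * ∫⁻ x, κ x) * ((2 : ℝ≥0∞) ^ l)⁻¹ ^ k
      = k * (∫⁻ x, κ x) * (((2 : ℝ≥0∞) ^ l) * ((2 : ℝ≥0∞) ^ l)⁻¹) ^ k := by
        rw [mul_pow]; ring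
    _ = _ := by rw [h2, one_pow, mul_one]

/-! ### Infinitely many meshes at once -/

theorem aemeasurable_liminf {α : Type*} [MeasurableSpace α] {ν : Measure α} {S : ℕ → α → ℝ≥0∞}
    (h : ∀ l, AEMeasurable (S l) ν) : AEMeasurable (fun x => liminf (fun l => S l x) atTop) ν := by
  refine ⟨fun x => liminf (fun l => (h l).mk (S l) x) atTop,
    Measurable.liminf fun l => (h l).measurable_mk, ?_⟩
  filter_upwards [ae_all_iff.2 fun l => (h l).ae_eq_mk] with x hx
  simp only [hx]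

/-- **The functional of the good meshes**: if the families `Φ j l`, `j ∈ J`, have integrals at
most `C j`, there is one function `T`, with integral at most the number of the families, such that
for all points with `T x < c` there are infinitely many `l` with `Φ j l x ≤ c * C j` for all
`j`. -/
theorem exists_liminf_functional {α ι : Type*} [MeasurableSpace α] {ν : Measure α} {B : Set α}
    (J : Finset ι) (Φ : ι → ℕ → α → ℝ≥0∞)
    (hΦ : ∀ j ∈ J, ∀ l, AEMeasurable (Φ j l) (ν.restrict B)) (C : ι → ℝ≥0∞)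
    (hC : ∀ j ∈ J, C j ≠ ⊤) (h : ∀ j ∈ J, ∀ l, ∫⁻ x in B, Φ j l x ∂ν ≤ C j) :
    ∃ T : α → ℝ≥0∞, AEMeasurable T (ν.restrict B) ∧ ∫⁻ x in B, T x ∂ν ≤ J.card ∧
      ∀ᵐ x ∂(ν.restrict B), ∀ c : ℝ≥0∞, T x < c → ∃ᶠ l in atTop, ∀ j ∈ J, Φ j l x ≤ c * C j := by
  classical
  set S : ℕ → α → ℝ≥0∞ := fun l x => ∑ j ∈ J, Φ j l x * (C j)⁻¹ with hS
  have hSm : ∀ l, AEMeasurable (S l) (ν.restrict B) := fun l =>
    Finset.aemeasurable_fun_sum J fun j hj => (hΦ j hj l).mul_const _
  have hz : ∀ᵐ x ∂(ν.restrict B), ∀ j ∈ J, C j = 0 → ∀ l, Φ j l x = 0 := by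
    refine (Finset.eventually_all J).2 fun j hj => ?_
    by_cases hc : C j = 0
    · have h1 : ∀ l, ∀ᵐ x ∂(ν.restrict B), Φ j l x = 0 := by
        intro l
        have h2 := h j hj l
        rw [hc, nonpos_iff_eq_zero, lintegral_eq_zero_iff' (hΦ j hj l)] at h2
        exact h2
      filter_upwards [ae_all_iff.2 h1] with x hx _
      exact hx
    · exact ae_of_all _ fun x h => absurd h hc
  have hint : ∀ l, ∫⁻ x in B, S l x ∂ν ≤ J.card := by
    intro l
    simp only [hS]
    rw [lintegral_finsetSum' J fun j hj => (hΦ j hj l).mul_const _]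
    calc ∑ j ∈ J, ∫⁻ x in B, Φ j l x * (C j)⁻¹ ∂ν ≤ ∑ _j ∈ J, (1 : ℝ≥0∞) := by
          refine Finset.sum_le_sum fun j hj => ?_
          rw [lintegral_mul_const'' _ (hΦ j hj l)]
          calc _ ≤ C j * (C j)⁻¹ := mul_le_mul' (h j hj l) le_rfl
            _ ≤ 1 := ENNReal.mul_inv_le_one _
      _ = J.card := by simp
  refine ⟨fun x => liminf (fun l => S l x) atTop, aemeasurable_liminf hSm, ?_, ?_⟩
  · refine (lintegral_liminf_le' hSm).trans ?_
    exact (liminf_le_liminf (Eventually.of_forall hint)).trans (by rw [liminf_const])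
  · filter_upwards [hz] with x hx c hc
    have h1 : ∃ᶠ l in atTop, S l x < c := frequently_lt_of_liminf_lt (by isBoundedDefault) hc
    refine h1.mono fun l hl j hj => ?_
    by_cases hcj : C j = 0
    · rw [hx j hj hcj l]
      exact zero_le
    · have h2 : Φ j l x * (C j)⁻¹ ≤ c :=
        (Finset.single_le_sum (f := fun j => Φ j l x * (C j)⁻¹) (fun _ _ => zero_le) hj).trans hl.le
      rwa [← div_eq_mul_inv, ENNReal.div_le_iff hcj (hC j hj)] at h2

end Vale.Agent.P073.PK
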