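import Vale.Agent.P073.PK.Sob560a
import Vale.Agent.P073.PK.Origins
import Vale.Agent.P073.Net.NC

/-!
# P073: almost every origin is good for all rational segments and all dyadic edges
-/

namespace Vale.Agent.P073.PK

open MeasureTheory Set Filter Topology Metric Vale.Agent.P073.St
open Vale.Agent.P073.AB (cl RatGood eInt edge pt Idx EdgeOf tiles rho)
open Vale.Agent.P073.HB (WeakDeriv GoodSeg obox edgeSum vx ae_goodSeg_countable aemeasurable_segAvg
  aemeasurable_shear aemeasurable_edgeSum)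
open P073.Net (dyc IsTile SizeFn)
open scoped ENNReal NNReal ContDiff

variable {p : ℝ} {Ω Λ : Set V} {f : V → V} {F : V → Mat}

/-- **(b)** almost every origin is good for all the rational segments -/
theorem ae_ratGood (hp : 1 ≤ p) (hΩ : IsOpen Ω) (hv : volume Ω ≠ ⊤) (hf : ContinuousOn f Ω)
    (h : IsSobolev p Ω f F) : ∀ᵐ v : V, RatGood v Ω f F := by
  have h1 := ae_goodSeg_countable (μ := (volume : Measure V)) hΩ hf
    (IsSob.locallyIntegrableOn_cl hp hv h) (IsSob.weakDeriv hp hv h)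
    (ι := (Fin 3 → ℚ) × (Fin 3 → ℚ)) (fun i k => (i.1 k : ℝ)) (fun i k => (i.2 k : ℝ) - i.1 k)
  filter_upwards [h1] with v hv a b ha hb hs
  choose r hr using ha
  choose s hs' using hb
  have ea : a = v + fun k => (r k : ℝ) := by
    funext k
    rw [hr k, Pi.add_apply]
  have eb : b - a = fun k => (s k : ℝ) - r k := by
    funext k
    rw [Pi.sub_apply, hr k, hs' k]
    ring
  have h2 := hv (r, s) (fun t ht => ?_)
  · rw [eb]
    nth_rewrite 1 [ea]
    exact h2
  · apply hs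
    rw [segment_eq_image']
    refine ⟨t, ht, ?_⟩
    simp only
    rw [eb, ea]

theorem SQev_eq (j : Fin 3) (c : ℝ) : c • Vale.Agent.P073.SQ.ev j = HB.ev c j := by
  funext i
  simp only [Vale.Agent.P073.SQ.ev, HB.ev, Pi.smul_apply, Pi.single_apply, smul_eq_mul, mul_ite,
    mul_one, mul_zero]

theorem pt_eq_vx (v : V) (m : ℕ) (z : Fin 3 → ℤ) : pt v m z = vx v (1 / 2 ^ m) z := by
  funext i
  simp only [pt, vx]
  ring

/-- one edge is one term of the edge sum -/
theorem eInt_eq (v : V) (e : Idx × Fin 3) (H : V → ℝ≥0∞) :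
    eInt v e H = ENNReal.ofReal (1 / 2 ^ e.1.1) *
      ∫⁻ t in Ioc (0 : ℝ) 1, H (vx v (1 / 2 ^ e.1.1) e.1.2 + t • HB.ev (1 / 2 ^ e.1.1) e.2) := by
  rw [eInt, restrict_Ioc_eq_restrict_Icc]
  simp only [SQev_eq, pt_eq_vx]

theorem mem_edge {v : V} {e : Idx × Fin 3} {t : ℝ} (ht : t ∈ Icc (0 : ℝ) 1) :
    pt v e.1.1 e.1.2 + t • ((1 / 2 ^ e.1.1 : ℝ) • Vale.Agent.P073.SQ.ev e.2) ∈ edge v e := by
  rw [edge, segment_eq_image']
  exact ⟨t, ht, by simp⟩

theorem eInt_congr {v : V} {e : Idx × Fin 3} {H H' : V → ℝ≥0∞} (h : ∀ x ∈ edge v e, H x = H' x) :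
    eInt v e H = eInt v e H' := by
  rw [eInt, eInt]
  congr 1
  refine setLIntegral_congr_fun measurableSet_Icc fun t ht => ?_
  exact h _ (mem_edge ht)

theorem eInt_mono {v : V} {e : Idx × Fin 3} {H H' : V → ℝ≥0∞} (h : ∀ x ∈ edge v e, H x ≤ H' x) :
    eInt v e H ≤ eInt v e H' := by
  rw [eInt, eInt]
  refine mul_le_mul' le_rfl ?_
  refine setLIntegral_mono' measurableSet_Icc fun t ht => ?_
  exact h _ (mem_edge ht)

/-- almost every segment with a given vector has a finite integral -/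
theorem ae_seg_ne_top {κ : V → ℝ≥0∞} (hκ : AEMeasurable κ) (hi : ∫⁻ x, κ x ≠ ⊤) (a w : V) :
    ∀ᵐ o : V, ∫⁻ s in Ioc (0 : ℝ) 1, κ (o + a + s • w) ≠ ⊤ := by
  have hm := aemeasurable_shear (μ := (volume : Measure V)) hκ a w
  have hm2 : AEMeasurable (fun q : V × ℝ => κ (q.1 + a + q.2 • w))
      ((volume : Measure V).prod (volume.restrict (Ioc (0 : ℝ) 1))) := by
    refine hm.mono_measure ?_
    have h5 : (volume : Measure V).prod (volume.restrict (Ioc (0 : ℝ) 1)) =
        ((volume : Measure V).restrict univ).prod (volume.restrict (Ioc (0 : ℝ) 1)) := by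
      rw [Measure.restrict_univ]
    first
      | exact le_rfl
      | (rw [h5, Measure.prod_restrict]; exact Measure.restrict_le_self)
  have h1 : ∫⁻ o : V, (∫⁻ s in Ioc (0 : ℝ) 1, κ (o + a + s • w)) = ∫⁻ x, κ x := by
    rw [lintegral_lintegral_swap hm2]
    have h2 : ∀ s : ℝ, ∫⁻ o : V, κ (o + a + s • w) = ∫⁻ x, κ x := by
      intro s
      simp only [add_assoc]
      exact lintegral_add_right_eq_self (μ := (volume : Measure V)) κ _
    simp only [h2]
    rw [setLIntegral_const, Real.volume_Ioc]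
    simp
  have h3 := ae_lt_top' (aemeasurable_segAvg (μ := (volume : Measure V)) hκ a w)
    (by rw [h1]; exact hi)
  filter_upwards [h3] with o ho using ho.ne

theorem aemeasurable_dE (hΩ : MeasurableSet Ω) (h : IsSobolev p Ω f F) (w : V) :
    AEMeasurable (Ω.indicator fun x => ENNReal.ofReal (‖cl (F x) w‖ ^ p)) := by
  rw [aemeasurable_indicator_iff hΩ]
  exact ((((ContinuousLinearMap.apply ℝ V w).continuous.comp_aestronglyMeasurable
    (IsSob.aesm h)).norm.aemeasurable).pow_const p).ennreal_ofReal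

theorem dE_le (hp : 0 ≤ p) (x : V) (j : Fin 3) :
    ENNReal.ofReal (‖cl (F x) (SQ.ev j)‖ ^ p) ≤ ‖cl (F x)‖ₑ ^ p := by
  have h1 : ‖cl (F x) (SQ.ev j)‖ ≤ ‖cl (F x)‖ := by
    refine ((cl (F x)).le_opNorm _).trans ?_
    have h2 : ‖SQ.ev j‖ ≤ 1 := by
      rw [SQ.ev, Pi.norm_single]
      simp
    nlinarith [norm_nonneg (cl (F x)), norm_nonneg (SQ.ev j)]
  rw [← ofReal_norm, ENNReal.ofReal_rpow_of_nonneg (norm_nonneg _) hp]
  exact ENNReal.ofReal_le_ofReal (Real.rpow_le_rpow (norm_nonneg _) h1 hp)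

theorem lintegral_dE_ne_top (hp : 1 ≤ p) (hΩ : MeasurableSet Ω) (h : IsSobolev p Ω f F)
    (j : Fin 3) : ∫⁻ x, Ω.indicator (fun x => ENNReal.ofReal (‖cl (F x) (SQ.ev j)‖ ^ p)) x ≠ ⊤ := by
  rw [lintegral_indicator hΩ]
  refine ne_top_of_le_ne_top (IsSob.lintegral_ne_top hp h) ?_
  exact lintegral_mono fun x => dE_le (by linarith) x j

/-- **(c)** almost every origin: the energy of every dyadic edge inside `Ω` is finite -/
theorem ae_fin (hp : 1 ≤ p) (hΩ : MeasurableSet Ω) (h : IsSobolev p Ω f F) :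
    ∀ᵐ v : V, ∀ e : Idx × Fin 3, edge v e ⊆ Ω →
      eInt v e (fun x => ENNReal.ofReal (‖cl (F x) (SQ.ev e.2)‖ ^ p)) ≠ ⊤ := by
  rw [ae_all_iff]
  intro e
  have h1 := ae_seg_ne_top (aemeasurable_dE hΩ h (SQ.ev e.2)) (lintegral_dE_ne_top hp hΩ h e.2)
    ((1 / 2 ^ e.1.1 : ℝ) • fun i => (e.1.2 i : ℝ)) (HB.ev (1 / 2 ^ e.1.1) e.2)
  filter_upwards [h1] with v hv hsub
  rw [eInt_congr (H' := Ω.indicator fun x => ENNReal.ofReal (‖cl (F x) (SQ.ev e.2)‖ ^ p))
    (fun x hx => (indicator_of_mem (hsub hx) _).symm), eInt_eq]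
  refine ENNReal.mul_ne_top ENNReal.ofReal_ne_top ?_
  rw [HB.vx_eq]
  exact hv

/-! ### The size function -/

theorem sizeFn_rho (hΩ : IsOpen Ω) (hb : Bornology.IsBounded Ω) (n : ℕ) :
    SizeFn Ω (rho Ω n) := by
  have hne : (Ωᶜ : Set V).Nonempty := by
    by_contra h
    rw [not_nonempty_iff_eq_empty, compl_empty_iff] at h
    rw [h] at hb
    exact NormedSpace.unbounded_univ ℝ V hb
  refine ⟨fun x y => ?_, fun x hx => ?_, fun x hx => ?_, fun x => ?_⟩
  · have h1 : infDist x Ωᶜ ≤ infDist y Ωᶜ + dist x y := infDist_le_infDist_add_dist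
    rw [dist_eq_norm] at h1
    have h2 := norm_nonneg (x - y)
    unfold rho
    rw [← min_add_add_right]
    exact min_le_min (by linarith) h1
  · refine lt_min (by positivity) ?_
    exact (hΩ.isClosed_compl.notMem_iff_infDist_pos hne).1 (fun h => h hx)
  · exact (min_le_right _ _).trans (infDist_zero_of_mem hx).le
  · refine (min_le_left _ _).trans ?_
    rw [div_le_one (by positivity)]
    exact one_le_pow₀ (by norm_num)

/-! ### (d) the energy of the edges of the tiles -/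

/-- the part of `Ω` where tiles of generation `l` may live -/
def layer (Ω : Set V) (n l : ℕ) : Set V := {x | (1 / 2 ^ l : ℝ) ≤ rho Ω n x ∧ rho Ω n x ≤ 4 / 2 ^ l}

theorem continuous_rho (Ω : Set V) (n : ℕ) : Continuous (rho Ω n) :=
  continuous_const.min (continuous_infDist_pt _)

theorem measurableSet_layer (Ω : Set V) (n l : ℕ) : MeasurableSet (layer Ω n l) :=
  ((isClosed_le continuous_const (continuous_rho Ω n)).inter
    (isClosed_le (continuous_rho Ω n) continuous_const)).measurableSet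

theorem layer_subset (hΩ : IsOpen Ω) (hb : Bornology.IsBounded Ω) (n l : ℕ) : layer Ω n l ⊆ Ω := by
  intro x hx
  by_contra h
  have h1 := (sizeFn_rho hΩ hb n).off x h
  have h2 := hx.1
  have h3 : (0 : ℝ) < 1 / 2 ^ l := by positivity
  linarith

/-- the layers overlap three times at most -/
theorem tsum_layer_le (Ω : Set V) (n : ℕ) (x : V) :
    ∑' l : ℕ, (layer Ω n l).indicator (1 : V → ℝ≥0∞) x ≤ 3 := by
  classical
  by_cases h : ∃ l, x ∈ layer Ω n l
  · set l₀ := Nat.find h with hl₀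
    have h0 : x ∈ layer Ω n l₀ := Nat.find_spec h
    have hsub : ∀ l, l ∉ Finset.Icc l₀ (l₀ + 2) → (layer Ω n l).indicator (1 : V → ℝ≥0∞) x = 0 := by
      intro l hl
      refine indicator_of_notMem (fun hx => hl ?_) _
      rw [Finset.mem_Icc]
      refine ⟨Nat.find_min' h hx, ?_⟩
      by_contra hlt
      push Not at hlt
      have h2 : rho Ω n x ≤ 4 / 2 ^ l := hx.2
      have h3 : (1 / 2 ^ l₀ : ℝ) ≤ rho Ω n x := h0.1
      have h4 : (4 / 2 ^ l : ℝ) < 1 / 2 ^ l₀ := by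
        rw [div_lt_div_iff₀ (by positivity) (by positivity)]
        have h5 : (2 : ℝ) ^ (l₀ + 3) ≤ 2 ^ l := pow_le_pow_right₀ (by norm_num) (by omega)
        rw [pow_add] at h5
        have h6 : (0 : ℝ) < 2 ^ l₀ := by positivity
        nlinarith
      linarith
    rw [tsum_eq_sum hsub]
    calc ∑ l ∈ Finset.Icc l₀ (l₀ + 2), (layer Ω n l).indicator (1 : V → ℝ≥0∞) x
        ≤ ∑ _l ∈ Finset.Icc l₀ (l₀ + 2), (1 : ℝ≥0∞) := Finset.sum_le_sum fun l _ =>
          indicator_le_self _ _ _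
      _ = 3 := by
        rw [Finset.sum_const, Nat.card_Icc, nsmul_eq_mul, mul_one,
          show l₀ + 2 + 1 - l₀ = 3 by omega]
        norm_num
  · push Not at h
    simp [indicator_of_notMem (h _)]

/-- the functional -/
noncomputable def tileSum (Ω : Set V) (n : ℕ) (κ : V → ℝ≥0∞) (v : V) : ℝ≥0∞ :=
  ∑' l : ℕ, edgeSum ((layer Ω n l).indicator κ) v (1 / 2 ^ l) * ((2 : ℝ≥0∞) ^ l)⁻¹ ^ 3

theorem aemeasurable_layer {κ : V → ℝ≥0∞} (hκ : AEMeasurable κ) (n l : ℕ) :
    AEMeasurable ((layer Ω n l).indicator κ) :=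
  hκ.indicator (measurableSet_layer Ω n l)

theorem aemeasurable_tileSum {κ : V → ℝ≥0∞} (hκ : AEMeasurable κ) (n : ℕ) :
    AEMeasurable (tileSum Ω n κ) := by
  unfold tileSum
  exact AEMeasurable.tsum fun l => (aemeasurable_edgeSum (aemeasurable_layer hκ n l) _).mul_const _

/-- the average of the tile sum -/
theorem lintegral_tileSum_le (hΩ : IsOpen Ω) (hb : Bornology.IsBounded Ω) {κ : V → ℝ≥0∞}
    (hκ : AEMeasurable κ) (n : ℕ) :
    ∫⁻ v in obox 3 1, tileSum Ω n κ v ≤ 9 * ∫⁻ x in Ω, κ x := by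
  unfold tileSum
  rw [lintegral_tsum fun l =>
    ((aemeasurable_edgeSum (aemeasurable_layer hκ n l) _).mul_const _).restrict]
  simp only [lintegral_edgeSum_scaled (aemeasurable_layer hκ n _)]
  rw [ENNReal.tsum_mul_left, ← lintegral_tsum fun l => aemeasurable_layer hκ n l]
  have h1 : ∀ x, ∑' l : ℕ, (layer Ω n l).indicator κ x ≤ 3 * Ω.indicator κ x := by
    intro x
    have h2 : ∀ l, (layer Ω n l).indicator κ x =
        (layer Ω n l).indicator (1 : V → ℝ≥0∞) x * Ω.indicator κ x := by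
      intro l
      by_cases hx : x ∈ layer Ω n l
      · rw [indicator_of_mem hx, indicator_of_mem hx, Pi.one_apply, one_mul,
          indicator_of_mem (layer_subset hΩ hb n l hx)]
      · rw [indicator_of_notMem hx, indicator_of_notMem hx, zero_mul]
    simp only [h2]
    rw [ENNReal.tsum_mul_right]
    exact mul_le_mul' (tsum_layer_le Ω n x) le_rfl
  calc ((3 : ℕ) : ℝ≥0∞) * ∫⁻ x, ∑' l : ℕ, (layer Ω n l).indicator κ x
      ≤ 3 * ∫⁻ x, 3 * Ω.indicator κ x := by
        push_cast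
        exact mul_le_mul' le_rfl (lintegral_mono h1)
    _ = 3 * (3 * ∫⁻ x in Ω, κ x) := by
        rw [lintegral_const_mul' _ _ (by norm_num), lintegral_indicator hΩ.measurableSet]
    _ = 9 * ∫⁻ x in Ω, κ x := by
        rw [← mul_assoc]
        norm_num

/-- an edge of a cube is contained in the cube -/
theorem edge_sub_of_edgeOf {v : V} {e : Idx × Fin 3} {q : Idx} (h : EdgeOf e q) :
    edge v e ⊆ dyc v q.1 q.2 := by
  obtain ⟨h1, h2, h3⟩ := h
  rintro x hx
  rw [edge, segment_eq_image'] at hx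
  obtain ⟨t, ht, rfl⟩ := hx
  intro k
  have h4 : (0 : ℝ) < 2 ^ q.1 := by positivity
  simp only [add_sub_cancel_left, Pi.add_apply, pt, Pi.smul_apply, smul_eq_mul, SQ.ev, h1]
  have h5 : ((q.2 k : ℝ) + 1) / 2 ^ q.1 = q.2 k / 2 ^ q.1 + 1 / 2 ^ q.1 := add_div _ _ _
  have h6 : (0 : ℝ) < 1 / 2 ^ q.1 := by positivity
  by_cases hk : k = e.2
  · subst hk
    rw [Pi.single_eq_same, h2, h5]
    constructor <;> nlinarith [ht.1, ht.2]
  · rw [Pi.single_eq_of_ne hk, mul_zero, mul_zero, add_zero]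
    rcases h3 k hk with h | h
    · rw [h, h5]
      constructor <;> linarith
    · rw [h]
      push_cast
      rw [h5]
      constructor <;> linarith

/-- **(d)** the energy of the edges of the tiles is controlled by `tileSum` -/
theorem tsum_tiles_le (hΩ : IsOpen Ω) (hb : Bornology.IsBounded Ω) (n : ℕ) (κ : V → ℝ≥0∞)
    (v : V) :
    ∑' e : {e : Idx × Fin 3 // ∃ q ∈ tiles Ω n v, EdgeOf e q},
      ENNReal.ofReal ((1 / 2 ^ e.1.1.1) ^ 2) * eInt v e.1 κ ≤ tileSum Ω n κ v := by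
  have hT : tileSum Ω n κ v = ∑' e : Idx × Fin 3, ENNReal.ofReal ((1 / 2 ^ e.1.1) ^ 2) *
      eInt v e ((layer Ω n e.1.1).indicator κ) := by
    rw [tileSum]
    simp only [edgeSum, ← ENNReal.tsum_mul_right]
    rw [ENNReal.tsum_prod', ENNReal.tsum_prod']
    refine tsum_congr fun l => ?_
    rw [ENNReal.tsum_prod']
    refine tsum_congr fun z => tsum_congr fun i => ?_
    rw [eInt_eq, ← mul_assoc, ← ENNReal.ofReal_mul (by positivity), mul_comm]
    congr 1
    have e1 : ((2 : ℝ≥0∞) ^ l)⁻¹ = ENNReal.ofReal (1 / 2 ^ l) := by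
      rw [one_div, ENNReal.ofReal_inv_of_pos (by positivity), ENNReal.ofReal_pow (by norm_num),
        ENNReal.ofReal_ofNat]
    rw [e1, ← ENNReal.ofReal_pow (by positivity)]
    congr 1
  rw [hT]
  calc ∑' e : {e : Idx × Fin 3 // ∃ q ∈ tiles Ω n v, EdgeOf e q},
      ENNReal.ofReal ((1 / 2 ^ e.1.1.1) ^ 2) * eInt v e.1 κ
      ≤ ∑' e : {e : Idx × Fin 3 // ∃ q ∈ tiles Ω n v, EdgeOf e q},
        ENNReal.ofReal ((1 / 2 ^ e.1.1.1) ^ 2) *
          eInt v e.1 ((layer Ω n e.1.1.1).indicator κ) := by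
        refine ENNReal.tsum_le_tsum fun e => mul_le_mul' le_rfl ?_
        refine eInt_mono fun x hx => ?_
        obtain ⟨q, hq, heq⟩ := e.2
        have hxq : x ∈ dyc v q.1 q.2 := edge_sub_of_edgeOf heq hx
        rw [indicator_of_mem]
        have hq' : IsTile (rho Ω n) v q.1 q.2 := hq
        have h1 := P073.Net.NC.upper (sizeFn_rho hΩ hb n) hq' hxq
        have h2 := hq'.1 x hxq
        rw [heq.1]
        exact ⟨h2, h1⟩
    _ ≤ _ := ENNReal.tsum_comp_le_tsum_of_injective Subtype.val_injective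
        (fun e : Idx × Fin 3 => ENNReal.ofReal ((1 / 2 ^ e.1.1) ^ 2) *
          eInt v e ((layer Ω n e.1.1).indicator κ))

end Vale.Agent.P073.PK
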