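import Vale.Agent.P073.PK.Grid

/-!
# P073, packing: the number of very good cells of a generic fine grid
-/

namespace Vale.Agent.P073.PK

open Set Filter Topology Metric MeasureTheory
open scoped ENNReal NNReal
open Vale.Agent.P073.HB

variable {k : ℕ} {Y : Type*} [NormedAddCommGroup Y] [NormedSpace ℝ Y]
  {g : (Fin k → ℝ) → Y} {G : (Fin k → ℝ) → ((Fin k → ℝ) →L[ℝ] Y)}
  {E E' U S : Set (Fin k → ℝ)} {θ M η δ d : ℝ} {o : Fin k → ℝ} {m τ ρ lam p : ℝ}

/-- The density `1 + ‖G‖ ^ p` on the part of `U` outside `S`. -/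
noncomputable def dens (G : (Fin k → ℝ) → ((Fin k → ℝ) →L[ℝ] Y)) (p : ℝ) (U S : Set (Fin k → ℝ)) :
    (Fin k → ℝ) → ℝ≥0∞ := (U \ S).indicator fun x => 1 + ‖G x‖ₑ ^ p

theorem aemeasurable_dens (hU : MeasurableSet U) (hS : MeasurableSet S)
    (hG : AEStronglyMeasurable G (volume.restrict U)) (p : ℝ) :
    AEMeasurable (dens G p U S) volume := by
  unfold dens
  rw [aemeasurable_indicator_iff (hU.diff hS)]
  have h1 : AEStronglyMeasurable G (volume.restrict (U \ S)) :=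
    hG.mono_measure (Measure.restrict_mono sdiff_subset le_rfl)
  exact (h1.enorm.pow_const p).const_add 1

theorem lintegral_dens (hU : MeasurableSet U) (hS : MeasurableSet S) (p : ℝ) :
    ∫⁻ x, dens G p U S x = ∫⁻ x in U \ S, (1 + ‖G x‖ₑ ^ p) := by
  unfold dens
  rw [lintegral_indicator (hU.diff hS)]

theorem beta_eq (hS : MeasurableSet S) {l : (Fin k → ℤ) × Fin k} (hl : l ∈ edgesIn U o m) :
    beta G p S (ga o m) (gv m) l =
      ∫⁻ t in Ioc (0 : ℝ) 1, dens G p U S (ga o m l + t • gv m l) := by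
  set A : Set ℝ := (fun t : ℝ => ga o m l + t • gv m l) ⁻¹' Sᶜ with hA
  have hAm : MeasurableSet A :=
    (by fun_prop : Continuous fun t : ℝ => ga o m l + t • gv m l).measurable hS.compl
  have e1 : ∫⁻ t in Ioc (0 : ℝ) 1, dens G p U S (ga o m l + t • gv m l) =
      ∫⁻ t in Icc (0 : ℝ) 1, dens G p U S (ga o m l + t • gv m l) := by
    rw [restrict_Ioc_eq_restrict_Icc]
  rw [e1, beta]
  have e2 : ∫⁻ t in Icc (0 : ℝ) 1, dens G p U S (ga o m l + t • gv m l) =
      ∫⁻ t in Icc (0 : ℝ) 1, A.indicator (fun t => 1 + ‖G (ga o m l + t • gv m l)‖ₑ ^ p) t := by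
    refine setLIntegral_congr_fun measurableSet_Icc fun t ht => ?_
    have htU := hl t ht
    simp only [dens]
    by_cases h : ga o m l + t • gv m l ∈ S
    · rw [indicator_of_notMem (fun h' => h'.2 h), indicator_of_notMem]
      exact fun h' => h' h
    · have h1 : ga o m l + t • gv m l ∈ U \ S := ⟨htU, h⟩
      have h2 : t ∈ A := h
      rw [indicator_of_mem h1, indicator_of_mem h2]
  rw [e2, lintegral_indicator hAm, Measure.restrict_restrict hAm, inter_comm]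

/-- The sum of the bad parts of the edges. -/
theorem sum_beta_le (hS : MeasurableSet S) (L : Finset ((Fin k → ℤ) × Fin k))
    (hL : ∀ l ∈ L, l ∈ edgesIn U o m) :
    ∑ l ∈ L, beta G p S (ga o m) (gv m) l ≤ edgeSum (dens G p U S) o m := by
  calc ∑ l ∈ L, beta G p S (ga o m) (gv m) l
      = ∑ l ∈ L, ∫⁻ t in Ioc (0 : ℝ) 1, dens G p U S (ga o m l + t • gv m l) :=
        Finset.sum_congr rfl fun l hl => beta_eq hS (hL l hl)
    _ ≤ _ := ENNReal.sum_le_tsum _

/-- The net of the fine edges contained in `U`. -/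
theorem grid_net (hm : 0 < m) {N : ℕ} (hN : 0 < N) (I : Finset (Fin k → ℤ))
    (L : Finset ((Fin k → ℤ) × Fin k))
    (hgood : ∀ l ∈ L, GoodSeg g G (ga o m l) (gv m l)) :
    Net g G o (N * m) m I L (ga o m) (gv m) (2 ^ k) where
  good := hgood
  len l _ := norm_gv hm.le l
  aligned l _ n _ := aligned_grid hm hN l n
  mult l _ J _ hJ' := mult_grid hm hN l J hJ'

/-- **Generic origins.** -/
theorem exists_origin [CompleteSpace Y] (hU : IsOpen U) (hg : ContinuousOn g U)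
    (hG : LocallyIntegrableOn G U) (hw : WeakDeriv volume U g G) (hm : 0 < m) {ι : Type*}
    (J : Finset ι) (κ : ι → (Fin k → ℝ) → ℝ≥0∞) (hκ : ∀ j ∈ J, AEMeasurable (κ j))
    {P : (Fin k → ℝ) → Prop} (hP : ∀ᵐ o, P o) :
    ∃ o ∈ obox k m, P o ∧ (∀ l ∈ edgesIn U o m, GoodSeg g G (ga o m l) (gv m l)) ∧
      ∀ j ∈ J, edgeSum (κ j) o m * ENNReal.ofReal m ^ k ≤ J.card * (k * ∫⁻ x, κ j x) := by
  have hgood := ae_goodSeg_countable (μ := volume) (ι := (Fin k → ℤ) × Fin k) hU hg hG hw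
    (fun l => m • fun i => (l.1 i : ℝ)) (fun l => gv m l)
  obtain ⟨o, ho, h1, h2⟩ := exists_generic_origin hm J κ hκ
    (P := fun o => P o ∧ ∀ l ∈ edgesIn U o m, GoodSeg g G (ga o m l) (gv m l)) (by
      filter_upwards [hP, hgood] with o h1 h2
      refine ⟨h1, fun l hl => ?_⟩
      have h3 := h2 l
      simp only [← vx_eq] at h3
      exact h3 hl)
  exact ⟨o, ho, h1.1, h1.2, h2⟩

open Classical in
/-- **The number of cells which are not very good**, for a generic grid. -/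
theorem card_grid_le (h : Pack g G E E' θ M η δ d) {N : ℕ} (hN : 0 < N)
    (hs : Scale θ M η δ d (N * m) m τ) (hθ : 0 < θ) (hρ : m / 2 ≤ ρ) (hρ' : ρ ≤ m)
    (hE : IsCompact E) (hE' : IsCompact E') (hτ : 0 < τ) (hp : 1 ≤ p) (hlam : 0 < lam)
    (hU : MeasurableSet U) (hEU : cthickening (N * m) E ⊆ U \ E')
    {L : Finset ((Fin k → ℤ) × Fin k)} (hL : ∀ l ∈ L, l ∈ edgesIn U o m)
    (hgood : ∀ l ∈ L, GoodSeg g G (ga o m l) (gv m l)) {c : ℝ≥0∞}
    (ho : edgeSum (dens G p U (E ∪ E')) o m * ENNReal.ofReal m ^ k ≤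
      c * ∫⁻ x, dens G p U (E ∪ E') x)
    {I : Finset (Fin k → ℤ)} (hI : ∀ n ∈ I, n ∈ cellsOf E o (N * m))
    {b : (Fin k → ℤ) → (Fin k → ℝ)} (hb : ∀ n ∈ I, b n ∈ E)
    (hb' : ∀ n ∈ I, b n ∈ closedBall (ctr o (N * m) n) (N * m / 2)) :
    ((I.filter fun n => ¬ VeryGood g G p E E' o (N * m) ρ τ lam L (ga o m) (gv m) b n).card :
      ℝ≥0∞) * ENNReal.ofReal (N * m) ^ k ≤
      (ENNReal.ofReal (N * m / τ) ^ k + (2 ^ k / ENNReal.ofReal lam +
        ENNReal.ofReal (1 + 16 / θ)) * c * N ^ k) * ∫⁻ x, dens G p U (E ∪ E') x := by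
  have hm := hs.m_pos
  have hNm : 0 < (N : ℝ) * m := by positivity
  have hEm := hE.measurableSet
  have hE'm := hE'.measurableSet
  set D := ∫⁻ x, dens G p U (E ∪ E') x with hD
  have h1 := card_not_veryGood (o := o) h hs hθ hρ hρ' hEm hτ hp hlam hb hb'
    (grid_net (g := g) (G := G) (o := o) hm hN I L hgood)
  have hV : volume ((⋃ n ∈ I, ball (ctr o (N * m) n) (N * m / 2)) \ E) ≤ D := by
    rw [hD, lintegral_dens hU (hEm.union hE'm)]
    have hsub : (⋃ n ∈ I, ball (ctr o (N * m) n) (N * m / 2)) \ E ⊆ U \ (E ∪ E') := by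
      rintro x ⟨hx, hxE⟩
      simp only [mem_iUnion] at hx
      obtain ⟨n, hn, hx⟩ := hx
      have h2 := hEU (cell_subset_cthickening (hI n hn) (ball_subset_closedBall hx))
      exact ⟨h2.1, fun h3 => h3.elim hxE h2.2⟩
    calc _ ≤ volume (U \ (E ∪ E')) := measure_mono hsub
      _ = ∫⁻ x in U \ (E ∪ E'), 1 := by rw [setLIntegral_const, one_mul]
      _ ≤ _ := lintegral_mono fun x => le_self_add
  have hβ := sum_beta_le (G := G) (p := p) (o := o) (m := m) (hEm.union hE'm) L hL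
  have hτk : ENNReal.ofReal (τ ^ k) ≠ 0 := by
    rw [Ne, ENNReal.ofReal_eq_zero, not_le]
    positivity
  have e1 : ENNReal.ofReal (N * m) ^ k = ENNReal.ofReal (N * m / τ) ^ k * ENNReal.ofReal (τ ^ k) := by
    rw [ENNReal.ofReal_pow hτ.le, ← mul_pow, ← ENNReal.ofReal_mul (by positivity),
      div_mul_cancel₀ _ hτ.ne']
  have e2 : ENNReal.ofReal (N * m) ^ k = (N : ℝ≥0∞) ^ k * ENNReal.ofReal m ^ k := by
    rw [ENNReal.ofReal_mul (by positivity), ENNReal.ofReal_natCast, mul_pow]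
  have hK : ((2 ^ k : ℕ) : ℝ≥0∞) = 2 ^ k := by push_cast; rfl
  rw [hK] at h1
  calc _ ≤ (volume ((⋃ n ∈ I, ball (ctr o (N * m) n) (N * m / 2)) \ E) / ENNReal.ofReal (τ ^ k) +
      (2 ^ k / ENNReal.ofReal lam + ENNReal.ofReal (1 + 16 / θ)) *
        ∑ l ∈ L, beta G p (E ∪ E') (ga o m) (gv m) l) * ENNReal.ofReal (N * m) ^ k :=
        mul_le_mul_left h1 _
    _ ≤ (D / ENNReal.ofReal (τ ^ k) +
      (2 ^ k / ENNReal.ofReal lam + ENNReal.ofReal (1 + 16 / θ)) *
        edgeSum (dens G p U (E ∪ E')) o m) * ENNReal.ofReal (N * m) ^ k := by gcongr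
    _ = D / ENNReal.ofReal (τ ^ k) * ENNReal.ofReal (N * m) ^ k +
        (2 ^ k / ENNReal.ofReal lam + ENNReal.ofReal (1 + 16 / θ)) *
        edgeSum (dens G p U (E ∪ E')) o m * ENNReal.ofReal (N * m) ^ k := add_mul _ _ _
    _ = ENNReal.ofReal (N * m / τ) ^ k * D +
        (2 ^ k / ENNReal.ofReal lam + ENNReal.ofReal (1 + 16 / θ)) * N ^ k *
        (edgeSum (dens G p U (E ∪ E')) o m * ENNReal.ofReal m ^ k) := by
        congr 1
        · rw [e1, mul_comm (ENNReal.ofReal (N * m / τ) ^ k), ← mul_assoc,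
            ENNReal.div_mul_cancel hτk ENNReal.ofReal_ne_top, mul_comm]
        · rw [e2]
          ring
    _ ≤ ENNReal.ofReal (N * m / τ) ^ k * D +
        (2 ^ k / ENNReal.ofReal lam + ENNReal.ofReal (1 + 16 / θ)) * N ^ k * (c * D) := by gcongr
    _ = _ := by ring

open Classical in
/-- **Most of `E` is covered by the very good cells**, for a generic grid. -/
theorem volume_diff_veryGood_le (h : Pack g G E E' θ M η δ d) {N : ℕ} (hN : 0 < N)
    (hs : Scale θ M η δ d (N * m) m τ) (hθ : 0 < θ) (hρ : m / 2 ≤ ρ) (hρ' : ρ ≤ m)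
    (hE : IsCompact E) (hE' : IsCompact E') (hτ : 0 < τ) (hp : 1 ≤ p) (hlam : 0 < lam)
    (hU : MeasurableSet U) (hEU : cthickening (N * m) E ⊆ U \ E')
    {L : Finset ((Fin k → ℤ) × Fin k)} (hL : ∀ l ∈ L, l ∈ edgesIn U o m)
    (hgood : ∀ l ∈ L, GoodSeg g G (ga o m l) (gv m l)) {c : ℝ≥0∞}
    (ho : edgeSum (dens G p U (E ∪ E')) o m * ENNReal.ofReal m ^ k ≤
      c * ∫⁻ x, dens G p U (E ∪ E') x)
    {I : Finset (Fin k → ℤ)} (hI : ∀ n, n ∈ I ↔ n ∈ cellsOf E o (N * m))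
    {b : (Fin k → ℤ) → (Fin k → ℝ)} (hb : ∀ n ∈ I, b n ∈ E)
    (hb' : ∀ n ∈ I, b n ∈ closedBall (ctr o (N * m) n) (N * m / 2)) :
    volume (E \ ⋃ n ∈ I.filter fun n =>
        VeryGood g G p E E' o (N * m) ρ τ lam L (ga o m) (gv m) b n,
      closedBall (ctr o (N * m) n) (N * m / 2)) ≤
      (ENNReal.ofReal (N * m / τ) ^ k + (2 ^ k / ENNReal.ofReal lam +
        ENNReal.ofReal (1 + 16 / θ)) * c * N ^ k) * ∫⁻ x, dens G p U (E ∪ E') x := by
  refine le_trans ?_ (card_grid_le h hN hs hθ hρ hρ' hE hE' hτ hp hlam hU hEU hL hgood ho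
    (fun n hn => (hI n).1 hn) hb hb')
  have hm := hs.m_pos
  have hNm : 0 < (N : ℝ) * m := by positivity
  set VG := fun n => VeryGood g G p E E' o (N * m) ρ τ lam L (ga o m) (gv m) b n with hVG
  have hsub : E \ (⋃ n ∈ I.filter VG, closedBall (ctr o (N * m) n) (N * m / 2)) ⊆
      ⋃ n ∈ I.filter fun n => ¬ VG n, closedBall (ctr o (N * m) n) (N * m / 2) := by
    rintro x ⟨hxE, hx⟩
    obtain ⟨n, hn⟩ := exists_cell o hNm x
    have hnI : n ∈ I := (hI n).2 ⟨x, hxE, hn⟩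
    by_cases hg : VG n
    · exact absurd (mem_biUnion (Finset.mem_coe.2 (Finset.mem_filter.2 ⟨hnI, hg⟩)) hn) hx
    · exact mem_biUnion (Finset.mem_coe.2 (Finset.mem_filter.2 ⟨hnI, hg⟩)) hn
  calc _ ≤ volume (⋃ n ∈ I.filter fun n => ¬ VG n, closedBall (ctr o (N * m) n) (N * m / 2)) :=
        measure_mono hsub
    _ ≤ ∑ n ∈ I.filter fun n => ¬ VG n, volume (closedBall (ctr o (N * m) n) (N * m / 2)) :=
        measure_biUnion_finset_le _ _
    _ = ∑ _n ∈ I.filter fun n => ¬ VG n, ENNReal.ofReal (N * m) ^ k := by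
        refine Finset.sum_congr rfl fun n _ => ?_
        rw [Real.volume_pi_closedBall _ (by positivity), Fintype.card_fin,
          ENNReal.ofReal_pow (by positivity)]
        congr 2
        ring
    _ = _ := by rw [Finset.sum_const, nsmul_eq_mul]

end Vale.Agent.P073.PK
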