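import Vale.Agent.P073.PK.Avoid
import Vale.Agent.P073.PK.GridCount

/-!
# P073, packing: all the data of a fine grid
-/

set_option linter.unusedSectionVars false

namespace Vale.Agent.P073.PK

open Set Filter Topology Metric MeasureTheory
open scoped ENNReal NNReal
open Vale.Agent.P073.HB

variable {k : ℕ} {Y : Type*} [NormedAddCommGroup Y] [NormedSpace ℝ Y]
  {g : (Fin k → ℝ) → Y} {G : (Fin k → ℝ) → ((Fin k → ℝ) →L[ℝ] Y)}
  {E E' U : Set (Fin k → ℝ)} {θ M η t₀ lam : ℝ}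

/-- The data of a fine grid of mesh `m`: all the relations between the constants which hold for
small meshes. -/
structure Fine (g : (Fin k → ℝ) → Y) (G : (Fin k → ℝ) → ((Fin k → ℝ) →L[ℝ] Y))
    (E E' U : Set (Fin k → ℝ)) (D : Set Y) (θ M η t₀ : ℝ) (N : ℕ) (δ d e m : ℝ) : Prop where
  pack : Pack g G E E' θ M η δ d
  scale : Scale θ M η δ d (N * m) m (t₀ * m)
  thick : cthickening (N * m) E ⊆ U \ E'
  img : ∀ (o : Fin k → ℝ) (ρ : ℝ) (b : (Fin k → ℤ) → (Fin k → ℝ)) (n : Fin k → ℤ), 0 ≤ ρ →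
    b n ∈ E → b n ∈ closedBall (ctr o (N * m) n) (N * m / 2) →
      Disjoint (cthickening e (img g G o (N * m) ρ b n)) D

theorem exists_fine (hU : IsOpen U) (hg : ContinuousOn g U) (hi : InjOn g U) (hE : IsCompact E)
    (hE' : IsCompact E') (hEU : E ⊆ U) (hEU' : E' ⊆ U) (hdis : Disjoint E E') (hud : UDiff g G E)
    (hG : ContinuousOn G E) (hθ : ∀ x ∈ E, ∀ v, θ * ‖v‖ ≤ ‖G x v‖) (hM0 : 0 < M)
    (hM : ∀ x ∈ E, ‖G x‖ ≤ M) {N : ℕ} (hN : 0 < N) (hη : 0 < η)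
    (hs : ∀ δ d : ℝ, 0 < δ → 0 < d → ∃ m₀ : ℝ, 0 < m₀ ∧ ∀ m : ℝ, 0 < m → m ≤ m₀ →
        Scale θ M η δ d (N * m) m (t₀ * m)) {D : Set Y} (hD : IsClosed D)
    (hDE : Disjoint (g '' E) D) :
    ∃ δ d e m₀ : ℝ, 0 < δ ∧ 0 < d ∧ 0 < e ∧ 0 < m₀ ∧ ∀ m : ℝ, 0 < m → m ≤ m₀ →
      Fine g G E E' U D θ M η t₀ N δ d e m := by
  obtain ⟨δ, d, hδ, hd, hP⟩ := exists_pack hg hi hE hE' hEU hEU' hdis hud hG hη hθ hM
  obtain ⟨m₁, hm₁, h1⟩ := hs δ d hδ hd
  obtain ⟨e, he, h2⟩ := exists_avoid_closed hE (hg.mono hEU) (G := G) hD hDE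
  obtain ⟨s, hs0, h3⟩ := hE.exists_cthickening_subset_open (hU.sdiff hE'.isClosed)
    (fun x hx => ⟨hEU hx, fun hx' => Set.disjoint_left.1 hdis hx hx'⟩)
  have hN' : (0 : ℝ) < N := by exact_mod_cast hN
  refine ⟨δ, d, e, min m₁ (min (s / N) (e / (M * N))), hδ, hd, he, by positivity, ?_⟩
  intro m hm hmm
  have ha : m ≤ m₁ := hmm.trans (min_le_left _ _)
  have hb : m ≤ s / N := hmm.trans ((min_le_right _ _).trans (min_le_left _ _))
  have hc : m ≤ e / (M * N) := hmm.trans ((min_le_right _ _).trans (min_le_right _ _))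
  rw [le_div_iff₀ (by positivity)] at hb hc
  refine ⟨hP, h1 m hm ha, ?_, ?_⟩
  · exact (cthickening_mono (by linarith) E).trans h3
  · intro o ρ b n hρ hbn hbn'
    exact h2 hP hρ (by linarith) hbn hbn'

/-- The cells which are finally chosen: very good, and their images avoid `K₀`. -/
structure Sel (g : (Fin k → ℝ) → Y) (G : (Fin k → ℝ) → ((Fin k → ℝ) →L[ℝ] Y)) (p : ℝ)
    (E E' : Set (Fin k → ℝ)) (K₀ : Set Y) (o : Fin k → ℝ) (r ρ τ lam : ℝ)
    (L : Finset ((Fin k → ℤ) × Fin k)) (m : ℝ)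
    (b : (Fin k → ℤ) → (Fin k → ℝ)) (n : Fin k → ℤ) : Prop where
  vg : VeryGood g G p E E' o r ρ τ lam L (ga o m) (gv m) b n
  avoid : Disjoint (img g G o r ρ b n) K₀

open Classical in
/-- **The number of cells which are not selected.** -/
theorem card_not_sel_le {δ d e m ρ p : ℝ} {D : Set Y} {N : ℕ} (h : Fine g G E E' U D θ M η t₀ N δ d e m)
    (hN : 0 < N) (hθ : 0 < θ) (hρ : m / 2 ≤ ρ) (hρ' : ρ ≤ m)
    (hE : IsCompact E) (hE' : IsCompact E') (ht₀ : 0 < t₀) (hp : 1 ≤ p) (hlam : 0 < lam)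
    (hU : MeasurableSet U) {o : Fin k → ℝ}
    {L : Finset ((Fin k → ℤ) × Fin k)} (hL : ∀ l ∈ L, l ∈ edgesIn U o m)
    (hgood : ∀ l ∈ L, GoodSeg g G (ga o m l) (gv m l)) {c : ℝ≥0∞}
    (ho : edgeSum (dens G p U (E ∪ E')) o m * ENNReal.ofReal m ^ k ≤
      c * ∫⁻ x, dens G p U (E ∪ E') x)
    {I : Finset (Fin k → ℤ)} (hI : ∀ n ∈ I, n ∈ cellsOf E o (N * m))
    {b : (Fin k → ℤ) → (Fin k → ℝ)} (hb : ∀ n ∈ I, b n ∈ E)
    (hb' : ∀ n ∈ I, b n ∈ closedBall (ctr o (N * m) n) (N * m / 2)) {K₀ : Set Y} {ε : ℝ≥0∞}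
    (hK₀ : ∀ I' : Finset (Fin k → ℤ), Cells E o (N * m) (t₀ * m) I' b →
      ((I'.filter fun n => ¬ Disjoint (img g G o (N * m) ρ b n) K₀).card : ℝ≥0∞) *
        ENNReal.ofReal m ^ k ≤ ε) :
    ((I.filter fun n => ¬ Sel g G p E E' K₀ o (N * m) ρ (t₀ * m) lam L m b n).card :
      ℝ≥0∞) * ENNReal.ofReal (N * m) ^ k ≤
      (ENNReal.ofReal (N / t₀) ^ k + (2 ^ k / ENNReal.ofReal lam +
        ENNReal.ofReal (1 + 16 / θ)) * c * N ^ k) * (∫⁻ x, dens G p U (E ∪ E') x) +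
          N ^ k * ε := by
  have hm := h.scale.m_pos
  have h1 := card_grid_le h.pack hN h.scale hθ hρ hρ' hE hE' (by positivity) hp hlam hU h.thick hL
    hgood ho hI hb hb'
  have e1 : (N : ℝ) * m / (t₀ * m) = N / t₀ := by field_simp
  rw [e1] at h1
  set VG := fun n => VeryGood g G p E E' o (N * m) ρ (t₀ * m) lam L (ga o m) (gv m) b n with hVG
  set I' := I.filter VG with hI'
  have hcells : Cells E o (N * m) (t₀ * m) I' b :=
    ⟨fun n hn => (Finset.mem_filter.1 hn).2.dense, fun n hn => hb n (Finset.mem_filter.1 hn).1,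
      fun n hn => hb' n (Finset.mem_filter.1 hn).1⟩
  have h2 := hK₀ I' hcells
  have hsub : (I.filter fun n => ¬ Sel g G p E E' K₀ o (N * m) ρ (t₀ * m) lam L m b n) ⊆
      (I.filter fun n => ¬ VG n) ∪
        (I'.filter fun n => ¬ Disjoint (img g G o (N * m) ρ b n) K₀) := by
    intro n hn
    obtain ⟨hnI, hns⟩ := Finset.mem_filter.1 hn
    rw [Finset.mem_union]
    by_cases hv : VG n
    · right
      refine Finset.mem_filter.2 ⟨Finset.mem_filter.2 ⟨hnI, hv⟩, fun hd => hns ⟨hv, hd⟩⟩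
    · left
      exact Finset.mem_filter.2 ⟨hnI, hv⟩
  have e2 : ENNReal.ofReal (N * m) ^ k = (N : ℝ≥0∞) ^ k * ENNReal.ofReal m ^ k := by
    rw [ENNReal.ofReal_mul (by positivity), ENNReal.ofReal_natCast, mul_pow]
  calc _ ≤ (((I.filter fun n => ¬ VG n).card : ℝ≥0∞) +
        (I'.filter fun n => ¬ Disjoint (img g G o (N * m) ρ b n) K₀).card) *
          ENNReal.ofReal (N * m) ^ k := by
        gcongr
        exact_mod_cast (Finset.card_le_card hsub).trans (Finset.card_union_le _ _)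
    _ = ((I.filter fun n => ¬ VG n).card : ℝ≥0∞) * ENNReal.ofReal (N * m) ^ k +
        N ^ k * (((I'.filter fun n => ¬ Disjoint (img g G o (N * m) ρ b n) K₀).card : ℝ≥0∞) *
          ENNReal.ofReal m ^ k) := by
        rw [add_mul, e2]; ring
    _ ≤ _ := add_le_add h1 (mul_le_mul' le_rfl h2)

end Vale.Agent.P073.PK
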