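import Vale.Agent.P073.AB.Spec
import Vale.Agent.P073.PK.Data

/-!
# P073, packing: the notation of the block AB
-/

set_option linter.unusedSectionVars false

namespace Vale.Agent.P073.PK

open Set Filter Topology Metric MeasureTheory Vale.Agent.P073.St
open scoped ENNReal NNReal
open Vale.Agent.P073.HB (GoodSeg vx edgeSum obox)
open Vale.Agent.P073.AB
open P073.Net (dyc dyo IsTile)

/-- The mesh of the generation `n`. -/
noncomputable def ms (n : ℕ) : ℝ := 1 / 2 ^ n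

theorem ms_pos (n : ℕ) : 0 < ms n := by unfold ms; positivity

theorem ms_add (n j : ℕ) : ((2 ^ j : ℕ) : ℝ) * ms (n + j) = ms n := by
  unfold ms
  push_cast
  rw [pow_add]
  field_simp

theorem dyc_eq (v : V) (n : ℕ) (z : Fin 3 → ℤ) :
    dyc v n z = closedBall (ctr v (ms n) z) (ms n / 2) := by
  ext x
  rw [mem_cell (ms_pos n).le]
  simp only [dyc, mem_ofPred_eq, ms]
  refine forall_congr' fun i => ?_
  rw [one_div_mul_eq_div, one_div_mul_eq_div]

theorem shrink_eq (v : V) (n : ℕ) (z : Fin 3 → ℤ) {δ : ℝ} (hδ : δ ≤ ms n / 2) :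
    shrink v n z δ = box v (ms n) δ z := by
  ext x
  rw [mem_box (by linarith)]
  simp only [shrink, mem_ofPred_eq]
  refine forall_congr' fun i => ?_
  rw [abs_le]
  simp only [ctr, ms]
  have e : (z i : ℝ) / 2 ^ n = 1 / 2 ^ n * z i := by ring
  have e' : ((z i : ℝ) + 1) / 2 ^ n = 1 / 2 ^ n * z i + 1 / 2 ^ n := by ring
  rw [e, e']
  constructor
  · rintro ⟨h1, h2⟩
    constructor <;> linarith
  · rintro ⟨h1, h2⟩
    constructor <;> linarith

theorem pt_eq (v : V) (n : ℕ) (z : Fin 3 → ℤ) : pt v n z = vx v (ms n) z := by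
  funext i
  simp only [pt, vx, ms]
  ring

theorem smul_ev (n : ℕ) (i : Fin 3) : ((1 / 2 ^ n : ℝ) • SQ.ev i) = HB.ev (ms n) i := by
  funext j
  simp only [SQ.ev, HB.ev, ms, Pi.smul_apply, Pi.single_apply, smul_eq_mul]
  split_ifs <;> simp

theorem gv_eq (n : ℕ) (l : (Fin 3 → ℤ) × Fin 3) : gv (ms n) l = ms n • SQ.ev l.2 := by
  rw [gv, ← smul_ev]; rfl

theorem edge_eq (v : V) (e : Idx × Fin 3) :
    edge v e = (fun t : ℝ => ga v (ms e.1.1) (e.1.2, e.2) + t • gv (ms e.1.1) (e.1.2, e.2)) ''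
      Icc (0 : ℝ) 1 := by
  rw [edge, segment_eq_image', pt_eq, smul_ev, add_sub_cancel_left]
  rfl

theorem mem_edge_iff {v : V} {e : Idx × Fin 3} {x : V} : x ∈ edge v e ↔ ∃ t ∈ Icc (0 : ℝ) 1,
    ga v (ms e.1.1) (e.1.2, e.2) + t • gv (ms e.1.1) (e.1.2, e.2) = x := by
  rw [edge_eq]; rfl

theorem eInt_ga (v : V) (e : Idx × Fin 3) (H : V → ℝ≥0∞) :
    eInt v e H = ENNReal.ofReal (ms e.1.1) * ∫⁻ t in Ioc (0 : ℝ) 1,
      H (ga v (ms e.1.1) (e.1.2, e.2) + t • gv (ms e.1.1) (e.1.2, e.2)) := by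
  rw [eInt, pt_eq, smul_ev, restrict_Ioc_eq_restrict_Icc]
  rfl

theorem edge_subset_dyc {v : V} {e : Idx × Fin 3} {n : ℕ} {z : Fin 3 → ℤ} :
    edge v e ⊆ dyc v n z ↔
      InCell v (ms n) (ga v (ms e.1.1)) (gv (ms e.1.1)) (e.1.2, e.2) z := by
  rw [edge_eq, dyc_eq, InCell, image_subset_iff]
  rfl

theorem edge_subset {v : V} {e : Idx × Fin 3} {U : Set V} :
    edge v e ⊆ U ↔ (e.1.2, e.2) ∈ edgesIn U v (ms e.1.1) := by
  rw [edge_eq, image_subset_iff]
  rfl

/-- Two points of a dyadic cube. -/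
theorem dyc_dist {v : V} {n : ℕ} {z : Fin 3 → ℤ} {x y : V} (hx : x ∈ dyc v n z)
    (hy : y ∈ dyc v n z) : ‖x - y‖ ≤ ms n := by
  rw [dyc_eq, mem_closedBall] at hx hy
  have := dist_triangle_right x y (ctr v (ms n) z)
  rw [dist_eq_norm] at this
  linarith

/-- The edges of a cube are contained in the cube. -/
theorem edgeOf_subset {v : V} {e : Idx × Fin 3} {q : Idx} (h : EdgeOf e q) :
    edge v e ⊆ dyc v q.1 q.2 := by
  obtain ⟨h1, h2, h3⟩ := h
  rw [edge_subset_dyc]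
  intro t ht
  rw [mem_cell (ms_pos _).le]
  intro i
  rw [ga_add, h1]
  show v i + ms q.1 * q.2 i ≤ v i + ms q.1 * (e.1.2 i + if i = e.2 then t else 0) ∧
    v i + ms q.1 * (e.1.2 i + if i = e.2 then t else 0) ≤ v i + ms q.1 * (q.2 i + 1)
  have hm := ms_pos q.1
  by_cases hi : i = e.2
  · subst hi
    rw [if_pos rfl, h2]
    constructor
    · nlinarith [ht.1]
    · nlinarith [ht.2]
  · rw [if_neg hi, add_zero]
    rcases h3 i hi with h4 | h4
    · rw [h4]
      constructor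
      · exact le_rfl
      · nlinarith
    · rw [h4]
      push_cast
      constructor
      · nlinarith
      · exact le_rfl

/-- Every fine cube is contained in a coarser one. -/
theorem exists_parent (v : V) {n j : ℕ} (z : Fin 3 → ℤ) :
    ∃ z' : Fin 3 → ℤ, dyc v (n + j) z ⊆ dyc v n z' := by
  refine ⟨fun i => z i / 2 ^ j, fun x hx => ?_⟩
  rw [dyc_eq, mem_cell (ms_pos _).le] at hx ⊢
  intro i
  have h1 := hx i
  have h2j : (0 : ℤ) < 2 ^ j := by positivity
  have hz : (2 ^ j : ℤ) * (z i / 2 ^ j) ≤ z i := Int.mul_ediv_self_le h2j.ne'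
  have hz' : z i < 2 ^ j * (z i / 2 ^ j) + 2 ^ j := Int.lt_mul_ediv_self_add h2j
  have hz'' : z i + 1 ≤ 2 ^ j * (z i / 2 ^ j + 1) := by
    rw [mul_add, mul_one]; omega
  have hzR : (2 ^ j : ℝ) * ((z i / 2 ^ j : ℤ) : ℝ) ≤ z i := by exact_mod_cast hz
  have hzR' : (z i : ℝ) + 1 ≤ 2 ^ j * (((z i / 2 ^ j : ℤ) : ℝ) + 1) := by exact_mod_cast hz''
  have hm := ms_add n j
  push_cast at hm
  have hp := ms_pos (n + j)
  rw [← hm]
  constructor
  · have := mul_le_mul_of_nonneg_left hzR hp.le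
    nlinarith [h1.1]
  · have := mul_le_mul_of_nonneg_left hzR' hp.le
    nlinarith [h1.2]

/-- The tiles smaller than the generation `n` are near the complement of the domain. -/
theorem tile_near {Ω : Set V} {n : ℕ} {v : V} {q : Idx} (hq : q ∈ tiles Ω n v) (hn : n < q.1)
    {x : V} (hx : x ∈ dyc v q.1 q.2) : infDist x Ωᶜ ≤ 2 * ms n := by
  obtain ⟨j, hj⟩ := Nat.exists_eq_add_of_lt hn
  have hq' : IsTile (rho Ω n) v q.1 q.2 := hq
  have e : q.1 = n + (j + 1) := by omega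
  obtain ⟨z', hz'⟩ := exists_parent v (n := n) (j := j + 1) q.2
  rw [← e] at hz'
  have h1 := hq'.2 n z' hn hz'
  simp only [P073.Net.Adm, not_forall, not_le] at h1
  obtain ⟨y, hy, hlt⟩ := h1
  have h2 : infDist y Ωᶜ < ms n := by
    rw [rho, min_lt_iff] at hlt
    rcases hlt with h | h
    · exact absurd h (lt_irrefl _)
    · exact h
  have h3 := dyc_dist (hz' hx) hy
  have h4 := infDist_le_infDist_add_dist (s := Ωᶜ) (x := x) (y := y)
  rw [dist_eq_norm] at h4
  linarith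

end Vale.Agent.P073.PK
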