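import Vale.Agent.P073.PK.Close

/-!
# P073, packing: the images of the cells avoid compact null sets, closed sets and fixed curves
-/

set_option linter.unusedSectionVars false

namespace Vale.Agent.P073.PK

open Set Filter Topology Metric MeasureTheory
open scoped ENNReal NNReal
open Vale.Agent.P073.HB

variable {k : ℕ} {Y : Type*} [NormedAddCommGroup Y] [NormedSpace ℝ Y]
  {g : (Fin k → ℝ) → Y} {G : (Fin k → ℝ) → ((Fin k → ℝ) →L[ℝ] Y)}
  {E E' : Set (Fin k → ℝ)} {θ M η δ d : ℝ} {o : Fin k → ℝ} {r m τ ρ : ℝ}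

/-- The image boxes are close to the image of `E`. -/
theorem img_subset (h : Pack g G E E' θ M η δ d) (hρ : 0 ≤ ρ)
    {b : (Fin k → ℤ) → (Fin k → ℝ)} {n : Fin k → ℤ} (hb : b n ∈ E)
    (hbn : b n ∈ closedBall (ctr o r n) (r / 2)) :
    img g G o r ρ b n ⊆ cthickening (M * r) (g '' E) := by
  rintro _ ⟨z, hz, rfl⟩
  have h1 := h.aff_near hb hbn (z := z) (closedBall_subset_closedBall (by linarith) hz)
  refine mem_cthickening_of_dist_le _ (g (b n)) _ _ (mem_image_of_mem g hb) ?_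
  rw [dist_eq_norm]
  exact h1

/-- **Closed sets away from the image of `E` are avoided by all the image boxes.** -/
theorem exists_avoid_closed (hE : IsCompact E) (hg : ContinuousOn g E) {D : Set Y}
    (hD : IsClosed D) (hdis : Disjoint (g '' E) D) :
    ∃ e : ℝ, 0 < e ∧ ∀ {E' : Set (Fin k → ℝ)} {θ M η δ d : ℝ} {o : Fin k → ℝ} {r ρ : ℝ},
      Pack g G E E' θ M η δ d → 0 ≤ ρ → M * r ≤ e →
      ∀ {b : (Fin k → ℤ) → (Fin k → ℝ)} {n : Fin k → ℤ}, b n ∈ E →
        b n ∈ closedBall (ctr o r n) (r / 2) →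
        Disjoint (cthickening e (img g G o r ρ b n)) D := by
  obtain ⟨e, he, hed⟩ := hdis.exists_cthickenings (hE.image_of_continuousOn hg) hD
  refine ⟨e / 2, by positivity, fun {E' θ M η δ d o r ρ} h hρ hMr {b n} hb hbn => ?_⟩
  have h1 := img_subset h hρ hb hbn
  refine hed.mono ?_ (self_subset_cthickening D)
  calc cthickening (e / 2) (img g G o r ρ b n)
      ⊆ cthickening (e / 2) (cthickening (e / 2) (g '' E)) :=
        cthickening_subset_of_subset _ (h1.trans (cthickening_mono hMr _))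
    _ ⊆ cthickening (e / 2 + e / 2) (g '' E) :=
        cthickening_cthickening_subset (by positivity) (by positivity) _
    _ = cthickening e (g '' E) := by rw [add_halves]

section null

variable [MeasurableSpace Y] [BorelSpace Y] {μ : Measure Y} [μ.IsAddHaarMeasure]
  [FiniteDimensional ℝ Y]

open Classical in
/-- The number of image boxes which meet a given set. -/
theorem card_meet_le (h : Pack g G E E' θ M η δ d) (hs : Scale θ M η δ d r m τ)
    (hρ : m / 2 ≤ ρ) (hρ' : ρ ≤ m) {I : Finset (Fin k → ℤ)} {b : (Fin k → ℤ) → (Fin k → ℝ)}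
    (hI : Cells E o r τ I b) (K : Set Y) :
    ((I.filter fun n => ¬ Disjoint (img g G o r ρ b n) K).card : ℝ≥0∞) *
      μ (ball (0 : Y) (θ * m / 16)) ≤ μ (cthickening (θ * m / 16) K) := by
  have hm := hs.m_pos
  set J := I.filter fun n => ¬ Disjoint (img g G o r ρ b n) K with hJ
  have h1 : ∀ n ∈ J, ∃ y, y ∈ img g G o r ρ b n ∧ y ∈ K := fun n hn =>
    not_disjoint_iff.1 (Finset.mem_filter.1 hn).2
  choose! y hy hyK using h1
  have hdisj := img_thick_disjoint h hs hρ hρ' hI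
  have hsub : ∀ n ∈ J, ball (y n) (θ * m / 16) ⊆ thickening (θ * m / 16) (img g G o r ρ b n) := by
    intro n hn z hz
    exact mem_thickening_iff.2 ⟨y n, hy n hn, hz⟩
  calc (J.card : ℝ≥0∞) * μ (ball (0 : Y) (θ * m / 16))
      = ∑ n ∈ J, μ (ball (y n) (θ * m / 16)) := by
        rw [Finset.sum_congr rfl fun n _ => Measure.addHaar_ball_center μ (y n) (θ * m / 16),
          Finset.sum_const, nsmul_eq_mul]
    _ = μ (⋃ n ∈ J, ball (y n) (θ * m / 16)) := by
        rw [measure_biUnion_finset]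
        · intro n hn n' hn' hnn
          exact (hdisj (Finset.mem_filter.1 hn).1 (Finset.mem_filter.1 hn').1 hnn).mono
            (hsub n hn) (hsub n' hn')
        · intro n _
          exact measurableSet_ball
    _ ≤ _ := by
        refine measure_mono (iUnion₂_subset fun n hn z hz => ?_)
        refine mem_cthickening_of_dist_le _ (y n) _ _ (hyK n hn) ?_
        exact (mem_ball.1 hz).le

open Classical in
/-- **Few image boxes meet a compact null set**: the bound for the number of cells, when the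
dimensions of the source and of the target agree. -/
theorem exists_card_meet_le {Y : Type*} [NormedAddCommGroup Y] [NormedSpace ℝ Y]
    [MeasurableSpace Y] [BorelSpace Y] [FiniteDimensional ℝ Y] {μ : Measure Y}
    [μ.IsAddHaarMeasure] {K : Set Y} (hK : IsCompact K) (hK0 : μ K = 0)
    (hk : Module.finrank ℝ Y ≤ k) {θ : ℝ} (hθ : 0 < θ) {ε : ℝ≥0∞} (hε : ε ≠ 0) :
    ∃ m₀ : ℝ, 0 < m₀ ∧ ∀ m : ℝ, 0 < m → m ≤ m₀ →
      ∀ (g : (Fin k → ℝ) → Y) (G : (Fin k → ℝ) → ((Fin k → ℝ) →L[ℝ] Y))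
        (E E' : Set (Fin k → ℝ)) (M η δ d : ℝ) (o : Fin k → ℝ) (r τ ρ : ℝ),
        Pack g G E E' θ M η δ d → Scale θ M η δ d r m τ → m / 2 ≤ ρ → ρ ≤ m →
        ∀ (I : Finset (Fin k → ℤ)) (b : (Fin k → ℤ) → (Fin k → ℝ)), Cells E o r τ I b →
        ((I.filter fun n => ¬ Disjoint (img g G o r ρ b n) K).card : ℝ≥0∞) *
          ENNReal.ofReal m ^ k ≤ ε := by
  -- reduce to `finrank = d₀ ≤ k`, `m ≤ 1`
  set d₀ := Module.finrank ℝ Y with hd₀
  set c := ENNReal.ofReal ((θ / 16) ^ d₀) * μ (ball (0 : Y) 1) with hc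
  have hc0 : c ≠ 0 := by
    refine mul_ne_zero ?_ (measure_ball_pos μ _ one_pos).ne'
    exact (ENNReal.ofReal_pos.2 (by positivity)).ne'
  have hct : c ≠ ⊤ := ENNReal.mul_ne_top ENNReal.ofReal_ne_top measure_ball_lt_top.ne
  have ht : Tendsto (fun s : ℝ => μ (cthickening s K)) (𝓝 0) (𝓝 0) := by
    have := tendsto_measure_cthickening_of_isCompact (μ := μ) hK
    rwa [hK0] at this
  have hcε : c * ε ≠ 0 := mul_ne_zero hc0 hε
  obtain ⟨s₀, hs₀, h1⟩ := Metric.eventually_nhds_iff.1 (ht.eventually (gt_mem_nhds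
    (pos_iff_ne_zero.2 hcε)))
  refine ⟨min 1 (8 * s₀ / θ), by positivity, ?_⟩
  intro m hm hmm g G E E' M η δ d o r τ ρ h hs hρ hρ' I b hI
  have h2 := card_meet_le (μ := μ) h hs hρ hρ' hI K
  have h3 : θ * m / 16 < s₀ := by
    have := hmm.trans (min_le_right _ _)
    rw [le_div_iff₀ hθ] at this
    linarith
  have h4 : μ (cthickening (θ * m / 16) K) < c * ε := by
    refine h1 ?_
    rw [Real.dist_eq, sub_zero, abs_of_pos (by positivity)]
    exact h3
  have h5 : μ (ball (0 : Y) (θ * m / 16)) = c * ENNReal.ofReal m ^ d₀ := by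
    rw [Measure.addHaar_ball_of_pos μ _ (by positivity), ← hd₀, hc, ← ENNReal.ofReal_pow hm.le,
      mul_right_comm, ← ENNReal.ofReal_mul (by positivity)]
    congr 2
    rw [← mul_pow]
    congr 1
    ring
  rw [h5] at h2
  have h6 : ENNReal.ofReal m ^ k ≤ ENNReal.ofReal m ^ d₀ := by
    refine pow_le_pow_right_of_le_one' ?_ hk
    rw [ENNReal.ofReal_le_one]
    exact hmm.trans (min_le_left _ _)
  set N := ((I.filter fun n => ¬ Disjoint (img g G o r ρ b n) K).card : ℝ≥0∞) with hN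
  have h7 : c * (N * ENNReal.ofReal m ^ d₀) ≤ c * ε := by
    calc c * (N * ENNReal.ofReal m ^ d₀) = N * (c * ENNReal.ofReal m ^ d₀) := by ring
      _ ≤ _ := h2.trans h4.le
  have h8 : N * ENNReal.ofReal m ^ d₀ ≤ ε := (ENNReal.mul_le_mul_iff_right hc0 hct).1 h7
  exact (mul_le_mul' le_rfl h6).trans h8

end null

section curves

open Classical in
/-- **Few image boxes meet finitely many given curves of finite length**, in dimension at
least two. -/
theorem exists_card_curves_le {ι : Type*} (S : Finset ι) (u : ι → ℝ → Y) (q : ι → ℝ → ℝ≥0∞)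
    (hu : ∀ i ∈ S, HasMod (u i) (q i)) (hc : ∀ i ∈ S, ContinuousOn (u i) (Icc 0 1))
    (hq : ∀ i ∈ S, ∫⁻ t in Icc (0 : ℝ) 1, q i t ≠ ⊤) (hk : 2 ≤ k) {θ : ℝ} (hθ : 0 < θ)
    {ε : ℝ≥0∞} (hε : ε ≠ 0) :
    ∃ m₀ : ℝ, 0 < m₀ ∧ ∀ m : ℝ, 0 < m → m ≤ m₀ →
      ∀ (g : (Fin k → ℝ) → Y) (G : (Fin k → ℝ) → ((Fin k → ℝ) →L[ℝ] Y))
        (E E' : Set (Fin k → ℝ)) (M η δ d : ℝ) (o : Fin k → ℝ) (r τ ρ : ℝ),
        Pack g G E E' θ M η δ d → Scale θ M η δ d r m τ → m / 2 ≤ ρ → ρ ≤ m →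
        ∀ (I : Finset (Fin k → ℤ)) (b : (Fin k → ℤ) → (Fin k → ℝ)), Cells E o r τ I b →
        ((I.filter fun n => ∃ i ∈ S, ∃ t ∈ Icc (0 : ℝ) 1, u i t ∈ img g G o r ρ b n).card : ℝ≥0∞) *
          ENNReal.ofReal m ^ k ≤ ε := by
  set A := ∑ i ∈ S, (1 + ENNReal.ofReal (16 / θ) * ∫⁻ t in Icc (0 : ℝ) 1, q i t) with hA
  have hAt : A ≠ ⊤ := by
    refine (ENNReal.sum_lt_top.2 fun i hi => ?_).ne
    exact (ENNReal.add_ne_top.2 ⟨by simp, ENNReal.mul_ne_top ENNReal.ofReal_ne_top (hq i hi)⟩).lt_top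
  have ht : Tendsto (fun m : ℝ => A * ENNReal.ofReal m) (𝓝 0) (𝓝 0) := by
    have h1 : Tendsto (fun m : ℝ => ENNReal.ofReal m) (𝓝 0) (𝓝 0) := by
      have := ENNReal.continuous_ofReal.tendsto 0
      rwa [ENNReal.ofReal_zero] at this
    have h2 := ENNReal.Tendsto.const_mul h1 (Or.inr hAt) (a := A)
    rwa [mul_zero] at h2
  obtain ⟨s₀, hs₀, h1⟩ := Metric.eventually_nhds_iff.1 (ht.eventually (gt_mem_nhds
    (pos_iff_ne_zero.2 hε)))
  refine ⟨min 1 (s₀ / 2), by positivity, ?_⟩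
  intro m hm hmm g G E E' M η δ d o r τ ρ h hs hρ hρ' I b hI
  have hm1 : m ≤ 1 := hmm.trans (min_le_left _ _)
  have hms : m < s₀ := by
    have := hmm.trans (min_le_right _ _)
    linarith
  have h2 : ∀ i ∈ S, ((I.filter fun n => ∃ t ∈ Icc (0 : ℝ) 1,
      u i t ∈ img g G o r ρ b n).card : ℝ≥0∞) * ENNReal.ofReal m ≤
        1 + ENNReal.ofReal (16 / θ) * ∫⁻ t in Icc (0 : ℝ) 1, q i t := by
    intro i hi
    have h3 := hits_curve h hs hθ hρ hρ' hI (hu i hi) (hc i hi) (S := univ)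
      (fun t _ ht => absurd (mem_univ t) ht)
    rw [inter_univ, lintegral_add_left measurable_const, setLIntegral_const, Real.volume_Icc,
      sub_zero, ENNReal.ofReal_one, mul_one] at h3
    have hpos : 0 < 16 / θ := by positivity
    calc _ = ENNReal.ofReal (16 / θ) * (((I.filter fun n => ∃ t ∈ Icc (0 : ℝ) 1,
          u i t ∈ img g G o r ρ b n).card : ℝ≥0∞) * ENNReal.ofReal (θ * m / 16)) := by
          rw [mul_left_comm, ← ENNReal.ofReal_mul hpos.le]
          congr 2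
          field_simp
      _ ≤ ENNReal.ofReal (16 / θ) * (ENNReal.ofReal (θ * m / 16) +
          ∫⁻ t in Icc (0 : ℝ) 1, q i t) := by gcongr
      _ = ENNReal.ofReal m + ENNReal.ofReal (16 / θ) * ∫⁻ t in Icc (0 : ℝ) 1, q i t := by
          rw [mul_add, ← ENNReal.ofReal_mul hpos.le]
          congr 2
          field_simp
      _ ≤ _ := by
          gcongr
          rwa [ENNReal.ofReal_le_one]
  have h3 : ((I.filter fun n => ∃ i ∈ S, ∃ t ∈ Icc (0 : ℝ) 1,
      u i t ∈ img g G o r ρ b n).card : ℝ≥0∞) ≤ ∑ i ∈ S, ((I.filter fun n => ∃ t ∈ Icc (0 : ℝ) 1,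
      u i t ∈ img g G o r ρ b n).card : ℝ≥0∞) := by
    have h4 : (I.filter fun n => ∃ i ∈ S, ∃ t ∈ Icc (0 : ℝ) 1, u i t ∈ img g G o r ρ b n) ⊆
        S.biUnion fun i => I.filter fun n => ∃ t ∈ Icc (0 : ℝ) 1, u i t ∈ img g G o r ρ b n := by
      intro n hn
      obtain ⟨hnI, i, hi, ht⟩ := Finset.mem_filter.1 hn
      exact Finset.mem_biUnion.2 ⟨i, hi, Finset.mem_filter.2 ⟨hnI, ht⟩⟩
    exact_mod_cast (Finset.card_le_card h4).trans Finset.card_biUnion_le
  have h5 : ENNReal.ofReal m ^ k ≤ ENNReal.ofReal m * ENNReal.ofReal m := by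
    rw [← sq]
    exact pow_le_pow_right_of_le_one' (ENNReal.ofReal_le_one.2 hm1) hk
  have h6 : A * ENNReal.ofReal m < ε := by
    refine h1 ?_
    rw [Real.dist_eq, sub_zero, abs_of_pos hm]
    exact hms
  calc _ ≤ (∑ i ∈ S, ((I.filter fun n => ∃ t ∈ Icc (0 : ℝ) 1,
        u i t ∈ img g G o r ρ b n).card : ℝ≥0∞)) * (ENNReal.ofReal m * ENNReal.ofReal m) := by
        gcongr
    _ = (∑ i ∈ S, ((I.filter fun n => ∃ t ∈ Icc (0 : ℝ) 1,
        u i t ∈ img g G o r ρ b n).card : ℝ≥0∞) * ENNReal.ofReal m) * ENNReal.ofReal m := by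
        rw [← mul_assoc, Finset.sum_mul]
    _ ≤ A * ENNReal.ofReal m := mul_le_mul' (Finset.sum_le_sum fun i hi => h2 i hi) le_rfl
    _ ≤ ε := h6.le

end curves

end Vale.Agent.P073.PK
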