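import Vale.Agent.P073.PK.Lower
import Mathlib.MeasureTheory.Measure.Lebesgue.EqHaar

/-!
# P073, packing: lattice cells and the images of their inner boxes
-/

namespace Vale.Agent.P073.PK

open Set Filter Topology Metric MeasureTheory
open scoped ENNReal

/-! ### Lattice cells -/

section geometry

variable {k : ℕ}

/-- The centre of a cell of the lattice with origin `o` and side `r`. -/
noncomputable def ctr (o : Fin k → ℝ) (r : ℝ) (n : Fin k → ℤ) : Fin k → ℝ :=
  fun i => o i + r * ((n i : ℝ) + 1 / 2)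

/-- The inner box of a cell: the points of the cell at distance at least `ρ` from its boundary. -/
noncomputable def box (o : Fin k → ℝ) (r ρ : ℝ) (n : Fin k → ℤ) : Set (Fin k → ℝ) :=
  closedBall (ctr o r n) (r / 2 - ρ)

theorem mem_box {o : Fin k → ℝ} {r ρ : ℝ} (h : 0 ≤ r / 2 - ρ) {n : Fin k → ℤ} {z : Fin k → ℝ} :
    z ∈ box o r ρ n ↔ ∀ i, |z i - ctr o r n i| ≤ r / 2 - ρ := by
  rw [box, mem_closedBall, dist_eq_norm, pi_norm_le_iff_of_nonneg h]
  simp [Real.norm_eq_abs]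

theorem box_mono {o : Fin k → ℝ} {r ρ ρ' : ℝ} (h : ρ ≤ ρ') (n : Fin k → ℤ) :
    box o r ρ' n ⊆ box o r ρ n := closedBall_subset_closedBall (by linarith)

/-- Inner boxes of different cells are at distance `2 ρ`. -/
theorem box_dist {o : Fin k → ℝ} {r ρ : ℝ} (hr : 0 ≤ r) {n n' : Fin k → ℤ} (hn : n ≠ n')
    {z z' : Fin k → ℝ} (hz : z ∈ box o r ρ n) (hz' : z' ∈ box o r ρ n') : 2 * ρ ≤ ‖z' - z‖ := by
  obtain ⟨i, hi⟩ := Function.ne_iff.1 hn
  have h1 : |z i - ctr o r n i| ≤ r / 2 - ρ := by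
    have h0 : ‖z - ctr o r n‖ ≤ r / 2 - ρ := by rw [← dist_eq_norm]; exact mem_closedBall.1 hz
    have := (norm_le_pi_norm (z - ctr o r n) i).trans h0
    rwa [Pi.sub_apply, Real.norm_eq_abs] at this
  have h2 : |z' i - ctr o r n' i| ≤ r / 2 - ρ := by
    have h0 : ‖z' - ctr o r n'‖ ≤ r / 2 - ρ := by rw [← dist_eq_norm]; exact mem_closedBall.1 hz'
    have := (norm_le_pi_norm (z' - ctr o r n') i).trans h0
    rwa [Pi.sub_apply, Real.norm_eq_abs] at this
  have h3 : r ≤ |ctr o r n' i - ctr o r n i| := by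
    have h4 : ctr o r n' i - ctr o r n i = r * ((n' i - n i : ℤ) : ℝ) := by
      simp only [ctr]; push_cast; ring
    have h5 : (1 : ℝ) ≤ |((n' i - n i : ℤ) : ℝ)| := by
      have : n' i - n i ≠ 0 := sub_ne_zero.2 (Ne.symm hi)
      exact_mod_cast Int.one_le_abs this
    rw [h4, abs_mul, abs_of_nonneg hr]
    nlinarith
  have h6 : |z' i - z i| ≤ ‖z' - z‖ := by
    have := norm_le_pi_norm (z' - z) i
    simpa [Real.norm_eq_abs] using this
  have h7 : |ctr o r n' i - ctr o r n i| ≤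
      |z' i - ctr o r n' i| + |z' i - z i| + |z i - ctr o r n i| := by
    have e : ctr o r n' i - ctr o r n i =
        -(z' i - ctr o r n' i) + (z' i - z i) + (z i - ctr o r n i) := by ring
    rw [e]
    calc |-(z' i - ctr o r n' i) + (z' i - z i) + (z i - ctr o r n i)|
        ≤ |-(z' i - ctr o r n' i) + (z' i - z i)| + |z i - ctr o r n i| := abs_add_le _ _
      _ ≤ |-(z' i - ctr o r n' i)| + |z' i - z i| + |z i - ctr o r n i| := by
          gcongr; exact abs_add_le _ _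
      _ = _ := by rw [abs_neg]
  linarith

/-- A point outside the interior of a cell is at distance `ρ` from the inner box. -/
theorem box_dist_out {o : Fin k → ℝ} {r ρ : ℝ} {n : Fin k → ℤ} {z y : Fin k → ℝ}
    (hz : z ∈ box o r ρ n) (hy : y ∉ ball (ctr o r n) (r / 2)) : ρ ≤ ‖y - z‖ := by
  have h1 := mem_closedBall.1 hz
  rw [mem_ball, not_lt] at hy
  have h2 := dist_triangle y z (ctr o r n)
  rw [← dist_eq_norm]
  linarith

/-- Every point of a cell belongs to a small ball inside the cell. -/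
theorem exists_small_ball {c : Fin k → ℝ} {R τ : ℝ} (hτ : 0 ≤ τ) (hτR : τ ≤ R) {z : Fin k → ℝ}
    (hz : z ∈ closedBall c R) : ∃ w, closedBall w τ ⊆ closedBall c R ∧ z ∈ closedBall w τ := by
  have hR : 0 ≤ R := hτ.trans hτR
  have hz' : ∀ i, |z i - c i| ≤ R := by
    rw [mem_closedBall, dist_eq_norm, pi_norm_le_iff_of_nonneg hR] at hz
    simpa [Real.norm_eq_abs] using hz
  refine ⟨fun i => max (c i - (R - τ)) (min (c i + (R - τ)) (z i)), ?_, ?_⟩
  · intro y hy
    rw [mem_closedBall, dist_eq_norm, pi_norm_le_iff_of_nonneg hτ] at hy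
    rw [mem_closedBall, dist_eq_norm, pi_norm_le_iff_of_nonneg hR]
    intro i
    have h1 := hy i
    simp only [Pi.sub_apply, Real.norm_eq_abs] at h1 ⊢
    rw [abs_le] at h1 ⊢
    have h2 : c i - (R - τ) ≤ max (c i - (R - τ)) (min (c i + (R - τ)) (z i)) := le_max_left _ _
    have h3 : max (c i - (R - τ)) (min (c i + (R - τ)) (z i)) ≤ c i + (R - τ) :=
      max_le (by linarith) (min_le_left _ _)
    constructor <;> linarith
  · rw [mem_closedBall, dist_eq_norm, pi_norm_le_iff_of_nonneg hτ]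
    intro i
    simp only [Pi.sub_apply, Real.norm_eq_abs]
    have h1 := hz' i
    rw [abs_le] at h1 ⊢
    rcases le_total (z i) (c i - (R - τ)) with h | h
    · have : max (c i - (R - τ)) (min (c i + (R - τ)) (z i)) = c i - (R - τ) := by
        rw [max_eq_left]; exact (min_le_right _ _).trans h
      rw [this]; constructor <;> linarith
    · rcases le_total (z i) (c i + (R - τ)) with h' | h'
      · have : max (c i - (R - τ)) (min (c i + (R - τ)) (z i)) = z i := by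
          rw [min_eq_right h', max_eq_right h]
        rw [this]; constructor <;> linarith
      · have : max (c i - (R - τ)) (min (c i + (R - τ)) (z i)) = c i + (R - τ) := by
          rw [min_eq_left h', max_eq_right]; linarith
        rw [this]; constructor <;> linarith

/-- If the part of a cube outside `E` has small measure then `E` is dense in the cube at a small
scale. -/
theorem exists_mem_near {c : Fin k → ℝ} {R τ : ℝ} (hτ : 0 < τ) (hτR : τ ≤ R)
    {E : Set (Fin k → ℝ)} (hE : volume (closedBall c R \ E) < ENNReal.ofReal ((2 * τ) ^ k))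
    {z : Fin k → ℝ} (hz : z ∈ closedBall c R) :
    ∃ x ∈ E, x ∈ closedBall c R ∧ ‖x - z‖ ≤ 2 * τ := by
  obtain ⟨w, hw, hzw⟩ := exists_small_ball hτ.le hτR hz
  by_contra hn
  push Not at hn
  have hsub : closedBall w τ ⊆ closedBall c R \ E := by
    intro y hy
    refine ⟨hw hy, fun hyE => ?_⟩
    have h1 := hn y hyE (hw hy)
    have h2 := dist_triangle_right y z w
    rw [mem_closedBall] at hy hzw
    rw [← dist_eq_norm] at h1
    linarith
  have h1 := measure_mono (μ := volume) hsub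
  rw [Real.volume_pi_closedBall w hτ.le, Fintype.card_fin] at h1
  exact absurd hE (not_lt.2 h1)

end geometry

/-! ### The images of the inner boxes -/

variable {k : ℕ} {Y : Type*} [NormedAddCommGroup Y] [NormedSpace ℝ Y]

/-- The map `g` has, on the compact set `E`, the derivative `G`, up to the precision `η` at
distances less than `δ`; the derivative is between `θ` and `M`; the images of points of `E` at
distance at least `δ`, and of points of `E` and `E'`, are at distance at least `d`. -/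
structure Pack (g : (Fin k → ℝ) → Y) (G : (Fin k → ℝ) → ((Fin k → ℝ) →L[ℝ] Y))
    (E E' : Set (Fin k → ℝ)) (θ M η δ d : ℝ) : Prop where
  below : ∀ x ∈ E, ∀ v, θ * ‖v‖ ≤ ‖G x v‖
  above : ∀ x ∈ E, ‖G x‖ ≤ M
  diff : ∀ x ∈ E, ∀ y ∈ E, ‖y - x‖ < δ → ‖g y - g x - G x (y - x)‖ ≤ η * ‖y - x‖
  osc : ∀ x ∈ E, ∀ y ∈ E, ‖y - x‖ < δ → ‖G y - G x‖ ≤ η
  sep : ∀ x ∈ E, ∀ y ∈ E, δ ≤ ‖y - x‖ → d ≤ ‖g y - g x‖
  sep' : ∀ x ∈ E, ∀ y ∈ E', d ≤ ‖g y - g x‖

/-- The affine map of a cell with base point `x`. -/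
def aff (g : (Fin k → ℝ) → Y) (G : (Fin k → ℝ) → ((Fin k → ℝ) →L[ℝ] Y)) (x z : Fin k → ℝ) : Y :=
  g x + G x (z - x)

/-- `E` is dense in the cell at the scale `τ`. -/
def Dense (E : Set (Fin k → ℝ)) (o : Fin k → ℝ) (r τ : ℝ) (n : Fin k → ℤ) : Prop :=
  ∀ z ∈ closedBall (ctr o r n) (r / 2), ∃ x ∈ E, x ∈ closedBall (ctr o r n) (r / 2) ∧ ‖x - z‖ ≤ τ

namespace Pack

variable {g : (Fin k → ℝ) → Y} {G : (Fin k → ℝ) → ((Fin k → ℝ) →L[ℝ] Y)}
  {E E' : Set (Fin k → ℝ)} {θ M η δ d : ℝ} {o : Fin k → ℝ} {r τ ρ : ℝ}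

/-- Points of a dense cell: the affine map is close to `g` at a nearby point of `E`. -/
theorem near (h : Pack g G E E' θ M η δ d) (hη : 0 ≤ η) (hrδ : r < δ)
    {n : Fin k → ℤ} (hn : Dense E o r τ n) {b : Fin k → ℝ} (hb : b ∈ E)
    (hbn : b ∈ closedBall (ctr o r n) (r / 2)) {z : Fin k → ℝ}
    (hz : z ∈ closedBall (ctr o r n) (r / 2)) :
    ∃ x ∈ E, x ∈ closedBall (ctr o r n) (r / 2) ∧ ‖x - z‖ ≤ τ ∧
      ‖g x - aff g G b z‖ ≤ η * r + M * τ := by
  obtain ⟨x, hxE, hxn, hxz⟩ := hn z hz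
  have hd : ‖x - b‖ ≤ r := by
    have := dist_triangle_right x b (ctr o r n)
    rw [mem_closedBall] at hxn hbn
    rw [← dist_eq_norm]
    linarith
  refine ⟨x, hxE, hxn, hxz, ?_⟩
  have h1 := h.diff b hb x hxE (hd.trans_lt hrδ)
  have e : g x - aff g G b z = (g x - g b - G b (x - b)) + G b (x - z) := by
    simp only [aff, map_sub]; abel
  rw [e]
  have h2 : ‖G b (x - z)‖ ≤ M * τ := by
    have h3 : ‖G b (x - z)‖ ≤ ‖G b‖ * ‖x - z‖ := ContinuousLinearMap.le_opNorm _ _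
    exact h3.trans (mul_le_mul (h.above b hb) hxz (norm_nonneg _) ((norm_nonneg _).trans (h.above b hb)))
  calc _ ≤ ‖g x - g b - G b (x - b)‖ + ‖G b (x - z)‖ := norm_add_le _ _
    _ ≤ η * r + M * τ := by
        gcongr
        exact h1.trans (mul_le_mul_of_nonneg_left hd hη)

/-- The basic lower bound for points of `E`. -/
theorem lower (h : Pack g G E E' θ M η δ d) {x y : Fin k → ℝ} (hx : x ∈ E) (hy : y ∈ E) {s : ℝ}
    (hsd : (θ - η) * s ≤ d) (hηθ : η ≤ θ) (hxy : s ≤ ‖y - x‖) :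
    (θ - η) * s ≤ ‖g y - g x‖ := by
  rcases lt_or_ge ‖y - x‖ δ with h1 | h1
  · have := lower_local (F := G) (W := ⊤) (fun x hx v _ => h.below x hx v) h.diff hx hy h1 trivial
    exact (mul_le_mul_of_nonneg_left hxy (by linarith)).trans this
  · exact hsd.trans (h.sep x hx y hy h1)

/-- The image boxes of different cells are at a positive distance. -/
theorem box_sep (h : Pack g G E E' θ M η δ d) (hη : 0 ≤ η) (hr : 0 ≤ r) (hrδ : r < δ)
    (hρ : 0 ≤ ρ) {n n' : Fin k → ℤ} (hnn : n ≠ n')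
    (hn : Dense E o r τ n) (hn' : Dense E o r τ n') {b b' : Fin k → ℝ} (hb : b ∈ E)
    (hbn : b ∈ closedBall (ctr o r n) (r / 2)) (hb' : b' ∈ E)
    (hbn' : b' ∈ closedBall (ctr o r n') (r / 2))
    (hsd : (θ - η) * (2 * ρ - 2 * τ) ≤ d) (hηθ : η ≤ θ)
    {z z' : Fin k → ℝ} (hz : z ∈ box o r ρ n) (hz' : z' ∈ box o r ρ n') :
    (θ - η) * (2 * ρ - 2 * τ) - 2 * (η * r + M * τ) ≤ ‖aff g G b' z' - aff g G b z‖ := by
  have hbox : ∀ n : Fin k → ℤ, box o r ρ n ⊆ closedBall (ctr o r n) (r / 2) := fun n =>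
    closedBall_subset_closedBall (by linarith)
  obtain ⟨x, hxE, -, hxz, hx⟩ := h.near hη hrδ hn hb hbn (hbox n hz)
  obtain ⟨x', hxE', -, hxz', hx'⟩ := h.near hη hrδ hn' hb' hbn' (hbox n' hz')
  have h1 : 2 * ρ - 2 * τ ≤ ‖x' - x‖ := by
    have h2 := box_dist hr hnn hz hz'
    have e : z' - z = (x' - x) - (x' - z') + (x - z) := by abel
    have h3 : ‖z' - z‖ ≤ ‖x' - x‖ + ‖x' - z'‖ + ‖x - z‖ := by
      rw [e]
      exact (norm_add_le _ _).trans (add_le_add_left (norm_sub_le _ _) _)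
    linarith
  have h4 := h.lower hxE hxE' hsd hηθ h1
  have e : g x' - g x = (aff g G b' z' - aff g G b z) + (g x' - aff g G b' z') -
      (g x - aff g G b z) := by abel
  have h5 : ‖g x' - g x‖ ≤ ‖aff g G b' z' - aff g G b z‖ + ‖g x' - aff g G b' z'‖ +
      ‖g x - aff g G b z‖ := by
    rw [e]
    exact (norm_sub_le _ _).trans (add_le_add_left (norm_add_le _ _) _)
  linarith

/-- The points of `E` outside the interior of a cell have images far from the image box. -/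
theorem foreign_sep (h : Pack g G E E' θ M η δ d) (hη : 0 ≤ η) (hrδ : r < δ)
    (hρ : 0 ≤ ρ) {n : Fin k → ℤ} (hn : Dense E o r τ n) {b : Fin k → ℝ} (hb : b ∈ E)
    (hbn : b ∈ closedBall (ctr o r n) (r / 2))
    (hsd : (θ - η) * (ρ - τ) ≤ d) (hηθ : η ≤ θ) {y : Fin k → ℝ} (hy : y ∈ E)
    (hyn : y ∉ ball (ctr o r n) (r / 2)) {z : Fin k → ℝ} (hz : z ∈ box o r ρ n) :
    (θ - η) * (ρ - τ) - (η * r + M * τ) ≤ ‖g y - aff g G b z‖ := by
  have hbox : ∀ n : Fin k → ℤ, box o r ρ n ⊆ closedBall (ctr o r n) (r / 2) := fun n =>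
    closedBall_subset_closedBall (by linarith)
  obtain ⟨x, hxE, -, hxz, hx⟩ := h.near hη hrδ hn hb hbn (hbox n hz)
  have h1 : ρ - τ ≤ ‖y - x‖ := by
    have h2 := box_dist_out hz hyn
    have e : y - z = (y - x) + (x - z) := by abel
    have h3 : ‖y - z‖ ≤ ‖y - x‖ + ‖x - z‖ := by rw [e]; exact norm_add_le _ _
    linarith
  have h4 := h.lower hxE hy hsd hηθ h1
  have e : g y - g x = (g y - aff g G b z) - (g x - aff g G b z) := by abel
  have h5 : ‖g y - g x‖ ≤ ‖g y - aff g G b z‖ + ‖g x - aff g G b z‖ := by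
    rw [e]; exact norm_sub_le _ _
  linarith

/-- The points of `E'` have images far from the image box. -/
theorem foreign_sep' (h : Pack g G E E' θ M η δ d) (hη : 0 ≤ η) (hrδ : r < δ)
    {n : Fin k → ℤ} (hn : Dense E o r τ n) {b : Fin k → ℝ} (hb : b ∈ E)
    (hbn : b ∈ closedBall (ctr o r n) (r / 2)) {y : Fin k → ℝ} (hy : y ∈ E')
    {z : Fin k → ℝ} (hz : z ∈ closedBall (ctr o r n) (r / 2)) :
    d - (η * r + M * τ) ≤ ‖g y - aff g G b z‖ := by
  obtain ⟨x, hxE, -, hxz, hx⟩ := h.near hη hrδ hn hb hbn hz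
  have h4 := h.sep' x hxE y hy
  have e : g y - g x = (g y - aff g G b z) - (g x - aff g G b z) := by abel
  have h5 : ‖g y - g x‖ ≤ ‖g y - aff g G b z‖ + ‖g x - aff g G b z‖ := by
    rw [e]; exact norm_sub_le _ _
  linarith

/-- The image of a cell under its affine map is close to the image of the base point. -/
theorem aff_near (h : Pack g G E E' θ M η δ d) {n : Fin k → ℤ} {b : Fin k → ℝ} (hb : b ∈ E)
    (hbn : b ∈ closedBall (ctr o r n) (r / 2)) {z : Fin k → ℝ}
    (hz : z ∈ closedBall (ctr o r n) (r / 2)) : ‖aff g G b z - g b‖ ≤ M * r := by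
  have e : aff g G b z - g b = G b (z - b) := by simp only [aff]; abel
  have hd : ‖z - b‖ ≤ r := by
    have := dist_triangle_right z b (ctr o r n)
    rw [mem_closedBall] at hz hbn
    rw [← dist_eq_norm]
    linarith
  rw [e]
  exact (ContinuousLinearMap.le_opNorm _ _).trans
    (mul_le_mul (h.above b hb) hd (norm_nonneg _) ((norm_nonneg _).trans (h.above b hb)))

end Pack

/-- Existence of the constants. -/
theorem exists_pack {U : Set (Fin k → ℝ)} {g : (Fin k → ℝ) → Y}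
    {G : (Fin k → ℝ) → ((Fin k → ℝ) →L[ℝ] Y)} {E E' : Set (Fin k → ℝ)} {θ M η : ℝ}
    (hg : ContinuousOn g U) (hi : InjOn g U) (hE : IsCompact E) (hE' : IsCompact E')
    (hEU : E ⊆ U) (hEU' : E' ⊆ U) (hd : Disjoint E E') (hU : UDiff g G E)
    (hG : ContinuousOn G E) (hη : 0 < η) (hθ : ∀ x ∈ E, ∀ v, θ * ‖v‖ ≤ ‖G x v‖)
    (hM : ∀ x ∈ E, ‖G x‖ ≤ M) :
    ∃ δ d : ℝ, 0 < δ ∧ 0 < d ∧ Pack g G E E' θ M η δ d := by
  obtain ⟨δ₁, hδ₁, h1⟩ := hU η hη
  have huc := hE.uniformContinuousOn_of_continuous hG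
  obtain ⟨δ₂, hδ₂, h2⟩ := Metric.uniformContinuousOn_iff_le.1 huc η hη
  obtain ⟨d₁, hd₁, h3⟩ := exists_sep hE (hg.mono hEU) (hi.mono hEU) (lt_min hδ₁ hδ₂)
  obtain ⟨d₂, hd₂, h4⟩ := exists_dist_image hE hE' (hg.mono (union_subset hEU hEU'))
    (hi.mono (union_subset hEU hEU')) hd
  refine ⟨min δ₁ δ₂, min d₁ d₂, lt_min hδ₁ hδ₂, lt_min hd₁ hd₂, hθ, hM, ?_, ?_, ?_, ?_⟩
  · intro x hx y hy hxy
    exact h1 x hx y hy (hxy.trans_le (min_le_left _ _))
  · intro x hx y hy hxy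
    rw [← dist_eq_norm]
    exact h2 y hy x hx (by rw [dist_eq_norm]; exact (hxy.trans_le (min_le_right _ _)).le)
  · intro x hx y hy hxy
    exact (min_le_left _ _).trans (h3 x hx y hy hxy)
  · intro x hx y hy
    exact (min_le_right _ _).trans (h4 x hx y hy)

end Vale.Agent.P073.PK
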