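import Vale.Agent.P073.PK.Bridge
import Vale.Agent.P073.PK.Decomp

/-!
# P073, packing: the selected cells
-/

set_option linter.unusedSectionVars false

namespace Vale.Agent.P073.PK

open Set Filter Topology Metric MeasureTheory Vale.Agent.P073.St
open scoped ENNReal NNReal
open Vale.Agent.P073.HB (GoodSeg vx edgeSum obox)
open Vale.Agent.P073.AB
open P073.Net (dyc dyo IsTile)

/-- The context of the choice of the cells: fine generation `n + j`, cells of generation `n`. -/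
structure Ctx (p θ M κ η t₀ lam δ d e : ℝ) (n j : ℕ) (Ω Λ E E' K₀ : Set V) (f : V → V)
    (F : V → (V →L[ℝ] V)) (v : V) (L : Finset ((Fin 3 → ℤ) × Fin 3)) (I : Finset (Fin 3 → ℤ))
    (b : (Fin 3 → ℤ) → V) : Prop where
  p1 : 1 ≤ p
  θ0 : 0 < θ
  M0 : 0 < M
  κ0 : 0 < κ
  lam0 : 0 < lam
  lam1 : lam < 1
  t₀0 : 0 < t₀
  j1 : 1 ≤ j
  const : η * (2 ^ j : ℕ) + η + lam * (1 + M) ≤ κ
  const' : ENNReal.ofReal η ^ p + 2 ^ (p - 1) * ((1 + ENNReal.ofReal M ^ p) * ENNReal.ofReal lam) ≤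
    ENNReal.ofReal κ
  fine : Fine f F E E' Ω Λᶜ θ M η t₀ (2 ^ j) δ d e (ms (n + j))
  Ebd : IsCompact E
  Ebd' : IsCompact E'
  far : ∀ x ∈ E, ∀ y, ‖y - x‖ ≤ 3 * ms n → ms (n + j) ≤ infDist y Ωᶜ
  far' : ∀ x ∈ Ω, infDist x Ωᶜ ≤ 2 * ms (n + j) → x ∉ E ∧
    ∀ y ∈ E, M * ms n < ‖f x - f y‖
  L_iff : ∀ l, l ∈ L ↔ l ∈ edgesIn Ω v (ms (n + j))
  good : ∀ l ∈ L, GoodSeg f F (ga v (ms (n + j)) l) (gv (ms (n + j)) l)
  I_iff : ∀ z, z ∈ I ↔ z ∈ cellsOf E v (ms n)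
  bE : ∀ z ∈ I, b z ∈ E
  bz : ∀ z ∈ I, b z ∈ closedBall (ctr v (ms n) z) (ms n / 2)

open Classical in
/-- The selected cells. -/
noncomputable def Jsel (p t₀ lam : ℝ) (n j : ℕ) (E E' K₀ : Set V) (f : V → V)
    (F : V → (V →L[ℝ] V)) (v : V) (L : Finset ((Fin 3 → ℤ) × Fin 3)) (I : Finset (Fin 3 → ℤ))
    (b : (Fin 3 → ℤ) → V) : Finset (Fin 3 → ℤ) :=
  I.filter fun z => Sel f F p E E' K₀ v (ms n) (ms (n + j)) (t₀ * ms (n + j)) lam L (ms (n + j)) b z

theorem mem_Jsel {p t₀ lam : ℝ} {n j : ℕ} {E E' K₀ : Set V} {f : V → V}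
    {F : V → (V →L[ℝ] V)} {v : V} {L : Finset ((Fin 3 → ℤ) × Fin 3)} {I : Finset (Fin 3 → ℤ)}
    {b : (Fin 3 → ℤ) → V} {z : Fin 3 → ℤ} : z ∈ Jsel p t₀ lam n j E E' K₀ f F v L I b ↔
      z ∈ I ∧ Sel f F p E E' K₀ v (ms n) (ms (n + j)) (t₀ * ms (n + j)) lam L (ms (n + j)) b z := by
  classical
  unfold Jsel
  exact Finset.mem_filter

namespace Ctx

variable {p θ M κ η t₀ lam δ d e : ℝ} {n j : ℕ} {Ω Λ E E' K₀ : Set V} {f : V → V}
  {F : V → (V →L[ℝ] V)} {v : V} {L : Finset ((Fin 3 → ℤ) × Fin 3)} {I : Finset (Fin 3 → ℤ)}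
  {b : (Fin 3 → ℤ) → V}

section

variable (h : Ctx p θ M κ η t₀ lam δ d e n j Ω Λ E E' K₀ f F v L I b)
include h

theorem Nm : ((2 ^ j : ℕ) : ℝ) * ms (n + j) = ms n := ms_add n j

theorem scale : Scale θ M η δ d (ms n) (ms (n + j)) (t₀ * ms (n + j)) := by
  have := h.fine.scale
  rwa [h.Nm] at this

theorem thick : cthickening (ms n) E ⊆ Ω \ E' := by
  have := h.fine.thick
  rwa [h.Nm] at this

theorem half : ms (n + j) ≤ ms n / 2 := by
  have := h.scale.m_le; linarith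

theorem cell_subset {z : Fin 3 → ℤ} (hz : z ∈ I) : closedBall (ctr v (ms n) z) (ms n / 2) ⊆ Ω \ E' :=
  (cell_subset_cthickening ((h.I_iff z).1 hz)).trans h.thick

theorem dyc_subset {z : Fin 3 → ℤ} (hz : z ∈ I) : dyc v n z ⊆ Ω \ E' := by
  rw [dyc_eq]; exact h.cell_subset hz

theorem mem_I {z : Fin 3 → ℤ} (hz : z ∈ Jsel p t₀ lam n j E E' K₀ f F v L I b) : z ∈ I :=
  (mem_Jsel.1 hz).1

theorem sel {z : Fin 3 → ℤ} (hz : z ∈ Jsel p t₀ lam n j E E' K₀ f F v L I b) :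
    Sel f F p E E' K₀ v (ms n) (ms (n + j)) (t₀ * ms (n + j)) lam L (ms (n + j)) b z :=
  (mem_Jsel.1 hz).2

theorem below {z : Fin 3 → ℤ} (hz : z ∈ I) (w : V) : θ * ‖w‖ ≤ ‖F (b z) w‖ :=
  h.fine.pack.below _ (h.bE z hz) w

theorem above {z : Fin 3 → ℤ} (hz : z ∈ I) (w : V) : ‖F (b z) w‖ ≤ M * ‖w‖ :=
  (ContinuousLinearMap.le_opNorm _ _).trans
    (mul_le_mul_of_nonneg_right (h.fine.pack.above _ (h.bE z hz)) (norm_nonneg _))

theorem core {z : Fin 3 → ℤ} (hz : z ∈ I) {x : V} (hx : ∃ y ∈ dyc v n z, ‖x - y‖ ≤ ms n) :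
    ms (n + j) ≤ infDist x Ωᶜ := by
  obtain ⟨y, hy, hxy⟩ := hx
  refine h.far (b z) (h.bE z hz) x ?_
  have h1 : b z ∈ dyc v n z := by rw [dyc_eq]; exact h.bz z hz
  have h2 := dyc_dist hy h1
  have e1 : x - b z = (x - y) + (y - b z) := by abel
  rw [e1]
  have := norm_add_le (x - y) (y - b z)
  have := ms_pos n
  linarith

theorem shrink_eq_box {z : Fin 3 → ℤ} : shrink v n z (ms (n + j)) = box v (ms n) (ms (n + j)) z :=
  shrink_eq v n z h.half

theorem image_eq {z : Fin 3 → ℤ} :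
    aff f F (b z) '' shrink v n z (ms (n + j)) = img f F v (ms n) (ms (n + j)) b z := by
  rw [img, h.shrink_eq_box]

theorem inside {z : Fin 3 → ℤ} (hz : z ∈ I) : aff f F (b z) '' shrink v n z (ms (n + j)) ⊆ Λ := by
  have h1 := h.fine.img v (ms (n + j)) b z (ms_pos _).le (h.bE z hz) (by
    rw [h.Nm]; exact h.bz z hz)
  rw [h.Nm, ← h.image_eq] at h1
  intro y hy
  by_contra hyΛ
  exact Set.disjoint_left.1 h1 (self_subset_cthickening _ hy) hyΛ

theorem isDense {z : Fin 3 → ℤ} (hz : z ∈ Jsel p t₀ lam n j E E' K₀ f F v L I b) :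
    Dense E v (ms n) (t₀ * ms (n + j)) z := (h.sel hz).vg.dense

theorem cells : Cells E v (ms n) (t₀ * ms (n + j)) (Jsel p t₀ lam n j E E' K₀ f F v L I b) b :=
  ⟨fun _ hz => h.isDense hz, fun z hz => h.bE z (h.mem_I hz), fun z hz => h.bz z (h.mem_I hz)⟩

theorem disj {z z' : Fin 3 → ℤ} (hz : z ∈ Jsel p t₀ lam n j E E' K₀ f F v L I b)
    (hz' : z' ∈ Jsel p t₀ lam n j E E' K₀ f F v L I b) (hzz : z ≠ z') :
    Disjoint (aff f F (b z) '' shrink v n z (ms (n + j)))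
      (aff f F (b z') '' shrink v n z' (ms (n + j))) := by
  have h1 := img_thick_disjoint h.fine.pack h.scale (ρ := ms (n + j))
    (by have := ms_pos (n + j); linarith) le_rfl h.cells hz hz' hzz
  rw [h.image_eq, h.image_eq]
  have hpos : 0 < θ * ms (n + j) / 16 := by
    have := h.θ0; have := ms_pos (n + j); positivity
  exact h1.mono (self_subset_thickening hpos _) (self_subset_thickening hpos _)

theorem avoid {z : Fin 3 → ℤ} (hz : z ∈ Jsel p t₀ lam n j E E' K₀ f F v L I b) :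
    Disjoint (aff f F (b z) '' shrink v n z (ms (n + j))) K₀ := by
  rw [h.image_eq]
  exact (h.sel hz).avoid

theorem own1 {z : Fin 3 → ℤ} (hz : z ∈ Jsel p t₀ lam n j E E' K₀ f F v L I b) {e : Idx × Fin 3}
    (he : e.1.1 = n + j) (hez : edge v e ⊆ dyc v n z) {x : V} (hx : x ∈ edge v e) :
    ‖f x - aff f F (b z) x‖ ≤ κ * ms (n + j) := by
  have hzI := h.mem_I hz
  have hcell := h.cell_subset hzI
  have hL : (e.1.2, e.2) ∈ L := by
    rw [h.L_iff, ← he, ← edge_subset]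
    exact hez.trans (fun x hx => (h.dyc_subset hzI hx).1)
  have hin : InCell v (ms n) (ga v (ms (n + j))) (gv (ms (n + j))) (e.1.2, e.2) z := by
    rw [edge_subset_dyc, he] at hez
    exact hez
  rw [mem_edge_iff, he] at hx
  obtain ⟨t, ht, rfl⟩ := hx
  have h1 := (h.sel hz).vg.close h.fine.pack h.scale h.M0.le h.p1 h.lam0.le h.lam1
    h.Ebd.measurableSet (h.bE z hzI) (h.bz z hzI)
    (fun l _ => norm_gv (ms_pos (n + j)).le l)
    (Set.disjoint_left.2 fun y hy hy' => (hcell hy).2 hy') hL hin (h.good _ hL) ht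
  refine h1.trans ?_
  have h2 := h.const
  have hm := ms_pos (n + j)
  rw [← h.Nm]
  calc η * (((2 ^ j : ℕ) : ℝ) * ms (n + j)) + (η + lam * (1 + M)) * ms (n + j)
      = (η * (2 ^ j : ℕ) + η + lam * (1 + M)) * ms (n + j) := by ring
    _ ≤ κ * ms (n + j) := mul_le_mul_of_nonneg_right h2 hm.le

theorem own2 {z : Fin 3 → ℤ} (hz : z ∈ Jsel p t₀ lam n j E E' K₀ f F v L I b) {e : Idx × Fin 3}
    (he : e.1.1 = n + j) (hez : edge v e ⊆ dyc v n z) :
    eInt v e (fun x => ENNReal.ofReal (‖F x (SQ.ev e.2) - F (b z) (SQ.ev e.2)‖ ^ p)) ≤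
      ENNReal.ofReal (κ * ms (n + j)) := by
  have hzI := h.mem_I hz
  have hcell := h.cell_subset hzI
  have hm := ms_pos (n + j)
  have hp0 : 0 ≤ p := by linarith [h.p1]
  have hL : (e.1.2, e.2) ∈ L := by
    rw [h.L_iff, ← he, ← edge_subset]
    exact hez.trans (fun x hx => (h.dyc_subset hzI hx).1)
  have hin : InCell v (ms n) (ga v (ms (n + j))) (gv (ms (n + j))) (e.1.2, e.2) z := by
    rw [edge_subset_dyc, he] at hez
    exact hez
  have h1 := (h.sel hz).vg.deriv_close_rpow h.fine.pack h.scale h.M0.le h.p1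
    h.Ebd.measurableSet (h.bE z hzI) (h.bz z hzI)
    (fun l _ => norm_gv (ms_pos (n + j)).le l)
    (Set.disjoint_left.2 fun y hy hy' => (hcell hy).2 hy') hL hin
  have h2 : ∀ x : V, ‖F x (gv (ms (n + j)) (e.1.2, e.2)) - F (b z) (gv (ms (n + j)) (e.1.2, e.2))‖ₑ
      ^ p = ENNReal.ofReal (ms (n + j)) ^ p *
        ENNReal.ofReal (‖F x (SQ.ev e.2) - F (b z) (SQ.ev e.2)‖ ^ p) := by
    intro x
    rw [gv_eq, map_smul, map_smul, ← smul_sub, enorm_smul, ENNReal.mul_rpow_of_nonneg _ _ hp0,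
      ← ofReal_norm, Real.norm_of_nonneg hm.le, ← ofReal_norm,
      ENNReal.ofReal_rpow_of_nonneg (norm_nonneg _) hp0]
  simp only [h2] at h1
  rw [lintegral_const_mul' _ _ (by finiteness)] at h1
  have h3 : ENNReal.ofReal (ms (n + j)) ^ p ≠ 0 := by
    have : ENNReal.ofReal (ms (n + j)) ≠ 0 := (ENNReal.ofReal_pos.2 hm).ne'
    simp only [ne_eq, ENNReal.rpow_eq_zero_iff, this, false_and, ENNReal.ofReal_ne_top, or_self,
      not_false_eq_true]
  have h4 := (ENNReal.mul_le_mul_iff_right h3 (by finiteness)).1 h1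
  rw [eInt_ga, he, mul_comm κ, ENNReal.ofReal_mul hm.le]
  gcongr
  exact h4.trans h.const'

theorem foreign {z : Fin 3 → ℤ} (hz : z ∈ Jsel p t₀ lam n j E E' K₀ f F v L I b)
    (htile : ∀ q ∈ tiles Ω (n + j) v, dyc v q.1 q.2 ⊆ Ω ∧ n + j ≤ q.1) {e : Idx × Fin 3}
    (he : ∃ q ∈ tiles Ω (n + j) v, EdgeOf e q) (hez : ¬ edge v e ⊆ dyc v n z) {x : V}
    (hx : x ∈ edge v e) : f x ∉ aff f F (b z) '' shrink v n z (ms (n + j)) := by
  have hzI := h.mem_I hz
  obtain ⟨q, hq, heq⟩ := he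
  have hsub := edgeOf_subset (v := v) heq
  obtain ⟨hqΩ, hqn⟩ := htile q hq
  rw [h.image_eq]
  rcases hqn.eq_or_lt with hqe | hqlt
  · -- an edge of the fine grid
    have he : e.1.1 = n + j := by rw [heq.1, ← hqe]
    have hL : (e.1.2, e.2) ∈ L := by
      rw [h.L_iff, ← he, ← edge_subset]
      exact hsub.trans hqΩ
    have hin : ¬ InCell v (ms n) (ga v (ms (n + j))) (gv (ms (n + j))) (e.1.2, e.2) z := by
      rw [edge_subset_dyc, he] at hez
      exact hez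
    rw [mem_edge_iff, he] at hx
    obtain ⟨t, ht, rfl⟩ := hx
    exact (h.sel hz).vg.foreign _ hL hin t ht
  · -- an edge near the boundary
    have h1 := tile_near hq hqlt (hsub hx)
    have h2 := (h.far' x (hqΩ (hsub hx)) h1).2 (b z) (h.bE z hzI)
    rintro ⟨y, hy, hyx⟩
    have h3 := h.fine.pack.aff_near (h.bE z hzI) (o := v) (r := ms n) (n := z) (h.bz z hzI)
      (z := y) (by
        have h4 : box v (ms n) (ms (n + j)) z ⊆ closedBall (ctr v (ms n) z) (ms n / 2) :=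
          closedBall_subset_closedBall (by have := ms_pos (n + j); linarith)
        exact h4 hy)
    rw [hyx] at h3
    linarith

end

end Ctx

end Vale.Agent.P073.PK
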