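import Vale.Agent.P073.PK.Choice1

/-!
# P073, packing: the sums of the energies
-/

set_option linter.unusedSectionVars false

namespace Vale.Agent.P073.PK

open Set Filter Topology Metric MeasureTheory Vale.Agent.P073.St
open scoped ENNReal NNReal
open Vale.Agent.P073.HB (GoodSeg vx edgeSum obox)
open Vale.Agent.P073.AB
open P073.Net (dyc dyo IsTile)

/-- The sum of the integrals over different closed cells of a lattice. -/
theorem sum_lintegral_cells_le {k : ℕ} {o : Fin k → ℝ} {r : ℝ} (hr : 0 < r)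
    (J : Finset (Fin k → ℤ)) {U : Set (Fin k → ℝ)}
    (hJ : ∀ z ∈ J, closedBall (ctr o r z) (r / 2) ⊆ U) (W : (Fin k → ℝ) → ℝ≥0∞) :
    ∑ z ∈ J, ∫⁻ x in closedBall (ctr o r z) (r / 2), W x ≤ ∫⁻ x in U, W x := by
  have h1 : ∀ z ∈ J, ∫⁻ x in closedBall (ctr o r z) (r / 2), W x ≤
      ∫⁻ x in ball (ctr o r z) (r / 2), W x := by
    intro z _
    rw [← ball_union_sphere]
    refine (lintegral_union_le W _ _).trans ?_
    rw [setLIntegral_measure_zero (sphere (ctr o r z) (r / 2)) W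
      (Measure.addHaar_sphere_of_ne_zero _ _ (by positivity)), add_zero]
  refine (Finset.sum_le_sum h1).trans ?_
  rw [← lintegral_biUnion_finset (fun z _ z' _ hzz => ball_disjoint hr.le hzz)
    (fun z _ => measurableSet_ball)]
  refine lintegral_mono_set (iUnion₂_subset fun z hz => ?_)
  exact ball_subset_closedBall.trans (hJ z hz)

theorem volume_cell {v : V} {n : ℕ} {z : Fin 3 → ℤ} :
    volume (closedBall (ctr v (ms n) z) (ms n / 2)) = ENNReal.ofReal (ms n) ^ 3 := by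
  have := ms_pos n
  rw [Real.volume_pi_closedBall _ (by positivity), Fintype.card_fin,
    ENNReal.ofReal_pow (by positivity)]
  congr 2
  ring

/-- Every fine edge is contained in a cell. -/
theorem exists_inCell (v : V) (n j : ℕ) (l : (Fin 3 → ℤ) × Fin 3) :
    ∃ z, InCell v (ms n) (ga v (ms (n + j))) (gv (ms (n + j))) l z := by
  refine ⟨fun i => l.1 i / 2 ^ j, fun t ht => ?_⟩
  rw [mem_cell (ms_pos _).le]
  intro i
  rw [ga_add]
  have h2j : (0 : ℤ) < 2 ^ j := by positivity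
  have hz : (2 ^ j : ℤ) * (l.1 i / 2 ^ j) ≤ l.1 i := Int.mul_ediv_self_le h2j.ne'
  have hz' : l.1 i < 2 ^ j * (l.1 i / 2 ^ j) + 2 ^ j := Int.lt_mul_ediv_self_add h2j
  have hz'' : l.1 i + 1 ≤ 2 ^ j * (l.1 i / 2 ^ j + 1) := by
    rw [mul_add, mul_one]; omega
  have hzR : (2 ^ j : ℝ) * ((l.1 i / 2 ^ j : ℤ) : ℝ) ≤ l.1 i := by exact_mod_cast hz
  have hzR' : (l.1 i : ℝ) + 1 ≤ 2 ^ j * (((l.1 i / 2 ^ j : ℤ) : ℝ) + 1) := by exact_mod_cast hz''
  have hm := ms_add n j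
  push_cast at hm
  have hp := (ms_pos (n + j)).le
  rw [← hm]
  have h3 : (0 : ℝ) ≤ if i = l.2 then t else 0 := by
    split_ifs
    · exact ht.1
    · exact le_rfl
  have h4 : (if i = l.2 then t else 0) ≤ (1 : ℝ) := by
    split_ifs
    · exact ht.2
    · exact zero_le_one
  constructor
  · have := mul_le_mul_of_nonneg_left (hzR.trans (le_add_of_nonneg_right h3)) hp
    nlinarith
  · have := mul_le_mul_of_nonneg_left ((add_le_add_right h4 (l.1 i : ℝ)).trans hzR') hp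
    nlinarith

/-- The edges of generation `n + j` which can be contained in the cell `z`. -/
noncomputable def cellEdges (n j : ℕ) (z : Fin 3 → ℤ) : Finset (Idx × Fin 3) :=
  ((Fintype.piFinset fun i => Finset.Icc ((2 ^ j : ℕ) * z i) ((2 ^ j : ℕ) * (z i + 1))) ×ˢ
    (Finset.univ : Finset (Fin 3))).image fun l => ((n + j, l.1), l.2)

theorem card_cellEdges (n j : ℕ) (z : Fin 3 → ℤ) :
    (cellEdges n j z).card ≤ 3 * (2 ^ j + 1) ^ 3 := by
  refine Finset.card_image_le.trans ?_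
  rw [Finset.card_product, Fintype.card_piFinset, Finset.card_univ, Fintype.card_fin]
  have h1 : ∀ i, (Finset.Icc (((2 ^ j : ℕ) : ℤ) * z i) (((2 ^ j : ℕ) : ℤ) * (z i + 1))).card =
      2 ^ j + 1 := by
    intro i
    rw [Int.card_Icc]
    have : ((2 ^ j : ℕ) : ℤ) * (z i + 1) + 1 - ((2 ^ j : ℕ) : ℤ) * z i = ((2 ^ j + 1 : ℕ) : ℤ) := by
      push_cast; ring
    rw [this, Int.toNat_natCast]
  simp only [h1, Finset.prod_const, Finset.card_univ, Fintype.card_fin]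
  rw [mul_comm]

theorem mem_cellEdges {v : V} {n j : ℕ} {z : Fin 3 → ℤ} {e : Idx × Fin 3} (he : e.1.1 = n + j)
    (hez : edge v e ⊆ dyc v n z) : e ∈ cellEdges n j z := by
  rw [edge_subset_dyc, he] at hez
  have h0 := hez 0 ⟨le_rfl, zero_le_one⟩
  rw [zero_smul, add_zero, ← ms_add n j] at h0
  have h1 := inCell_vertex (ms_pos (n + j)) h0
  refine Finset.mem_image.2 ⟨(e.1.2, e.2), Finset.mem_product.2 ⟨?_, Finset.mem_univ _⟩, ?_⟩
  · rw [Fintype.mem_piFinset]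
    intro i
    exact Finset.mem_Icc.2 (h1 i)
  · rw [← he]

/-- A sum over a subtype of a function which is bounded on a finite set and vanishes outside. -/
theorem tsum_subtype_le {α : Type*} {P : α → Prop} (a : α → ℝ≥0∞) (T : Finset α) (c : ℝ≥0∞)
    (h : ∀ e, P e → a e ≠ 0 → e ∈ T) (hc : ∀ e, P e → a e ≤ c) :
    ∑' e : {e // P e}, a e.1 ≤ T.card * c := by
  classical
  have h1 : ∑' e : {e // P e}, a e.1 = ∑' e, {e | P e}.indicator a e :=
    tsum_subtype {e | P e} a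
  rw [h1]
  have h2 : ∀ e, {e | P e}.indicator a e ≤ if e ∈ T then c else 0 := by
    intro e
    by_cases hP : P e
    · rw [indicator_of_mem (by exact hP)]
      by_cases ha : a e = 0
      · rw [ha]; exact zero_le
      · rw [if_pos (h e hP ha)]
        exact hc e hP
    · rw [indicator_of_notMem (by exact hP)]
      exact zero_le
  refine (ENNReal.tsum_le_tsum h2).trans ?_
  rw [tsum_eq_sum (s := T) (fun e he => if_neg he), Finset.sum_congr rfl fun e he => if_pos he,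
    Finset.sum_const, nsmul_eq_mul]

namespace Ctx

variable {p θ M κ η t₀ lam δ d e : ℝ} {n j : ℕ} {Ω Λ E E' K₀ : Set V} {f : V → V}
  {F : V → (V →L[ℝ] V)} {v : V} {L : Finset ((Fin 3 → ℤ) × Fin 3)} {I : Finset (Fin 3 → ℤ)}
  {b : (Fin 3 → ℤ) → V}

theorem norm_ev (i : Fin 3) : ‖SQ.ev i‖ = 1 := by
  rw [SQ.ev, Pi.norm_single, norm_one]

theorem ofReal_le_enorm (hp : 0 ≤ p) (A : V →L[ℝ] V) (i : Fin 3) :
    ENNReal.ofReal (‖A (SQ.ev i)‖ ^ p) ≤ ‖A‖ₑ ^ p := by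
  rw [← ENNReal.ofReal_rpow_of_nonneg (norm_nonneg _) hp, ← ofReal_norm A]
  refine ENNReal.rpow_le_rpow (ENNReal.ofReal_le_ofReal ?_) hp
  have := ContinuousLinearMap.le_opNorm A (SQ.ev i)
  rwa [norm_ev, mul_one] at this

section

variable (h : Ctx p θ M κ η t₀ lam δ d e n j Ω Λ E E' K₀ f F v L I b)
include h

theorem E_sub : E ⊆ Ω := (self_subset_cthickening E).trans (fun _ hx => (h.thick hx).1)

/-- The pointwise bound in a cell. -/
theorem osc_le {z : Fin 3 → ℤ} (hz : z ∈ I) {x : V} (hx : x ∈ closedBall (ctr v (ms n) z) (ms n / 2))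
    (i : Fin 3) : ENNReal.ofReal (‖F x (SQ.ev i) - F (b z) (SQ.ev i)‖ ^ p) ≤
      ENNReal.ofReal η ^ p + 2 ^ (p - 1) * (1 + ENNReal.ofReal M ^ p) *
        dens F p Ω (E ∪ E') x := by
  have hp0 : 0 ≤ p := by linarith [h.p1]
  have h0 := ofReal_le_enorm hp0 (F x - F (b z)) i
  rw [_root_.sub_apply] at h0
  refine h0.trans ?_
  by_cases hxE : x ∈ E
  · refine le_trans ?_ le_self_add
    rw [← ofReal_norm]
    refine ENNReal.rpow_le_rpow (ENNReal.ofReal_le_ofReal ?_) hp0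
    refine h.fine.pack.osc (b z) (h.bE z hz) x hxE ?_
    have h1 : ‖x - b z‖ ≤ ms n := dyc_dist (n := n) (z := z) (by rwa [dyc_eq])
      (by rw [dyc_eq]; exact h.bz z hz)
    exact h1.trans_lt h.scale.r_lt
  · refine le_trans ?_ le_add_self
    have hxU : x ∈ Ω \ (E ∪ E') := by
      have := h.cell_subset hz hx
      exact ⟨this.1, fun h' => h'.elim hxE this.2⟩
    rw [dens, indicator_of_mem hxU]
    have h1 : ‖F (b z)‖ₑ ≤ ENNReal.ofReal M := by
      rw [← ofReal_norm]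
      exact ENNReal.ofReal_le_ofReal (h.fine.pack.above _ (h.bE z hz))
    calc ‖F x - F (b z)‖ₑ ^ p ≤ (‖F x‖ₑ + ENNReal.ofReal M) ^ p := by
          refine ENNReal.rpow_le_rpow ?_ hp0
          exact (enorm_sub_le).trans (add_le_add le_rfl h1)
      _ ≤ 2 ^ (p - 1) * (‖F x‖ₑ ^ p + ENNReal.ofReal M ^ p) :=
          ENNReal.rpow_add_le_mul_rpow_add_rpow _ _ h.p1
      _ ≤ 2 ^ (p - 1) * ((1 + ENNReal.ofReal M ^ p) * (1 + ‖F x‖ₑ ^ p)) := by
          gcongr
          calc ‖F x‖ₑ ^ p + ENNReal.ofReal M ^ p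
              ≤ (1 + ENNReal.ofReal M ^ p) * ‖F x‖ₑ ^ p + (1 + ENNReal.ofReal M ^ p) := by
                gcongr
                · calc ‖F x‖ₑ ^ p = 1 * ‖F x‖ₑ ^ p := (one_mul _).symm
                    _ ≤ _ := by gcongr; exact le_self_add
                · exact le_add_self
            _ = _ := by ring
      _ = _ := by ring

theorem s1 :
    ∑ z ∈ Jsel p t₀ lam n j E E' K₀ f F v L I b, ∑ i, ∫⁻ x in dyc v n z,
      ENNReal.ofReal (‖F x (SQ.ev i) - F (b z) (SQ.ev i)‖ ^ p) ≤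
    3 * (ENNReal.ofReal η ^ p * volume Ω +
      2 ^ (p - 1) * (1 + ENNReal.ofReal M ^ p) * ∫⁻ x, dens F p Ω (E ∪ E') x) := by
  set J := Jsel p t₀ lam n j E E' K₀ f F v L I b with hJ
  set W : V → ℝ≥0∞ := fun x => ENNReal.ofReal η ^ p + 2 ^ (p - 1) * (1 + ENNReal.ofReal M ^ p) *
        dens F p Ω (E ∪ E') x with hW
  have h1 : ∀ i : Fin 3, ∑ z ∈ J, ∫⁻ x in dyc v n z,
      ENNReal.ofReal (‖F x (SQ.ev i) - F (b z) (SQ.ev i)‖ ^ p) ≤ ∫⁻ x in Ω, W x := by
    intro i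
    calc _ ≤ ∑ z ∈ J, ∫⁻ x in closedBall (ctr v (ms n) z) (ms n / 2), W x := by
          refine Finset.sum_le_sum fun z hz => ?_
          rw [dyc_eq]
          exact setLIntegral_mono' measurableSet_closedBall fun x hx => h.osc_le (h.mem_I hz) hx i
      _ ≤ _ := sum_lintegral_cells_le (ms_pos n) J
          (fun z hz => (h.cell_subset (h.mem_I hz)).trans sdiff_subset) W
  rw [Finset.sum_comm]
  have h2 : ∫⁻ x in Ω, W x ≤ ENNReal.ofReal η ^ p * volume Ω +
      2 ^ (p - 1) * (1 + ENNReal.ofReal M ^ p) * ∫⁻ x, dens F p Ω (E ∪ E') x := by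
    rw [hW, lintegral_add_left measurable_const, setLIntegral_const]
    gcongr
    rw [lintegral_const_mul' _ _ (by
      refine ENNReal.mul_ne_top ?_ ?_
      · exact ENNReal.rpow_ne_top_of_nonneg (by linarith [h.p1]) (by norm_num)
      · exact ENNReal.add_ne_top.2 ⟨ENNReal.one_ne_top,
          ENNReal.rpow_ne_top_of_nonneg (by linarith [h.p1]) ENNReal.ofReal_ne_top⟩)]
    gcongr
    exact Measure.restrict_le_self
  calc _ ≤ ∑ _i : Fin 3, ∫⁻ x in Ω, W x := Finset.sum_le_sum fun i _ => h1 i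
    _ = 3 * ∫⁻ x in Ω, W x := by
        rw [Finset.sum_const, Finset.card_univ, Fintype.card_fin, nsmul_eq_mul]; norm_num
    _ ≤ _ := by gcongr

/-- The part of `E` outside the selected cells. -/
theorem volume_E_diff_le : volume (E \ ⋃ z ∈ Jsel p t₀ lam n j E E' K₀ f F v L I b, dyc v n z) ≤
    ((I \ Jsel p t₀ lam n j E E' K₀ f F v L I b).card : ℝ≥0∞) * ENNReal.ofReal (ms n) ^ 3 := by
  set J := Jsel p t₀ lam n j E E' K₀ f F v L I b with hJ
  have hsub : E \ (⋃ z ∈ J, dyc v n z) ⊆ ⋃ z ∈ I \ J, closedBall (ctr v (ms n) z) (ms n / 2) := by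
    rintro x ⟨hxE, hx⟩
    obtain ⟨z, hz⟩ := exists_cell v (ms_pos n) x
    have hzI : z ∈ I := (h.I_iff z).2 ⟨x, hxE, hz⟩
    refine mem_biUnion (Finset.mem_coe.2 (Finset.mem_sdiff.2 ⟨hzI, fun hzJ => hx ?_⟩)) hz
    exact mem_biUnion (Finset.mem_coe.2 hzJ) (by rwa [dyc_eq])
  calc _ ≤ volume (⋃ z ∈ I \ J, closedBall (ctr v (ms n) z) (ms n / 2)) := measure_mono hsub
    _ ≤ ∑ z ∈ I \ J, volume (closedBall (ctr v (ms n) z) (ms n / 2)) :=
        measure_biUnion_finset_le _ _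
    _ = _ := by simp only [volume_cell, Finset.sum_const, nsmul_eq_mul]

theorem s2 {β : ℝ≥0∞} (hβ : ((I \ Jsel p t₀ lam n j E E' K₀ f F v L I b).card : ℝ≥0∞) *
      ENNReal.ofReal (ms n) ^ 3 ≤ β) :
    ∑ i, ∫⁻ x in Ω \ ⋃ z ∈ Jsel p t₀ lam n j E E' K₀ f F v L I b, dyc v n z,
      ENNReal.ofReal (‖F x (SQ.ev i)‖ ^ p) ≤
    3 * (ENNReal.ofReal M ^ p * β + ∫⁻ x in Ω \ E, ‖F x‖ₑ ^ p) := by
  set J := Jsel p t₀ lam n j E E' K₀ f F v L I b with hJ
  have hp0 : 0 ≤ p := by linarith [h.p1]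
  have hEm := h.Ebd.measurableSet
  have hJm : MeasurableSet (⋃ z ∈ J, dyc v n z) := by
    refine Finset.measurableSet_biUnion _ fun z _ => ?_
    rw [dyc_eq]
    exact measurableSet_closedBall
  have h1 : ∀ i : Fin 3, ∫⁻ x in Ω \ ⋃ z ∈ J, dyc v n z, ENNReal.ofReal (‖F x (SQ.ev i)‖ ^ p) ≤
      ENNReal.ofReal M ^ p * β + ∫⁻ x in Ω \ E, ‖F x‖ₑ ^ p := by
    intro i
    have hsub : Ω \ (⋃ z ∈ J, dyc v n z) ⊆ (E \ ⋃ z ∈ J, dyc v n z) ∪ (Ω \ E) := by
      rintro x ⟨hx, hxJ⟩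
      by_cases hxE : x ∈ E
      · exact Or.inl ⟨hxE, hxJ⟩
      · exact Or.inr ⟨hx, hxE⟩
    calc _ ≤ ∫⁻ x in (E \ ⋃ z ∈ J, dyc v n z) ∪ (Ω \ E), ENNReal.ofReal (‖F x (SQ.ev i)‖ ^ p) :=
          lintegral_mono_set hsub
      _ ≤ (∫⁻ x in E \ ⋃ z ∈ J, dyc v n z, ENNReal.ofReal (‖F x (SQ.ev i)‖ ^ p)) +
          ∫⁻ x in Ω \ E, ENNReal.ofReal (‖F x (SQ.ev i)‖ ^ p) := lintegral_union_le _ _ _
      _ ≤ (∫⁻ _x in E \ ⋃ z ∈ J, dyc v n z, ENNReal.ofReal M ^ p) +
          ∫⁻ x in Ω \ E, ‖F x‖ₑ ^ p := by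
          refine add_le_add ?_ (lintegral_mono fun x => ofReal_le_enorm hp0 _ i)
          refine setLIntegral_mono' (hEm.diff hJm) fun x hx => (ofReal_le_enorm hp0 _ i).trans ?_
          refine ENNReal.rpow_le_rpow ?_ hp0
          rw [← ofReal_norm]
          exact ENNReal.ofReal_le_ofReal (h.fine.pack.above x hx.1)
      _ ≤ _ := by
          rw [setLIntegral_const]
          gcongr
          exact h.volume_E_diff_le.trans hβ
  calc _ ≤ ∑ _i : Fin 3, (ENNReal.ofReal M ^ p * β + ∫⁻ x in Ω \ E, ‖F x‖ₑ ^ p) :=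
        Finset.sum_le_sum fun i _ => h1 i
    _ = _ := by rw [Finset.sum_const, Finset.card_univ, Fintype.card_fin, nsmul_eq_mul]; norm_num

/-- The energy of the edges outside the selected cells. -/
theorem s3 {β : ℝ≥0∞} (hβ : ((I \ Jsel p t₀ lam n j E E' K₀ f F v L I b).card : ℝ≥0∞) *
      ENNReal.ofReal (ms n) ^ 3 ≤ β)
    (htile : ∀ q ∈ tiles Ω (n + j) v, dyc v q.1 q.2 ⊆ Ω ∧ n + j ≤ q.1) {ψ : ℝ≥0∞}
    (hψ : ∑' e : {e : Idx × Fin 3 // ∃ q ∈ tiles Ω (n + j) v, EdgeOf e q},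
      ENNReal.ofReal ((1 / 2 ^ e.1.1.1) ^ 2) *
        eInt v e.1 ((Ω \ E).indicator fun x => ‖F x‖ₑ ^ p) ≤ ψ) :
    ∑' e : {e : Idx × Fin 3 // (∃ q ∈ tiles Ω (n + j) v, EdgeOf e q) ∧
      ∀ z ∈ Jsel p t₀ lam n j E E' K₀ f F v L I b, ¬ edge v e ⊆ dyc v n z},
    ENNReal.ofReal ((1 / 2 ^ e.1.1.1) ^ 2) *
      eInt v e.1 (fun x => ENNReal.ofReal (‖F x (SQ.ev e.1.2)‖ ^ p)) ≤
    24 * (ENNReal.ofReal M ^ p * β) + ψ := by
  set J := Jsel p t₀ lam n j E E' K₀ f F v L I b with hJ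
  have hp0 : 0 ≤ p := by linarith [h.p1]
  have hm := ms_pos (n + j)
  set a₁ : Idx × Fin 3 → ℝ≥0∞ := fun e => ENNReal.ofReal ((1 / 2 ^ e.1.1) ^ 2) *
    eInt v e (E.indicator fun _ => ENNReal.ofReal M ^ p) with ha₁
  set a₂ : Idx × Fin 3 → ℝ≥0∞ := fun e => ENNReal.ofReal ((1 / 2 ^ e.1.1) ^ 2) *
    eInt v e ((Ω \ E).indicator fun x => ‖F x‖ₑ ^ p) with ha₂
  have hEm := h.Ebd.measurableSet
  -- the pointwise bound
  have h1 : ∀ e : Idx × Fin 3, (∃ q ∈ tiles Ω (n + j) v, EdgeOf e q) →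
      ENNReal.ofReal ((1 / 2 ^ e.1.1) ^ 2) *
        eInt v e (fun x => ENNReal.ofReal (‖F x (SQ.ev e.2)‖ ^ p)) ≤ a₁ e + a₂ e := by
    rintro e ⟨q, hq, heq⟩
    rw [ha₁, ha₂]
    simp only []
    rw [← mul_add]
    gcongr
    simp only [eInt_ga]
    rw [← mul_add]
    gcongr
    rw [← lintegral_add_left' ?_]
    · refine setLIntegral_mono' measurableSet_Ioc fun t ht => ?_
      have hx : ga v (ms e.1.1) (e.1.2, e.2) + t • gv (ms e.1.1) (e.1.2, e.2) ∈ Ω :=
        (htile q hq).1 (edgeOf_subset heq (mem_edge_iff.2 ⟨t, ⟨ht.1.le, ht.2⟩, rfl⟩))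
      set x := ga v (ms e.1.1) (e.1.2, e.2) + t • gv (ms e.1.1) (e.1.2, e.2) with hxdef
      refine (ofReal_le_enorm hp0 (F x) e.2).trans ?_
      by_cases hxE : x ∈ E
      · refine le_trans ?_ le_self_add
        rw [indicator_of_mem hxE]
        refine ENNReal.rpow_le_rpow ?_ hp0
        rw [← ofReal_norm]
        exact ENNReal.ofReal_le_ofReal (h.fine.pack.above x hxE)
      · refine le_trans ?_ le_add_self
        rw [indicator_of_mem (show x ∈ Ω \ E from ⟨hx, hxE⟩)]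
    · refine Measurable.aemeasurable ?_
      exact (measurable_const.indicator hEm).comp (by fun_prop)
  set P : Idx × Fin 3 → Prop := fun e => (∃ q ∈ tiles Ω (n + j) v, EdgeOf e q) ∧
      ∀ z ∈ J, ¬ edge v e ⊆ dyc v n z with hP
  have h2 : ∑' e : {e // P e}, a₁ e.1 ≤ 24 * (ENNReal.ofReal M ^ p * β) := by
    set T := (I \ J).biUnion fun z => cellEdges n j z with hT
    have hTc : T.card ≤ (I \ J).card * (3 * (2 ^ j + 1) ^ 3) :=
      Finset.card_biUnion_le_card_mul _ _ _ fun z _ => card_cellEdges n j z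
    have h3 := tsum_subtype_le (P := P) a₁ T (ENNReal.ofReal (ms (n + j)) ^ 3 *
      ENNReal.ofReal M ^ p) ?_ ?_
    · refine h3.trans ?_
      have e1 : ((3 * (2 ^ j + 1) ^ 3 : ℕ) : ℝ≥0∞) * ENNReal.ofReal (ms (n + j)) ^ 3 ≤
          24 * ENNReal.ofReal (ms n) ^ 3 := by
        have e2 : ((2 ^ j + 1 : ℕ) : ℝ≥0∞) * ENNReal.ofReal (ms (n + j)) ≤
            2 * ENNReal.ofReal (ms n) := by
          rw [← ENNReal.ofReal_natCast, ← ENNReal.ofReal_mul (by positivity)]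
          have : (2 : ℝ≥0∞) = ENNReal.ofReal 2 := by norm_num
          rw [this, ← ENNReal.ofReal_mul (by norm_num)]
          refine ENNReal.ofReal_le_ofReal ?_
          rw [← ms_add n j]
          push_cast
          have : (1 : ℝ) ≤ 2 ^ j := one_le_pow₀ (by norm_num)
          nlinarith
        calc _ = 3 * (((2 ^ j + 1 : ℕ) : ℝ≥0∞) * ENNReal.ofReal (ms (n + j))) ^ 3 := by
              push_cast; ring
          _ ≤ 3 * (2 * ENNReal.ofReal (ms n)) ^ 3 := by gcongr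
          _ = _ := by ring
      calc (T.card : ℝ≥0∞) * (ENNReal.ofReal (ms (n + j)) ^ 3 * ENNReal.ofReal M ^ p)
          ≤ (((I \ J).card * (3 * (2 ^ j + 1) ^ 3) : ℕ) : ℝ≥0∞) *
              (ENNReal.ofReal (ms (n + j)) ^ 3 * ENNReal.ofReal M ^ p) := by gcongr
        _ = (((I \ J).card : ℝ≥0∞) * (((3 * (2 ^ j + 1) ^ 3 : ℕ) : ℝ≥0∞) *
              ENNReal.ofReal (ms (n + j)) ^ 3)) * ENNReal.ofReal M ^ p := by push_cast; ring
        _ ≤ (((I \ J).card : ℝ≥0∞) * (24 * ENNReal.ofReal (ms n) ^ 3)) *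
              ENNReal.ofReal M ^ p := by gcongr
        _ = 24 * (ENNReal.ofReal M ^ p * (((I \ J).card : ℝ≥0∞) *
              ENNReal.ofReal (ms n) ^ 3)) := by ring
        _ ≤ _ := by gcongr
    · -- an edge meeting `E` is in a bad cell
      rintro e' ⟨⟨q, hq, heq⟩, hJe⟩ hne
      have hsub := edgeOf_subset (v := v) heq
      obtain ⟨hqΩ, hqn⟩ := htile q hq
      have h4 : ∃ x ∈ edge v e', x ∈ E := by
        by_contra hcon
        push Not at hcon
        apply hne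
        rw [ha₁]
        simp only []
        rw [eInt_ga]
        have h5 : ∀ t ∈ Ioc (0 : ℝ) 1, (E.indicator fun _ => ENNReal.ofReal M ^ p)
            (ga v (ms e'.1.1) (e'.1.2, e'.2) + t • gv (ms e'.1.1) (e'.1.2, e'.2)) = 0 := by
          intro t ht
          exact indicator_of_notMem (hcon _ (mem_edge_iff.2 ⟨t, ⟨ht.1.le, ht.2⟩, rfl⟩)) _
        rw [setLIntegral_congr_fun measurableSet_Ioc h5]
        simp
      obtain ⟨x, hx, hxE⟩ := h4
      have he : e'.1.1 = n + j := by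
        rcases hqn.eq_or_lt with hqe | hqlt
        · rw [heq.1, ← hqe]
        · exact absurd hxE (h.far' x (hqΩ (hsub hx)) (tile_near hq hqlt (hsub hx))).1
      obtain ⟨z, hz⟩ := exists_inCell v n j (e'.1.2, e'.2)
      have hez : edge v e' ⊆ dyc v n z := by
        rw [edge_subset_dyc, he]; exact hz
      have hzI : z ∈ I := (h.I_iff z).2 ⟨x, hxE, by
        have := hez hx
        rwa [dyc_eq] at this⟩
      refine Finset.mem_biUnion.2 ⟨z, Finset.mem_sdiff.2 ⟨hzI, fun hzJ => hJe z hzJ hez⟩, ?_⟩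
      exact mem_cellEdges he hez
    · -- the bound for one edge
      rintro e' ⟨⟨q, hq, heq⟩, -⟩
      obtain ⟨hqΩ, hqn⟩ := htile q hq
      rw [← heq.1] at hqn
      rw [ha₁]
      simp only []
      rw [eInt_ga, ← mul_assoc]
      have h5 : ENNReal.ofReal ((1 / 2 ^ e'.1.1) ^ 2) * ENNReal.ofReal (ms e'.1.1) ≤
          ENNReal.ofReal (ms (n + j)) ^ 3 := by
        rw [← ENNReal.ofReal_mul (by positivity), ← ENNReal.ofReal_pow hm.le]
        refine ENNReal.ofReal_le_ofReal ?_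
        have h6 : ms e'.1.1 ≤ ms (n + j) := by
          unfold ms
          exact one_div_le_one_div_of_le (by positivity) (pow_le_pow_right₀ (by norm_num) hqn)
        have h7 := ms_pos e'.1.1
        calc (1 / 2 ^ e'.1.1 : ℝ) ^ 2 * ms e'.1.1 = ms e'.1.1 ^ 3 := by rw [ms]; ring
          _ ≤ _ := by gcongr
      refine mul_le_mul' h5 ?_
      have h8 : ∫⁻ _t in Ioc (0 : ℝ) 1, ENNReal.ofReal M ^ p = ENNReal.ofReal M ^ p := by
        rw [setLIntegral_const, Real.volume_Ioc]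
        simp
      refine le_trans (lintegral_mono fun t => ?_) h8.le
      exact indicator_le_self' (f := fun _ : V => ENNReal.ofReal M ^ p) (fun _ _ => zero_le) _
  have h3 : ∑' e : {e // P e}, a₂ e.1 ≤ ψ := by
    refine le_trans ?_ hψ
    set Q : Idx × Fin 3 → Prop := fun e => ∃ q ∈ tiles Ω (n + j) v, EdgeOf e q with hQ
    have h4 : ∑' e : {e // P e}, a₂ e.1 ≤ ∑' e : {e // Q e}, a₂ e.1 :=
      ENNReal.tsum_comp_le_tsum_of_injective
        (f := fun e : {e // P e} => (⟨e.1, e.2.1⟩ : {e // Q e}))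
        (fun e e' hee => by
          have := congrArg Subtype.val hee
          exact Subtype.ext this) (fun e : {e // Q e} => a₂ e.1)
    exact h4
  calc _ ≤ ∑' e : {e // P e}, (a₁ e.1 + a₂ e.1) := ENNReal.tsum_le_tsum fun e => h1 e.1 e.2.1
    _ = (∑' e : {e // P e}, a₁ e.1) + ∑' e : {e // P e}, a₂ e.1 := ENNReal.tsum_add
    _ ≤ _ := add_le_add h2 h3

end

end Ctx

end Vale.Agent.P073.PK
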