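import Vale.Agent.P073.PK.Choice2
import Vale.Agent.P073.PK.Far
import Vale.Agent.P073.PK.Sob560b
import Vale.Agent.P073.AB.Tiles907

/-!
# P073, packing: auxiliary choices
-/

set_option linter.unusedSectionVars false

namespace Vale.Agent.P073.PK

open Set Filter Topology Metric MeasureTheory Vale.Agent.P073.St
open scoped ENNReal NNReal
open Vale.Agent.P073.HB (GoodSeg vx edgeSum obox)
open Vale.Agent.P073.AB
open P073.Net (dyc dyo IsTile)

/-- Uniform continuity near a compact set. -/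
theorem exists_osc {Ω K : Set V} {f : V → V} (hΩ : IsOpen Ω) (hf : ContinuousOn f Ω)
    (hK : IsCompact K) (hKΩ : K ⊆ Ω) {ε : ℝ} (hε : 0 < ε) :
    ∃ s : ℝ, 0 < s ∧ ∀ x ∈ K, ∀ y, ‖y - x‖ ≤ s → y ∈ Ω ∧ ‖f y - f x‖ ≤ ε := by
  obtain ⟨s₁, hs₁, h1⟩ := hK.exists_cthickening_subset_open hΩ hKΩ
  have h2 := (hK.cthickening (r := s₁)).uniformContinuousOn_of_continuous (hf.mono h1)
  obtain ⟨s₂, hs₂, h3⟩ := Metric.uniformContinuousOn_iff_le.1 h2 ε hε
  refine ⟨min s₁ s₂, lt_min hs₁ hs₂, fun x hx y hy => ?_⟩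
  have hyx : y ∈ cthickening s₁ K :=
    mem_cthickening_of_dist_le y x s₁ K hx (by rw [dist_eq_norm]; exact hy.trans (min_le_left _ _))
  refine ⟨h1 hyx, ?_⟩
  rw [← dist_eq_norm]
  exact h3 y hyx x (self_subset_cthickening K hx)
    (by rw [dist_eq_norm]; exact hy.trans (min_le_right _ _))

/-- The distance of a compact set from the complement of a domain. -/
theorem exists_infDist {Ω K : Set V} (hΩ : IsOpen Ω) (hne : (Ωᶜ).Nonempty) (hK : IsCompact K)
    (hKΩ : K ⊆ Ω) : ∃ s : ℝ, 0 < s ∧ ∀ x ∈ K, s ≤ infDist x Ωᶜ := by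
  obtain ⟨s, hs, h⟩ := hK.exists_cthickening_subset_open hΩ hKΩ
  refine ⟨s, hs, fun x hx => (le_infDist hne).2 fun y hy => ?_⟩
  by_contra hlt
  push Not at hlt
  exact hy (h (mem_cthickening_of_dist_le y x s K hx (by rw [dist_comm]; exact hlt.le)))

theorem compl_nonempty {Ω : Set V} (hb : Bornology.IsBounded Ω) : (Ωᶜ).Nonempty := by
  by_contra h
  rw [not_nonempty_iff_eq_empty, compl_empty_iff] at h
  rw [h] at hb
  exact NormedSpace.unbounded_univ ℝ V hb

/-- The choice of the precision. -/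
theorem exists_eta {p : ℝ} (hp : 1 ≤ p) {κ : ℝ} (hκ : 0 < κ) (A B : ℝ≥0∞) (hA : A ≠ ⊤)
    (hB : B ≠ ⊤) {ε : ℝ≥0∞} (hε : ε ≠ 0) : ∃ η : ℝ, 0 < η ∧ η ≤ κ ∧
      ENNReal.ofReal η ^ p + A * ENNReal.ofReal η ≤ ENNReal.ofReal κ ∧
      ENNReal.ofReal η ^ p * B ≤ ε := by
  have hp0 : 0 < p := by linarith
  have h0 : Tendsto (fun η : ℝ => ENNReal.ofReal η) (𝓝 0) (𝓝 0) := by
    have := ENNReal.continuous_ofReal.tendsto 0
    rwa [ENNReal.ofReal_zero] at this
  have h1 : Tendsto (fun η : ℝ => ENNReal.ofReal η ^ p) (𝓝 0) (𝓝 0) := by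
    have := (ENNReal.continuous_rpow_const (y := p)).tendsto (0 : ℝ≥0∞)
    rw [ENNReal.zero_rpow_of_pos hp0] at this
    exact this.comp h0
  have h2 : Tendsto (fun η : ℝ => ENNReal.ofReal η ^ p + A * ENNReal.ofReal η) (𝓝 0) (𝓝 0) := by
    have := h1.add (ENNReal.Tendsto.const_mul h0 (Or.inr hA) (a := A))
    rwa [mul_zero, add_zero] at this
  have h3 : Tendsto (fun η : ℝ => ENNReal.ofReal η ^ p * B) (𝓝 0) (𝓝 0) := by
    have := ENNReal.Tendsto.mul_const h1 (Or.inr hB) (b := B)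
    rwa [zero_mul] at this
  have h4 := (h2.eventually (gt_mem_nhds (ENNReal.ofReal_pos.2 hκ))).and
    (h3.eventually (gt_mem_nhds (pos_iff_ne_zero.2 hε)))
  obtain ⟨s, hs, h5⟩ := Metric.eventually_nhds_iff.1 h4
  have h6 : dist (min (s / 2) κ) 0 < s := by
    rw [Real.dist_eq, sub_zero, abs_of_pos (by positivity)]
    exact (min_le_left _ _).trans_lt (by linarith)
  exact ⟨min (s / 2) κ, by positivity, min_le_right _ _, (h5 h6).1.le, (h5 h6).2.le⟩

/-- Small meshes. -/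
theorem exists_ms_le {s : ℝ} (hs : 0 < s) : ∃ n₀ : ℕ, ∀ n, n₀ ≤ n → ms n < s := by
  obtain ⟨n₀, h⟩ := exists_pow_lt_of_lt_one hs (by norm_num : (1 / 2 : ℝ) < 1)
  refine ⟨n₀, fun n hn => ?_⟩
  have : ms n = (1 / 2 : ℝ) ^ n := by rw [ms, one_div_pow]
  rw [this]
  exact (pow_le_pow_of_le_one (by norm_num) (by norm_num) hn).trans_lt h

theorem ms_le_ms {n n' : ℕ} (h : n ≤ n') : ms n' ≤ ms n := by
  unfold ms
  exact one_div_le_one_div_of_le (by positivity) (pow_le_pow_right₀ (by norm_num) h)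

/-- The energy outside the good set, for a map of finite distortion. -/
theorem lintegral_diff_three_le {p ε₁ θ M : ℝ} (hp : 1 ≤ p) {Ω : Set V} {f : V → V} {F : V → Mat}
    (hΩ : IsOpen Ω) (hFD : FinDist Ω F) {K T : Kind → Set V} {TZ : Set V}
    (hK : KindSets Ω (fun x => cl (F x)) θ M K)
    (hKe : ∫⁻ x in Ω \ ⋃ κ, K κ, edens (fun x => cl (F x)) p x < ENNReal.ofReal ε₁)
    {ε₂ : ℝ≥0∞} (hT : Pieces Ω f (fun x => cl (F x)) p θ M ε₂ K T TZ) :
    ∫⁻ x in Ω \ T .three, ‖cl (F x)‖ₑ ^ p ≤ ENNReal.ofReal ε₁ + ε₂ := by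
  have hp0 : 0 < p := by linarith
  have hsub : Ω \ T .three ⊆ (Ω \ ⋃ κ, K κ) ∪ ((Ω \ ((⋃ κ, T κ) ∪ TZ)) ∪
      (Ω ∩ ⋃ κ : Kind, ⋃ _ : κ ≠ .three, K κ)) := by
    rintro x ⟨hx, hxT⟩
    by_cases h1 : x ∈ ⋃ κ, K κ
    · right
      obtain ⟨κ, hκ⟩ := mem_iUnion.1 h1
      by_cases h2 : κ = .three
      · left
        subst h2
        refine ⟨hx, fun h3 => ?_⟩
        rcases h3 with h3 | h3
        · obtain ⟨κ', hκ'⟩ := mem_iUnion.1 h3
          by_cases h4 : κ' = .three
          · subst h4; exact hxT hκ'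
          · exact Set.disjoint_left.1 (hK.disj (Ne.symm h4)) hκ (hT.sub κ' hκ')
        · exact (hT.subZ h3).2 h1
      · right
        exact ⟨hx, mem_iUnion.2 ⟨κ, mem_iUnion.2 ⟨h2, hκ⟩⟩⟩
    · exact Or.inl ⟨hx, h1⟩
  have hzero : ∫⁻ x in Ω ∩ ⋃ κ : Kind, ⋃ _ : κ ≠ .three, K κ, ‖cl (F x)‖ₑ ^ p = 0 := by
    have hm : MeasurableSet (Ω ∩ ⋃ κ : Kind, ⋃ _ : κ ≠ .three, K κ) :=
      hΩ.measurableSet.inter (MeasurableSet.iUnion fun κ => MeasurableSet.iUnion fun _ => hK.meas κ)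
    rw [setLIntegral_congr_fun_ae (g := fun _ => 0) hm]
    · simp
    · filter_upwards [hFD] with x hx hxm
      obtain ⟨hxΩ, hxK⟩ := hxm
      simp only [mem_iUnion] at hxK
      obtain ⟨κ, hne, hκ⟩ := hxK
      have hk := hK.kind κ x hκ
      have h0 : F x = 0 := by
        rcases hx hxΩ with h | h
        · funext i j; exact h i j
        · exfalso
          have hinj : ∀ w, cl (F x) w = 0 → w = 0 := by
            intro w hw
            apply h w
            funext i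
            have := congr_fun hw i
            rw [cl_apply] at this
            exact this
          cases κ with
          | three => exact hne rfl
          | two i =>
            obtain ⟨-, -, w, -, hw1, hw0⟩ := hk
            have := hinj w hw0
            rw [this] at hw1
            exact zero_ne_one hw1
          | one i =>
            obtain ⟨-, hθ', c, -, hc1, hc⟩ := hk
            -- the kernel of the functional `c`
            obtain ⟨l, hl⟩ : ∃ l : Fin 3, l ≠ i := ⟨i + 1, by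
              fin_cases i <;> decide⟩
            have h1 := hinj (ee l - c l • ee i) (by
              rw [hc]
              have h2 : ∑ j, c j * (ee l - c l • ee i) j = 0 := by
                simp only [ee, Pi.sub_apply, Pi.smul_apply, smul_eq_mul, mul_sub,
                  Finset.sum_sub_distrib, Pi.single_apply, mul_ite, mul_one, mul_zero,
                  Finset.sum_ite_eq', Finset.mem_univ, if_true]
                rw [hc1]
                ring
              rw [h2, zero_smul])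
            have h2 := congr_fun h1 l
            simp only [ee, Pi.sub_apply, Pi.smul_apply, smul_eq_mul, Pi.zero_apply,
              Pi.single_eq_same, Pi.single_eq_of_ne hl, mul_zero, sub_zero] at h2
            exact one_ne_zero h2
          | zero =>
            obtain ⟨-, h0⟩ := hk
            have := hinj (ee 0) (by rw [h0]; rfl)
            have h2 := congr_fun this 0
            simp [ee] at h2
      have h1 : cl (F x) = 0 := by
        ext w i
        rw [cl_apply, h0]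
        simp
      rw [h1, ← ofReal_norm, norm_zero, ENNReal.ofReal_zero, ENNReal.zero_rpow_of_pos hp0]
  have hle : ∀ x, ‖cl (F x)‖ₑ ^ p ≤ edens (fun x => cl (F x)) p x := fun x => le_add_self
  calc _ ≤ ∫⁻ x in (Ω \ ⋃ κ, K κ) ∪ ((Ω \ ((⋃ κ, T κ) ∪ TZ)) ∪
        (Ω ∩ ⋃ κ : Kind, ⋃ _ : κ ≠ .three, K κ)), ‖cl (F x)‖ₑ ^ p := lintegral_mono_set hsub
    _ ≤ (∫⁻ x in Ω \ ⋃ κ, K κ, ‖cl (F x)‖ₑ ^ p) + ((∫⁻ x in Ω \ ((⋃ κ, T κ) ∪ TZ),
        ‖cl (F x)‖ₑ ^ p) + ∫⁻ x in Ω ∩ ⋃ κ : Kind, ⋃ _ : κ ≠ .three, K κ, ‖cl (F x)‖ₑ ^ p) :=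
        (lintegral_union_le _ _ _).trans (add_le_add le_rfl (lintegral_union_le _ _ _))
    _ ≤ ENNReal.ofReal ε₁ + (ε₂ + 0) := by
        refine add_le_add ((lintegral_mono hle).trans hKe.le)
          (add_le_add ((lintegral_mono hle).trans hT.energy.le) hzero.le)
    _ = _ := by rw [add_zero]

end Vale.Agent.P073.PK
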