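import Vale.Agent.P073.PK.Choice3

/-!
# P073, packing: the choice of the scales and of the good cells (AB5)
-/

set_option linter.unusedSectionVars false

namespace Vale.Agent.P073.PK

open Set Filter Topology Metric MeasureTheory Vale.Agent.P073.St
open scoped ENNReal NNReal
open Vale.Agent.P073.HB (GoodSeg vx edgeSum obox)
open Vale.Agent.P073.AB
open P073.Net (dyc dyo IsTile)

/-- The good cells of one mesh, for a given origin `v` with good segments and a bound for the edge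
sum. -/
theorem exists_ctx {p θ M κ η t₀ lam δ d e : ℝ} {n j : ℕ} {Ω Λ E E' : Set V} {f : V → V}
    {F : V → (V →L[ℝ] V)} {v : V} (p1 : 1 ≤ p) (θ0 : 0 < θ) (M0 : 0 < M) (κ0 : 0 < κ)
    (lam0 : 0 < lam) (lam1 : lam < 1) (t₀0 : 0 < t₀) (j1 : 1 ≤ j)
    (const : η * (2 ^ j : ℕ) + η + lam * (1 + M) ≤ κ)
    (const' : ENNReal.ofReal η ^ p + 2 ^ (p - 1) * ((1 + ENNReal.ofReal M ^ p) *
      ENNReal.ofReal lam) ≤ ENNReal.ofReal κ)
    (fine : Fine f F E E' Ω Λᶜ θ M η t₀ (2 ^ j) δ d e (ms (n + j)))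
    (hE : IsCompact E) (hE' : IsCompact E')
    (far : ∀ x ∈ E, ∀ y, ‖y - x‖ ≤ 3 * ms n → ms (n + j) ≤ infDist y Ωᶜ)
    (far' : ∀ x ∈ Ω, infDist x Ωᶜ ≤ 2 * ms (n + j) → x ∉ E ∧
      ∀ y ∈ E, M * ms n < ‖f x - f y‖) (hb : Bornology.IsBounded Ω)
    (hgood : ∀ l ∈ edgesIn Ω v (ms (n + j)), GoodSeg f F (ga v (ms (n + j)) l) (gv (ms (n + j)) l))
    (K₀ : Set V) :
    ∃ (L : Finset ((Fin 3 → ℤ) × Fin 3)) (I : Finset (Fin 3 → ℤ)) (b : (Fin 3 → ℤ) → V),
      Ctx p θ M κ η t₀ lam δ d e n j Ω Λ E E' K₀ f F v L I b := by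
  classical
  have hL := finite_edgesIn hb v (ms_pos (n + j))
  have hI := finite_cellsOf hE.isBounded v (ms_pos n)
  have hex : ∀ z, ∃ x : V, z ∈ cellsOf E v (ms n) → x ∈ E ∧
      x ∈ closedBall (ctr v (ms n) z) (ms n / 2) := by
    intro z
    by_cases hz : z ∈ cellsOf E v (ms n)
    · obtain ⟨x, hx, hx'⟩ := hz
      exact ⟨x, fun _ => ⟨hx, hx'⟩⟩
    · exact ⟨0, fun h => absurd h hz⟩
  choose b hb' using hex
  refine ⟨hL.toFinset, hI.toFinset, b, ?_⟩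
  exact
    { p1 := p1, θ0 := θ0, M0 := M0, κ0 := κ0, lam0 := lam0, lam1 := lam1, t₀0 := t₀0, j1 := j1
      const := const, const' := const', fine := fine, Ebd := hE, Ebd' := hE', far := far
      far' := far'
      L_iff := fun l => hL.mem_toFinset
      good := fun l hl => hgood l (hL.mem_toFinset.1 hl)
      I_iff := fun z => hI.mem_toFinset
      bE := fun z hz => (hb' z (hI.mem_toFinset.1 hz)).1
      bz := fun z hz => (hb' z (hI.mem_toFinset.1 hz)).2 }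

namespace Ctx

variable {p θ M κ η t₀ lam δ d e : ℝ} {n j : ℕ} {Ω Λ E E' K₀ : Set V} {f : V → V}
  {F : V → (V →L[ℝ] V)} {v : V} {L : Finset ((Fin 3 → ℤ) × Fin 3)} {I : Finset (Fin 3 → ℤ)}
  {b : (Fin 3 → ℤ) → V}

/-- The constant of the count of the bad cells. -/
noncomputable def cst (θ t₀ lam : ℝ) (j : ℕ) (c : ℝ≥0∞) : ℝ≥0∞ :=
  ENNReal.ofReal ((2 ^ j : ℕ) / t₀) ^ 3 + (2 ^ 3 / ENNReal.ofReal lam +
    ENNReal.ofReal (1 + 16 / θ)) * c * ((2 ^ j : ℕ) : ℝ≥0∞) ^ 3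

theorem cst_ne_top {θ t₀ lam : ℝ} (hlam : 0 < lam) (j : ℕ) {c : ℝ≥0∞} (hc : c ≠ ⊤) :
    cst θ t₀ lam j c ≠ ⊤ := by
  unfold cst
  have h1 : (2 ^ 3 / ENNReal.ofReal lam : ℝ≥0∞) ≠ ⊤ :=
    ENNReal.div_ne_top (by norm_num) (ENNReal.ofReal_pos.2 hlam).ne'
  refine ENNReal.add_ne_top.2 ⟨by finiteness, ENNReal.mul_ne_top (ENNReal.mul_ne_top
    (ENNReal.add_ne_top.2 ⟨h1, ENNReal.ofReal_ne_top⟩) hc) ?_⟩
  exact ENNReal.pow_ne_top (ENNReal.natCast_ne_top _)

theorem card_le (h : Ctx p θ M κ η t₀ lam δ d e n j Ω Λ E E' K₀ f F v L I b)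
    (hΩ : MeasurableSet Ω) {c ε : ℝ≥0∞}
    (ho : edgeSum (dens F p Ω (E ∪ E')) v (ms (n + j)) * ENNReal.ofReal (ms (n + j)) ^ 3 ≤
      c * ∫⁻ x, dens F p Ω (E ∪ E') x)
    (hK₀ : ∀ I' : Finset (Fin 3 → ℤ), Cells E v (ms n) (t₀ * ms (n + j)) I' b →
      by classical exact ((I'.filter fun z => ¬ Disjoint (img f F v (ms n) (ms (n + j)) b z) K₀).card :
        ℝ≥0∞) * ENNReal.ofReal (ms (n + j)) ^ 3 ≤ ε) :
    ((I \ Jsel p t₀ lam n j E E' K₀ f F v L I b).card : ℝ≥0∞) * ENNReal.ofReal (ms n) ^ 3 ≤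
      cst θ t₀ lam j c * (∫⁻ x, dens F p Ω (E ∪ E') x) + ((2 ^ j : ℕ) : ℝ≥0∞) ^ 3 * ε := by
  classical
  have h1 := card_not_sel_le (K₀ := K₀) (ρ := ms (n + j)) h.fine (by positivity) h.θ0
    (by have := ms_pos (n + j); linarith) le_rfl h.Ebd h.Ebd' h.t₀0 h.p1 h.lam0 hΩ
    (fun l hl => (h.L_iff l).1 hl) h.good ho (I := I) (b := b)
    (fun z hz => by rw [h.Nm]; exact (h.I_iff z).1 hz) (fun z hz => h.bE z hz)
    (fun z hz => by rw [h.Nm]; exact h.bz z hz) (ε := ε)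
    (fun I' hI' => by
      rw [h.Nm] at hI' ⊢
      have := hK₀ I' hI'
      convert this)
  rw [h.Nm] at h1
  refine le_trans ?_ h1
  gcongr
  intro z hz
  rw [Finset.mem_sdiff] at hz
  refine Finset.mem_filter.2 ⟨hz.1, fun hs => hz.2 ?_⟩
  exact mem_Jsel.2 ⟨hz.1, hs⟩

end Ctx

/-- The two functionals of the origin. -/
theorem exists_origin_fd {p : ℝ} {Ω E S : Set V} {F : V → (V →L[ℝ] V)} (hΩ : IsOpen Ω)
    (hb : Bornology.IsBounded Ω) (hE : MeasurableSet E) (hS : MeasurableSet S)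
    (hF : AEStronglyMeasurable F (volume.restrict Ω)) (n : ℕ) {P : V → Prop}
    (hP : ∀ᵐ v, P v) : ∃ v : V, P v ∧
      edgeSum (dens F p Ω S) v (ms n) * ENNReal.ofReal (ms n) ^ 3 ≤
        6 * ∫⁻ x, dens F p Ω S x ∧
      tileSum Ω n ((Ω \ E).indicator fun x => ‖F x‖ₑ ^ p) v ≤
        18 * ∫⁻ x in Ω \ E, ‖F x‖ₑ ^ p := by
  have h1 : volume (obox 3 1) = 1 := by rw [HB.volume_obox]; simp
  have hκ₁ : AEMeasurable (dens F p Ω S) volume := aemeasurable_dens hΩ.measurableSet hS hF p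
  have hκ₂ : AEMeasurable ((Ω \ E).indicator fun x => ‖F x‖ₑ ^ p) volume := by
    rw [aemeasurable_indicator_iff (hΩ.measurableSet.diff hE)]
    have h1 : AEStronglyMeasurable F (volume.restrict (Ω \ E)) :=
      hF.mono_measure (Measure.restrict_mono sdiff_subset le_rfl)
    exact h1.enorm.pow_const p
  have hΦ₁ : AEMeasurable (fun v => edgeSum (dens F p Ω S) v (ms n) *
      ENNReal.ofReal (ms n) ^ 3) volume := (HB.aemeasurable_edgeSum hκ₁ _).mul_const _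
  have hΦ₂ := aemeasurable_tileSum (Ω := Ω) hκ₂ n
  obtain ⟨v, -, hPv, hv⟩ := HB.exists_good_point (ν := (volume : Measure V)) (B := obox 3 1)
    (by rw [h1]; simp) (by rw [h1]; simp) (HB.measurableSet_obox 1)
    (Finset.univ : Finset Bool) (fun i v => if i then edgeSum (dens F p Ω S) v (ms n) *
      ENNReal.ofReal (ms n) ^ 3 else tileSum Ω n ((Ω \ E).indicator fun x => ‖F x‖ₑ ^ p) v)
    (by
      intro i _
      cases i
      · simpa using hΦ₂.restrict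
      · simpa using hΦ₁.restrict)
    (P := P) (by filter_upwards [hP] with x hx _ using hx)
  refine ⟨v, hPv, ?_, ?_⟩
  · have h2 := hv true (Finset.mem_univ _)
    simp only [if_true, h1, mul_one, Finset.card_univ, Fintype.card_bool, Nat.cast_ofNat] at h2
    refine h2.trans ?_
    have h3 := lintegral_edgeSum_scaled hκ₁ n
    have h4 : ((2 : ℝ≥0∞) ^ n)⁻¹ = ENNReal.ofReal (ms n) := by
      rw [ms, one_div, ENNReal.ofReal_inv_of_pos (by positivity), ENNReal.ofReal_pow (by norm_num)]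
      norm_num
    rw [h4] at h3
    have h5 : (1 / 2 ^ n : ℝ) = ms n := rfl
    rw [h5] at h3
    rw [h3, ← mul_assoc]
    norm_num
  · have h2 := hv false (Finset.mem_univ _)
    simp only [Bool.false_eq_true, if_false, h1, mul_one, Finset.card_univ, Fintype.card_bool,
      Nat.cast_ofNat] at h2
    refine h2.trans ?_
    have h3 := lintegral_tileSum_le hΩ hb hκ₂ n
    have h4 : ∫⁻ x in Ω, (Ω \ E).indicator (fun x => ‖F x‖ₑ ^ p) x =
        ∫⁻ x in Ω \ E, ‖F x‖ₑ ^ p := by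
      rw [lintegral_indicator (hΩ.measurableSet.diff hE), Measure.restrict_restrict
        (hΩ.measurableSet.diff hE), inter_eq_left.2 sdiff_subset]
    rw [h4] at h3
    calc (2 : ℝ≥0∞) * ∫⁻ v in obox 3 1, tileSum Ω n ((Ω \ E).indicator fun x => ‖F x‖ₑ ^ p) v
        ≤ 2 * (9 * ∫⁻ x in Ω \ E, ‖F x‖ₑ ^ p) := by gcongr
      _ = _ := by rw [← mul_assoc]; norm_num

/-- The segments of the lattice are good. -/
theorem ratGood_grid {v : V} {Ω : Set V} {f : V → V} {F : V → Mat} (h : RatGood v Ω f F) (n : ℕ)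
    {l : (Fin 3 → ℤ) × Fin 3} (hl : l ∈ edgesIn Ω v (ms n)) :
    GoodSeg f (fun x => cl (F x)) (ga v (ms n) l) (gv (ms n) l) := by
  have h1 := h (ga v (ms n) l) (ga v (ms n) l + gv (ms n) l) (fun k => ⟨(l.1 k : ℚ) / 2 ^ n, by
      simp only [ga, vx, ms]
      push_cast
      ring⟩) (fun k => ⟨(l.1 k : ℚ) / 2 ^ n + if k = l.2 then 1 / 2 ^ n else 0, by
      simp only [ga, gv, vx, HB.ev, ms, Pi.add_apply, Pi.single_apply]
      split_ifs
      · push_cast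
        ring
      · push_cast
        ring⟩) (by
      rw [segment_eq_image']
      rintro x ⟨t, ht, rfl⟩
      have := hl t ht
      simpa using this)
  simpa using h1

end Vale.Agent.P073.PK
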