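import Vale.Agent.P073.PK.Choice4

/-!
# P073, packing: the choice of the scales and of the good cells (AB5), final theorem
-/

set_option linter.unusedSectionVars false

namespace Vale.Agent.P073.PK

open Set Filter Topology Metric MeasureTheory Vale.Agent.P073.St
open scoped ENNReal NNReal
open Vale.Agent.P073.HB (GoodSeg vx edgeSum obox)
open Vale.Agent.P073.AB
open P073.Net (dyc dyo IsTile)

theorem ofReal_div_two_le {ε : ℝ} (hε : 0 < ε) : ENNReal.ofReal ε / 2 ≠ 0 := by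
  simp only [ne_eq, ENNReal.div_eq_zero_iff, ENNReal.ofReal_eq_zero, not_le, hε, not_true,
    ENNReal.ofNat_ne_top, or_false, not_false_eq_true, false_or]

/-- **(AB5)** -/
theorem specChoice : SpecChoice := by
  classical
  intro p Ω Λ f F hp hp2 hΩd hΛd hf hS hFD ε hε
  obtain ⟨g, hinv, hfc, hgc⟩ := hf
  have hΩ := hΩd.1
  have hΛ := hΛd.1
  have hb := isBounded_of_domain hΩd
  have hv := volume_ne_top_of_domain hΩd
  have hp0 : 0 ≤ p := by linarith
  set F' : V → (V →L[ℝ] V) := fun x => cl (F x) with hF'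
  have haesm : AEStronglyMeasurable F' (volume.restrict Ω) := IsSob.aesm hS
  have hFp : ∫⁻ x in Ω, ‖F' x‖ₑ ^ p ≠ ⊤ := IsSob.lintegral_ne_top hp hS
  have hw := IsSob.weakDeriv hp hv hS
  have hinj : InjOn f Ω := fun x hx y hy hxy => by
    rw [← (hinv.1 x hx).2, ← (hinv.1 y hy).2, hxy]
  set ε' : ℝ≥0∞ := ENNReal.ofReal ε with hε'
  have hε'0 : ε' ≠ 0 := (ENNReal.ofReal_pos.2 hε).ne'
  have hε't : ε' ≠ ⊤ := ENNReal.ofReal_ne_top
  -- the kinds
  have hε1000 : ENNReal.ofReal (ε / 1000) ≠ 0 := (ENNReal.ofReal_pos.2 (by positivity)).ne'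
  obtain ⟨θ, M, hθ, -, hM1, K, hK, hKe⟩ := exists_kindSets hΩ.measurableSet hv haesm hFp hε1000
  have hM : 0 < M := by linarith
  refine ⟨θ, hθ, M, hM, fun k₁ k₀ hk₁ κ hκ => ?_⟩
  set j := k₁ + k₀ with hj
  have hj1 : 1 ≤ j := by omega
  have hN2 : (2 : ℝ) ≤ ((2 ^ j : ℕ) : ℝ) := by
    push_cast
    calc (2 : ℝ) = 2 ^ 1 := by norm_num
      _ ≤ 2 ^ j := pow_le_pow_right₀ (by norm_num) hj1
  -- the constants
  have h2p : (2 : ℝ≥0∞) ^ (p - 1) ≠ ⊤ := ENNReal.rpow_ne_top_of_nonneg (by linarith) (by norm_num)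
  have hMp : ENNReal.ofReal M ^ p ≠ ⊤ := ENNReal.rpow_ne_top_of_nonneg hp0 ENNReal.ofReal_ne_top
  have h1Mp : 1 + ENNReal.ofReal M ^ p ≠ ⊤ := ENNReal.add_ne_top.2 ⟨ENNReal.one_ne_top, hMp⟩
  obtain ⟨η', hη', hη'κ, hη'1, hη'2⟩ := exists_eta hp hκ (2 ^ (p - 1) * (1 + ENNReal.ofReal M ^ p))
    (3 * volume Ω) (ENNReal.mul_ne_top h2p h1Mp) (ENNReal.mul_ne_top (by norm_num) hv)
    (ofReal_div_two_le hε)
  obtain ⟨η, t₀, lam, hη, ht₀, -, hlam, hlam1, hc1, hc2, hscale⟩ :=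
    exists_scale hθ hM hN2 hη'
  have hηη' : η ≤ η' := by nlinarith
  -- the small energy
  set C₁ := Ctx.cst θ t₀ lam j 6 with hC₁
  have hC₁t : C₁ ≠ ⊤ := Ctx.cst_ne_top hlam j (by norm_num)
  set A : ℝ≥0∞ := 1 + 2 ^ (p - 1) * (1 + ENNReal.ofReal M ^ p) + ENNReal.ofReal M ^ p * C₁ with hA
  have hAt : A ≠ ⊤ := ENNReal.add_ne_top.2 ⟨ENNReal.add_ne_top.2 ⟨ENNReal.one_ne_top,
    ENNReal.mul_ne_top h2p h1Mp⟩, ENNReal.mul_ne_top hMp hC₁t⟩
  have hA0 : A ≠ 0 := by
    rw [hA]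
    intro h
    rw [add_eq_zero, add_eq_zero] at h
    exact one_ne_zero h.1.1
  set ε₂ : ℝ≥0∞ := ENNReal.ofReal (ε / 1000) / A with hε₂
  have hε₂0 : ε₂ ≠ 0 := by
    rw [hε₂, Ne, ENNReal.div_eq_zero_iff]
    exact not_or.2 ⟨hε1000, hAt⟩
  have hAε₂ : A * ε₂ = ENNReal.ofReal (ε / 1000) := ENNReal.mul_div_cancel hA0 hAt
  obtain ⟨T, TZ, hT⟩ := exists_pieces hΩ hv hfc haesm hw hp hFp hK hε₂0
  set E := T .three with hE
  set E' := Pieces.others T TZ .three with hE'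
  have hEc : IsCompact E := hT.compact _
  have hEc' : IsCompact E' := hT.compact_others _
  have hEΩ : E ⊆ Ω := (hT.sub _).trans (hK.sub _)
  have hEΩ' : E' ⊆ Ω := by
    rintro x (hx | hx)
    · simp only [mem_iUnion] at hx
      obtain ⟨κ', -, hx⟩ := hx
      exact hK.sub _ (hT.sub _ hx)
    · exact (hT.subZ hx).1
  have hdis : Disjoint E E' := hT.disjoint_others hK _
  have hkind : ∀ x ∈ E, ‖F' x‖ ≤ M ∧ ∀ w, θ * ‖w‖ ≤ ‖F' x w‖ := fun x hx =>
    hK.kind .three x (hT.sub _ hx)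
  -- the energies
  have hen1 : ∫⁻ x, dens F' p Ω (E ∪ E') x ≤ ε₂ := by
    rw [lintegral_dens hΩ.measurableSet (hEc.measurableSet.union hEc'.measurableSet),
      Pieces.union_others]
    exact hT.energy.le
  have hen2 : ∫⁻ x in Ω \ E, ‖F' x‖ₑ ^ p ≤ ENNReal.ofReal (ε / 1000) + ε₂ :=
    lintegral_diff_three_le hp hΩ hFD hK hKe hT
  -- the zero order part
  obtain ⟨K₁, hK₁, hK₁c, hK₁v⟩ := hΩ.measurableSet.exists_isCompact_sdiff_lt hv hε'0
  obtain ⟨s₀, hs₀, hosc⟩ := exists_osc hΩ hfc hK₁c hK₁ hε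
  -- the fine scale
  have hDE : Disjoint (f '' E) Λᶜ := by
    rw [Set.disjoint_left]
    rintro _ ⟨x, hx, rfl⟩ h
    exact h (hinv.1 x (hEΩ hx)).1
  obtain ⟨δ, d, e, m₀, hδ, hd, he, hm₀, hfine⟩ := exists_fine hΩ hfc hinj hEc hEc' hEΩ hEΩ' hdis
    (hT.lusin .three).uDiff (hT.cont _) (fun x hx => (hkind x hx).2) hM
    (fun x hx => (hkind x hx).1) (N := 2 ^ j) (by positivity) hη hscale hΛ.isClosed_compl hDE
  obtain ⟨C, hCΩ, hCc, dC, hdC, -, hfar⟩ := exists_compact_far hΛ hfc hgc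
    (fun y hy => (hinv.2 y hy).1) (fun x hx => (hinv.1 x hx).1) (fun x hx => (hinv.1 x hx).2)
    hEc hEΩ
  obtain ⟨dΩ, hdΩ, hdist⟩ := exists_infDist hΩ (compl_nonempty hb) (hEc.union hCc)
    (union_subset hEΩ hCΩ)
  -- the generation
  obtain ⟨n, hn⟩ := exists_ms_le (s := min m₀ (min (ε / (M + 2)) (min (s₀ / 2) (min (dΩ / 8)
    (dC / M))))) (by positivity)
  have hms := hn n le_rfl
  have hmsj : ms (n + j) ≤ ms n := ms_le_ms (by omega)
  have hn1 : ms n ≤ m₀ := hms.le.trans (min_le_left _ _)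
  have hn2 : ms n ≤ ε / (M + 2) := hms.le.trans ((min_le_right _ _).trans (min_le_left _ _))
  have hn3 : ms n ≤ s₀ / 2 := hms.le.trans ((min_le_right _ _).trans
    ((min_le_right _ _).trans (min_le_left _ _)))
  have hn4 : ms n ≤ dΩ / 8 := hms.le.trans ((min_le_right _ _).trans
    ((min_le_right _ _).trans ((min_le_right _ _).trans (min_le_left _ _))))
  have hn5 : ms n < dC / M := hms.trans_le ((min_le_right _ _).trans
    ((min_le_right _ _).trans ((min_le_right _ _).trans (min_le_right _ _))))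
  have hmsp := ms_pos n
  have hmspj := ms_pos (n + j)
  -- the origin
  have hP : ∀ᵐ v : V, RatGood v Ω f F ∧ ∀ e : Idx × Fin 3, edge v e ⊆ Ω →
      eInt v e (fun x => ENNReal.ofReal (‖cl (F x) (SQ.ev e.2)‖ ^ p)) ≠ ⊤ := by
    filter_upwards [ae_ratGood hp hΩ hv hfc hS, ae_fin hp hΩ.measurableSet hS] with v h1 h2
    exact ⟨h1, h2⟩
  obtain ⟨v, ⟨hrat, hfin⟩, ho, htile⟩ := exists_origin_fd hΩ hb hEc.measurableSet
    (hEc.measurableSet.union hEc'.measurableSet) haesm (n + j) hP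
  -- the context
  obtain ⟨L, I, b, hctx⟩ := exists_ctx (κ := κ) (p := p) hp hθ hM hκ hlam hlam1 ht₀ hj1
    (hc1.trans hη'κ)
    (by
      refine le_trans ?_ hη'1
      rw [mul_assoc]
      have h1 : ENNReal.ofReal η ^ p ≤ ENNReal.ofReal η' ^ p :=
        ENNReal.rpow_le_rpow (ENNReal.ofReal_le_ofReal hηη') hp0
      have h2 : ENNReal.ofReal lam ≤ ENNReal.ofReal η' := ENNReal.ofReal_le_ofReal hc2
      gcongr)
    (hfine (ms (n + j)) hmspj (hmsj.trans hn1)) hEc hEc'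
    (by
      intro x hx y hxy
      have h1 := hdist x (Or.inl hx)
      have h2 := infDist_le_infDist_add_dist (s := Ωᶜ) (x := x) (y := y)
      rw [dist_comm, dist_eq_norm] at h2
      linarith)
    (by
      intro x hx hxd
      have hxEC : x ∉ E ∪ C := fun h => by
        have := hdist x h
        linarith
      refine ⟨fun h => hxEC (Or.inl h), fun y hy => ?_⟩
      have h1 := hfar x hx (fun h => hxEC (Or.inr h)) y hy
      rw [dist_eq_norm] at h1
      rw [lt_div_iff₀ hM] at hn5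
      linarith) hb (fun l hl => ratGood_grid hrat _ hl) (∅ : Set V)
  set J := Jsel p t₀ lam n j E E' ∅ f F' v L I b with hJ
  -- the number of bad cells
  have hcard : ((I \ J).card : ℝ≥0∞) * ENNReal.ofReal (ms n) ^ 3 ≤ C₁ * ε₂ := by
    have h1 := hctx.card_le hΩ.measurableSet ho (ε := 0) (fun I' _ => by
      have : (I'.filter fun z => ¬ Disjoint (img f F' v (ms n) (ms (n + j)) b z) ∅) = ∅ := by
        refine Finset.filter_eq_empty_iff.2 fun z _ h => h (Set.disjoint_empty _)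
      simp [this])
    rw [mul_zero, add_zero] at h1
    exact h1.trans (mul_le_mul' le_rfl hen1)
  have htiles := (specTiles Ω (n + j) v hΩ hb hΩd.2.1.nonempty)
  have htl : ∀ q ∈ tiles Ω (n + j) v, dyc v q.1 q.2 ⊆ Ω ∧ n + j ≤ q.1 := fun q hq =>
    ⟨htiles.2.1.sub q hq, htiles.2.2.1 q hq⟩
  -- the sums
  have h1000 : ENNReal.ofReal (ε / 1000) = ε' / 1000 := by
    rw [hε', ENNReal.ofReal_div_of_pos (by norm_num)]
    norm_num
  have hle1 : ε₂ ≤ ε' / 1000 := by
    rw [← h1000, ← hAε₂]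
    calc ε₂ = 1 * ε₂ := (one_mul _).symm
      _ ≤ A * ε₂ := by
        refine mul_le_mul' ?_ le_rfl
        rw [hA, add_assoc]
        exact le_self_add
  have hle2 : 2 ^ (p - 1) * (1 + ENNReal.ofReal M ^ p) * ε₂ ≤ ε' / 1000 := by
    rw [← h1000, ← hAε₂]
    refine mul_le_mul' ?_ le_rfl
    rw [hA, add_assoc, add_left_comm]
    exact le_self_add
  have hle3 : ENNReal.ofReal M ^ p * (C₁ * ε₂) ≤ ε' / 1000 := by
    rw [← h1000, ← hAε₂, ← mul_assoc]
    refine mul_le_mul' ?_ le_rfl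
    rw [hA]
    exact le_add_self
  have hfrac : ∀ m : ℕ, m ≤ 1000 → (m : ℝ≥0∞) * (ε' / 1000) ≤ ε' := by
    intro m hm
    calc (m : ℝ≥0∞) * (ε' / 1000) ≤ (1000 : ℕ) * (ε' / 1000) := by
          gcongr
      _ = ε' := by
          push_cast
          exact ENNReal.mul_div_cancel (by norm_num) (by norm_num)
  refine ⟨⟨v, n, n + k₁ + k₀, rfl, J, fun z => aff f F' (b z), fun z => F' (b z), ?_, ?_, ?_, ?_,
    ?_, hrat, ?_, ?_, ?_, ?_, ?_, ?_, ?_, ?_, K₁, hK₁, hK₁c, hK₁v.le, ?_⟩⟩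
  · -- aff
    intro z x y
    simp only [aff]
    rw [add_sub_add_left_eq_sub, ← map_sub]
    congr 1
    abel
  · exact fun z hz w => hctx.below (hctx.mem_I hz) w
  · exact fun z hz w => hctx.above (hctx.mem_I hz) w
  · -- core
    intro z hz x hx
    have := hctx.core (hctx.mem_I hz) hx
    rwa [show n + j = n + k₁ + k₀ by omega] at this
  · -- small
    rw [div_eq_mul_one_div]
    have h1 : (1 / 2 ^ n : ℝ) = ms n := rfl
    rw [h1]
    calc (M + 2) * ms n ≤ (M + 2) * (ε / (M + 2)) := by gcongr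
      _ = ε := by field_simp
  · -- fin
    exact fun e he _ => hfin e he
  · -- own
    intro z hz e he hez
    have he' : e.1.1 = n + j := by omega
    have hk : (κ / 2 ^ (n + k₁ + k₀) : ℝ) = κ * ms (n + j) := by
      rw [show n + j = n + k₁ + k₀ by omega, ms]
      ring
    rw [hk]
    exact ⟨fun x hx => hctx.own1 hz he' hez hx, hctx.own2 hz he' hez⟩
  · -- foreign
    intro z hz e he hez x hx
    have h1 : (n + k₁ + k₀) = n + j := by omega
    rw [h1] at he ⊢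
    exact hctx.foreign hz htl he hez hx
  · -- inside
    intro z hz
    have h1 : (n + k₁ + k₀) = n + j := by omega
    rw [h1]
    exact hctx.inside (hctx.mem_I hz)
  · -- disj
    intro z hz z' hz' hzz
    have h1 : (n + k₁ + k₀) = n + j := by omega
    rw [h1]
    exact hctx.disj hz hz' hzz
  · -- s1
    refine hctx.s1.trans ?_
    calc 3 * (ENNReal.ofReal η ^ p * volume Ω +
          2 ^ (p - 1) * (1 + ENNReal.ofReal M ^ p) * ∫⁻ x, dens F' p Ω (E ∪ E') x)
        ≤ 3 * (ENNReal.ofReal η' ^ p * volume Ω +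
          2 ^ (p - 1) * (1 + ENNReal.ofReal M ^ p) * ε₂) := by
          have h1 : ENNReal.ofReal η ^ p ≤ ENNReal.ofReal η' ^ p :=
            ENNReal.rpow_le_rpow (ENNReal.ofReal_le_ofReal hηη') hp0
          gcongr
      _ = ENNReal.ofReal η' ^ p * (3 * volume Ω) +
          3 * (2 ^ (p - 1) * (1 + ENNReal.ofReal M ^ p) * ε₂) := by ring
      _ ≤ ε' / 2 + 3 * (ε' / 1000) := by gcongr
      _ ≤ ε' / 2 + (500 : ℕ) * (ε' / 1000) := by
          gcongr
          norm_num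
      _ = ε' := by
          have h1 : ((500 : ℕ) : ℝ≥0∞) * (ε' / 1000) = ε' / 2 := by
            rw [ENNReal.eq_div_iff (by norm_num) (by norm_num)]
            push_cast
            rw [← mul_assoc]
            norm_num
            exact ENNReal.mul_div_cancel (by norm_num) (by norm_num)
          rw [h1, ENNReal.add_halves]
  · -- s2
    refine (hctx.s2 hcard).trans ?_
    calc 3 * (ENNReal.ofReal M ^ p * (C₁ * ε₂) + ∫⁻ x in Ω \ E, ‖F' x‖ₑ ^ p)
        ≤ 3 * (ε' / 1000 + (ε' / 1000 + ε' / 1000)) := by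
          gcongr
          refine hen2.trans ?_
          rw [h1000]
          gcongr
      _ = (9 : ℕ) * (ε' / 1000) := by push_cast; ring
      _ ≤ ε' := hfrac 9 (by norm_num)
  · -- s3
    have h1 : (n + k₁ + k₀) = n + j := by omega
    rw [h1]
    have h2 := hctx.s3 hcard htl ((tsum_tiles_le hΩ hb (n + j) _ v).trans htile)
    refine h2.trans ?_
    calc 24 * (ENNReal.ofReal M ^ p * (C₁ * ε₂)) + 18 * ∫⁻ x in Ω \ E, ‖F' x‖ₑ ^ p
        ≤ 24 * (ε' / 1000) + 18 * (ε' / 1000 + ε' / 1000) := by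
          gcongr
          refine hen2.trans ?_
          rw [h1000]
          gcongr
      _ = (60 : ℕ) * (ε' / 1000) := by push_cast; ring
      _ ≤ ε' := hfrac 60 (by norm_num)
  · -- osc
    intro x hx y hxy
    refine hosc x hx y (hxy.trans ?_)
    have h1 : (2 / 2 ^ n : ℝ) = 2 * ms n := by rw [ms]; ring
    rw [h1]
    linarith

end Vale.Agent.P073.PK
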