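import Vale.Agent.P073.PK.Count

/-!
# P073, packing: choice of the constants, closeness on the net of a very good cell
-/

set_option linter.unusedSectionVars false

namespace Vale.Agent.P073.PK

open Set Filter Topology Metric MeasureTheory
open scoped ENNReal NNReal
open Vale.Agent.P073.HB

/-- Choice of the constants. -/
theorem exists_scale {θ M : ℝ} (hθ : 0 < θ) (hM : 0 < M) {N : ℝ} (hN : 2 ≤ N) {η' : ℝ}
    (hη' : 0 < η') : ∃ η t₀ lam : ℝ, 0 < η ∧ 0 < t₀ ∧ t₀ ≤ 1 / 4 ∧ 0 < lam ∧ lam < 1 ∧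
      η * N + η + lam * (1 + M) ≤ η' ∧ lam ≤ η' ∧
      ∀ δ d : ℝ, 0 < δ → 0 < d → ∃ m₀ : ℝ, 0 < m₀ ∧ ∀ m : ℝ, 0 < m → m ≤ m₀ →
        Scale θ M η δ d (N * m) m (t₀ * m) := by
  have hN0 : 0 < N := by linarith
  refine ⟨min (θ / (64 * N)) (η' / (2 * (N + 1))), min (1 / 4) (θ / (64 * M)),
    min (1 / 2) (min (η' / (2 * (1 + M))) η'), by positivity, by positivity, min_le_left _ _,
    by positivity, (min_le_left _ _).trans_lt (by norm_num), ?_, ?_, ?_⟩
  · have h1 : min (θ / (64 * N)) (η' / (2 * (N + 1))) * (N + 1) ≤ η' / 2 := by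
      calc _ ≤ η' / (2 * (N + 1)) * (N + 1) :=
            mul_le_mul_of_nonneg_right (min_le_right _ _) (by positivity)
        _ = η' / 2 := by field_simp
    have h2 : min (1 / 2) (min (η' / (2 * (1 + M))) η') * (1 + M) ≤ η' / 2 := by
      calc _ ≤ η' / (2 * (1 + M)) * (1 + M) :=
            mul_le_mul_of_nonneg_right ((min_le_right _ _).trans (min_le_left _ _)) (by positivity)
        _ = η' / 2 := by field_simp
    linarith
  · exact (min_le_right _ _).trans (min_le_right _ _)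
  · intro δ d hδ hd
    refine ⟨min (δ / (2 * N)) (min (d / (2 * θ)) (d / (θ * N))), by positivity, ?_⟩
    intro m hm hmm
    have h1 : m ≤ δ / (2 * N) := hmm.trans (min_le_left _ _)
    have h2 : m ≤ d / (2 * θ) := hmm.trans ((min_le_right _ _).trans (min_le_left _ _))
    have h3 : m ≤ d / (θ * N) := hmm.trans ((min_le_right _ _).trans (min_le_right _ _))
    rw [le_div_iff₀ (by positivity)] at h1 h2 h3
    have ha : min (θ / (64 * N)) (η' / (2 * (N + 1))) * N ≤ θ / 64 := by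
      calc _ ≤ θ / (64 * N) * N := mul_le_mul_of_nonneg_right (min_le_left _ _) hN0.le
        _ = θ / 64 := by field_simp
    have hb : M * min (1 / 4) (θ / (64 * M)) ≤ θ / 64 := by
      calc _ ≤ M * (θ / (64 * M)) := mul_le_mul_of_nonneg_left (min_le_right _ _) hM.le
        _ = θ / 64 := by field_simp
    refine ⟨hm, by nlinarith, by positivity, ?_, by positivity, ?_, ?_, by nlinarith, by linarith,
      by linarith⟩
    · have := mul_le_mul_of_nonneg_right (min_le_left (1 / 4 : ℝ) (θ / (64 * M))) hm.le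
      linarith
    · refine (min_le_left _ _).trans ?_
      rw [div_le_div_iff₀ (by positivity) (by norm_num)]
      nlinarith
    · calc min (θ / (64 * N)) (η' / (2 * (N + 1))) * (N * m) +
            M * (min (1 / 4) (θ / (64 * M)) * m)
          = (min (θ / (64 * N)) (η' / (2 * (N + 1))) * N) * m +
            (M * min (1 / 4) (θ / (64 * M))) * m := by ring
        _ ≤ θ / 64 * m + θ / 64 * m := by gcongr
        _ = θ * m / 32 := by ring

variable {k : ℕ} {Y : Type*} [NormedAddCommGroup Y] [NormedSpace ℝ Y]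
  {g : (Fin k → ℝ) → Y} {G : (Fin k → ℝ) → ((Fin k → ℝ) →L[ℝ] Y)}
  {E E' : Set (Fin k → ℝ)} {θ M η δ d : ℝ} {o : Fin k → ℝ} {r m τ ρ lam p : ℝ} {κ : Type*}
  {L : Finset κ} {a v : κ → (Fin k → ℝ)} {b : (Fin k → ℤ) → (Fin k → ℝ)} {n : Fin k → ℤ}

theorem VeryGood.beta_cell (h : VeryGood g G p E E' o r ρ τ lam L a v b n)
    (hE' : Disjoint (closedBall (ctr o r n) (r / 2)) E') {l : κ} (hl : l ∈ L)
    (hln : InCell o r a v l n) :
    ∫⁻ t in Ioc (0 : ℝ) 1 ∩ (fun t => a l + t • v l) ⁻¹' Eᶜ, (1 + ‖G (a l + t • v l)‖ₑ ^ p) ≤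
      ENNReal.ofReal lam := by
  refine le_trans (lintegral_mono_set ?_) (h.own l hl hln)
  rintro t ⟨ht, htE⟩
  refine ⟨⟨ht.1.le, ht.2⟩, ?_⟩
  simp only [mem_preimage, mem_compl_iff, mem_union, not_or] at htE ⊢
  exact ⟨htE, fun h' => Set.disjoint_left.1 hE' (hln t ⟨ht.1.le, ht.2⟩) h'⟩

theorem VeryGood.volume_le (h : VeryGood g G p E E' o r ρ τ lam L a v b n)
    (hE' : Disjoint (closedBall (ctr o r n) (r / 2)) E') {l : κ} (hl : l ∈ L)
    (hln : InCell o r a v l n) :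
    volume (Ioc (0 : ℝ) 1 ∩ (fun t => a l + t • v l) ⁻¹' Eᶜ) ≤ ENNReal.ofReal lam := by
  refine le_trans ?_ (h.beta_cell hE' hl hln)
  calc volume (Ioc (0 : ℝ) 1 ∩ (fun t => a l + t • v l) ⁻¹' Eᶜ) =
        ∫⁻ t in Ioc (0 : ℝ) 1 ∩ (fun t => a l + t • v l) ⁻¹' Eᶜ, 1 := (setLIntegral_one _).symm
    _ ≤ _ := lintegral_mono fun t => le_self_add

theorem VeryGood.lintegral_le (h : VeryGood g G p E E' o r ρ τ lam L a v b n) (hp : 1 ≤ p)
    (hm : 0 ≤ m) (hv : ∀ l ∈ L, ‖v l‖ = m)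
    (hE' : Disjoint (closedBall (ctr o r n) (r / 2)) E') {l : κ} (hl : l ∈ L)
    (hln : InCell o r a v l n) :
    ∫⁻ t in Ioc (0 : ℝ) 1 ∩ (fun t => a l + t • v l) ⁻¹' Eᶜ, ‖G (a l + t • v l) (v l)‖ₑ ≤
      ENNReal.ofReal (lam * ‖v l‖) := by
  calc _ ≤ ∫⁻ t in Ioc (0 : ℝ) 1 ∩ (fun t => a l + t • v l) ⁻¹' Eᶜ,
        ENNReal.ofReal m * (1 + ‖G (a l + t • v l)‖ₑ ^ p) := by
        refine lintegral_mono fun t => ?_
        calc ‖G (a l + t • v l) (v l)‖ₑ ≤ ‖G (a l + t • v l)‖ₑ * ‖v l‖ₑ :=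
              ContinuousLinearMap.le_opENorm _ _
          _ = ENNReal.ofReal m * ‖G (a l + t • v l)‖ₑ := by
              rw [← ofReal_norm (v l), hv l hl, mul_comm]
          _ ≤ _ := by gcongr; exact one_add_le_rpow hp
    _ = ENNReal.ofReal m * ∫⁻ t in Ioc (0 : ℝ) 1 ∩ (fun t => a l + t • v l) ⁻¹' Eᶜ,
        (1 + ‖G (a l + t • v l)‖ₑ ^ p) := lintegral_const_mul' _ _ ENNReal.ofReal_ne_top
    _ ≤ ENNReal.ofReal m * ENNReal.ofReal lam := by gcongr; exact h.beta_cell hE' hl hln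
    _ = _ := by rw [← ENNReal.ofReal_mul hm, hv l hl, mul_comm]

/-- **Closeness of `g` and the affine map on the net of a very good cell.** -/
theorem VeryGood.close [CompleteSpace Y] (h : VeryGood g G p E E' o r ρ τ lam L a v b n)
    (hP : Pack g G E E' θ M η δ d) (hs : Scale θ M η δ d r m τ) (hM : 0 ≤ M) (hp : 1 ≤ p)
    (hlam : 0 ≤ lam) (hlam1 : lam < 1) (hE : MeasurableSet E) (hb : b n ∈ E)
    (hbn : b n ∈ closedBall (ctr o r n) (r / 2)) (hv : ∀ l ∈ L, ‖v l‖ = m)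
    (hE' : Disjoint (closedBall (ctr o r n) (r / 2)) E') {l : κ} (hl : l ∈ L)
    (hln : InCell o r a v l n) (hseg : GoodSeg g G (a l) (v l)) {t : ℝ} (ht : t ∈ Icc (0 : ℝ) 1) :
    ‖g (a l + t • v l) - aff g G (b n) (a l + t • v l)‖ ≤ η * r + (η + lam * (1 + M)) * m := by
  have := net_close hP hs.η_nonneg hM hlam hlam1 hs.r_lt hE hb hbn hseg hln
    (h.volume_le hE' hl hln) (h.lintegral_le hp hs.m_pos.le hv hE' hl hln) ht
  rwa [hv l hl] at this

/-- Closeness of the derivatives on the net of a very good cell. -/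
theorem VeryGood.deriv_close (h : VeryGood g G p E E' o r ρ τ lam L a v b n)
    (hP : Pack g G E E' θ M η δ d) (hs : Scale θ M η δ d r m τ) (hM : 0 ≤ M) (hp : 1 ≤ p)
    (hlam : 0 ≤ lam) (hE : MeasurableSet E) (hb : b n ∈ E)
    (hbn : b n ∈ closedBall (ctr o r n) (r / 2)) (hv : ∀ l ∈ L, ‖v l‖ = m)
    (hE' : Disjoint (closedBall (ctr o r n) (r / 2)) E') {l : κ} (hl : l ∈ L)
    (hln : InCell o r a v l n) :
    ∫⁻ t in Ioc (0 : ℝ) 1, ‖G (a l + t • v l) (v l) - G (b n) (v l)‖ₑ ≤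
      ENNReal.ofReal ((η + lam * (1 + M)) * m) := by
  have h1 := lintegral_dist_le hP hs.r_lt hE hb hbn hln
  have hm := hs.m_pos
  have h2 : ∫⁻ t in Ioc (0 : ℝ) 1 ∩ (fun t => a l + t • v l) ⁻¹' Eᶜ,
      (‖G (a l + t • v l) (v l)‖ₑ + ENNReal.ofReal (M * ‖v l‖)) ≤
        ENNReal.ofReal (lam * (1 + M) * m) := by
    rw [lintegral_add_right _ measurable_const, setLIntegral_const]
    calc _ ≤ ENNReal.ofReal (lam * ‖v l‖) + ENNReal.ofReal (M * ‖v l‖) * ENNReal.ofReal lam := by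
          gcongr
          · exact h.lintegral_le hp hm.le hv hE' hl hln
          · exact h.volume_le hE' hl hln
      _ = _ := by
        rw [← ENNReal.ofReal_mul (by positivity), ← ENNReal.ofReal_add (by positivity)
          (by positivity), hv l hl]
        congr 1
        ring
  refine h1.trans ?_
  calc _ ≤ ENNReal.ofReal (η * ‖v l‖) + ENNReal.ofReal (lam * (1 + M) * m) := by gcongr
    _ = _ := by
      have := hs.η_nonneg
      rw [← ENNReal.ofReal_add (by positivity) (by positivity), hv l hl]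
      congr 1
      ring

/-- Closeness of the derivatives in `L^p` on the net of a very good cell. -/
theorem VeryGood.deriv_close_rpow (h : VeryGood g G p E E' o r ρ τ lam L a v b n)
    (hP : Pack g G E E' θ M η δ d) (hs : Scale θ M η δ d r m τ) (hM : 0 ≤ M) (hp : 1 ≤ p)
    (hE : MeasurableSet E) (hb : b n ∈ E)
    (hbn : b n ∈ closedBall (ctr o r n) (r / 2)) (hv : ∀ l ∈ L, ‖v l‖ = m)
    (hE' : Disjoint (closedBall (ctr o r n) (r / 2)) E') {l : κ} (hl : l ∈ L)
    (hln : InCell o r a v l n) :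
    ∫⁻ t in Ioc (0 : ℝ) 1, ‖G (a l + t • v l) (v l) - G (b n) (v l)‖ₑ ^ p ≤
      ENNReal.ofReal m ^ p * (ENNReal.ofReal η ^ p +
        2 ^ (p - 1) * ((1 + ENNReal.ofReal M ^ p) * ENNReal.ofReal lam)) := by
  have hm := hs.m_pos
  have hp0 : 0 ≤ p := by linarith
  have h1 := lintegral_rpow_dist_le hP hs.r_lt hp hE hb hbn hln
  refine h1.trans ?_
  rw [mul_add, hv l hl, ENNReal.ofReal_mul hs.η_nonneg, ENNReal.mul_rpow_of_nonneg _ _ hp0,
    mul_comm (ENNReal.ofReal η ^ p)]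
  refine add_le_add le_rfl ?_
  have h2 : ∫⁻ t in Ioc (0 : ℝ) 1 ∩ (fun t => a l + t • v l) ⁻¹' Eᶜ,
      (‖G (a l + t • v l) (v l)‖ₑ ^ p + ENNReal.ofReal (M * m) ^ p) ≤
      ENNReal.ofReal m ^ p * ((1 + ENNReal.ofReal M ^ p) * ENNReal.ofReal lam) := by
    calc _ ≤ ∫⁻ t in Ioc (0 : ℝ) 1 ∩ (fun t => a l + t • v l) ⁻¹' Eᶜ,
          (ENNReal.ofReal m ^ p * (1 + ENNReal.ofReal M ^ p)) *
            (1 + ‖G (a l + t • v l)‖ₑ ^ p) := by
          refine lintegral_mono fun t => ?_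
          have h3 : ‖G (a l + t • v l) (v l)‖ₑ ^ p ≤
              ENNReal.ofReal m ^ p * ‖G (a l + t • v l)‖ₑ ^ p := by
            rw [← ENNReal.mul_rpow_of_nonneg _ _ hp0]
            refine ENNReal.rpow_le_rpow ?_ hp0
            calc ‖G (a l + t • v l) (v l)‖ₑ ≤ ‖G (a l + t • v l)‖ₑ * ‖v l‖ₑ :=
                  ContinuousLinearMap.le_opENorm _ _
              _ = ENNReal.ofReal m * ‖G (a l + t • v l)‖ₑ := by
                  rw [← ofReal_norm (v l), hv l hl, mul_comm]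
          rw [ENNReal.ofReal_mul hM, ENNReal.mul_rpow_of_nonneg _ _ hp0]
          calc _ ≤ ENNReal.ofReal m ^ p * ‖G (a l + t • v l)‖ₑ ^ p +
                ENNReal.ofReal M ^ p * ENNReal.ofReal m ^ p := by gcongr
            _ = ENNReal.ofReal m ^ p * (‖G (a l + t • v l)‖ₑ ^ p + ENNReal.ofReal M ^ p) := by ring
            _ ≤ ENNReal.ofReal m ^ p * ((1 + ENNReal.ofReal M ^ p) *
                  (1 + ‖G (a l + t • v l)‖ₑ ^ p)) := by
                gcongr
                calc ‖G (a l + t • v l)‖ₑ ^ p + ENNReal.ofReal M ^ p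
                    ≤ (1 + ENNReal.ofReal M ^ p) + (1 + ENNReal.ofReal M ^ p) *
                        ‖G (a l + t • v l)‖ₑ ^ p := by
                      rw [add_comm]
                      gcongr
                      · exact le_add_self
                      · calc ‖G (a l + t • v l)‖ₑ ^ p = 1 * ‖G (a l + t • v l)‖ₑ ^ p := (one_mul _).symm
                          _ ≤ _ := by gcongr; exact le_self_add
                  _ = _ := by ring
            _ = _ := by ring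
      _ = (ENNReal.ofReal m ^ p * (1 + ENNReal.ofReal M ^ p)) *
          ∫⁻ t in Ioc (0 : ℝ) 1 ∩ (fun t => a l + t • v l) ⁻¹' Eᶜ,
            (1 + ‖G (a l + t • v l)‖ₑ ^ p) := lintegral_const_mul' _ _ (by finiteness)
      _ ≤ (ENNReal.ofReal m ^ p * (1 + ENNReal.ofReal M ^ p)) * ENNReal.ofReal lam := by
          gcongr; exact h.beta_cell hE' hl hln
      _ = _ := by ring
  calc _ ≤ 2 ^ (p - 1) * (ENNReal.ofReal m ^ p *
        ((1 + ENNReal.ofReal M ^ p) * ENNReal.ofReal lam)) := by gcongr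
    _ = _ := by ring

end Vale.Agent.P073.PK
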