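import Vale.Agent.P073.PK.Strands

/-!
# P073, packing: most of the cells are very good
-/

namespace Vale.Agent.P073.PK

open Set Filter Topology Metric MeasureTheory
open scoped ENNReal NNReal
open Vale.Agent.P073.HB

variable {k : ℕ} {Y : Type*} [NormedAddCommGroup Y] [NormedSpace ℝ Y]

section cells

/-- The open cells of a lattice are pairwise disjoint. -/
theorem ball_disjoint {o : Fin k → ℝ} {r : ℝ} (hr : 0 ≤ r) {n n' : Fin k → ℤ} (hn : n ≠ n') :
    Disjoint (ball (ctr o r n) (r / 2)) (ball (ctr o r n') (r / 2)) := by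
  rw [Set.disjoint_left]
  intro z hz hz'
  obtain ⟨ρ, hρ, h1, h2⟩ : ∃ ρ : ℝ, 0 < ρ ∧ dist z (ctr o r n) ≤ r / 2 - ρ ∧
      dist z (ctr o r n') ≤ r / 2 - ρ := by
    rw [mem_ball] at hz hz'
    refine ⟨min (r / 2 - dist z (ctr o r n)) (r / 2 - dist z (ctr o r n')), ?_, ?_, ?_⟩
    · exact lt_min (by linarith) (by linarith)
    · linarith [min_le_left (r / 2 - dist z (ctr o r n)) (r / 2 - dist z (ctr o r n'))]
    · linarith [min_le_right (r / 2 - dist z (ctr o r n)) (r / 2 - dist z (ctr o r n'))]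
  have := box_dist hr hn (ρ := ρ) (mem_closedBall.2 h1) (mem_closedBall.2 h2)
  rw [sub_self, norm_zero] at this
  linarith

theorem volume_closedBall_diff (c : Fin k → ℝ) {R : ℝ} (hR : R ≠ 0) (E : Set (Fin k → ℝ)) :
    volume (closedBall c R \ E) = volume (ball c R \ E) := by
  refine le_antisymm ?_ (measure_mono (sdiff_subset_sdiff_left ball_subset_closedBall))
  calc volume (closedBall c R \ E) ≤ volume ((ball c R \ E) ∪ sphere c R) := by
        refine measure_mono ?_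
        rintro z ⟨hz, hzE⟩
        rcases (mem_closedBall.1 hz).lt_or_eq with h | h
        · exact Or.inl ⟨h, hzE⟩
        · exact Or.inr h
    _ ≤ volume (ball c R \ E) + volume (sphere c R) := measure_union_le _ _
    _ = _ := by rw [Measure.addHaar_sphere_of_ne_zero _ _ hR, add_zero]

open Classical in
/-- **The number of cells in which `E` is not dense.** -/
theorem card_not_dense {E : Set (Fin k → ℝ)} (hE : MeasurableSet E) {o : Fin k → ℝ} {r τ : ℝ}
    (hτ : 0 < τ) (hτr : τ ≤ r) (I : Finset (Fin k → ℤ)) :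
    ((I.filter fun n => ¬ Dense E o r τ n).card : ℝ≥0∞) * ENNReal.ofReal (τ ^ k) ≤
      volume ((⋃ n ∈ I, ball (ctr o r n) (r / 2)) \ E) := by
  set J := I.filter fun n => ¬ Dense E o r τ n with hJ
  have hr : 0 < r := hτ.trans_le hτr
  have h1 : ∀ n ∈ J, ENNReal.ofReal (τ ^ k) ≤ volume (ball (ctr o r n) (r / 2) \ E) := by
    intro n hn
    have h2 := (Finset.mem_filter.1 hn).2
    rw [← volume_closedBall_diff _ (by positivity)]
    by_contra hlt
    push Not at hlt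
    refine h2 fun z hz => ?_
    have h3 : volume (closedBall (ctr o r n) (r / 2) \ E) < ENNReal.ofReal ((2 * (τ / 2)) ^ k) := by
      rwa [mul_div_cancel₀ τ (two_ne_zero' ℝ)]
    obtain ⟨x, hx, hx', hx''⟩ := exists_mem_near (half_pos hτ) (by linarith) h3 hz
    exact ⟨x, hx, hx', by rwa [mul_div_cancel₀ τ (two_ne_zero' ℝ)] at hx''⟩
  calc ((J.card : ℕ) : ℝ≥0∞) * ENNReal.ofReal (τ ^ k) = ∑ _n ∈ J, ENNReal.ofReal (τ ^ k) := by
        rw [Finset.sum_const, nsmul_eq_mul]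
    _ ≤ ∑ n ∈ J, volume (ball (ctr o r n) (r / 2) \ E) := Finset.sum_le_sum h1
    _ = volume (⋃ n ∈ J, (ball (ctr o r n) (r / 2) \ E)) := by
        rw [measure_biUnion_finset]
        · intro n _ n' _ hnn
          exact (ball_disjoint hr.le hnn).mono sdiff_subset sdiff_subset
        · intro n _
          exact measurableSet_ball.diff hE
    _ ≤ _ := by
        refine measure_mono ?_
        intro z hz
        simp only [mem_iUnion] at hz
        obtain ⟨n, hn, hz, hzE⟩ := hz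
        exact ⟨mem_biUnion (Finset.mem_filter.1 hn).1 hz, hzE⟩

end cells

section net

variable {g : (Fin k → ℝ) → Y} {G : (Fin k → ℝ) → ((Fin k → ℝ) →L[ℝ] Y)}
  {E E' : Set (Fin k → ℝ)} {θ M η δ d : ℝ} {o : Fin k → ℝ} {r m τ ρ lam : ℝ} {κ : Type*}

/-- The segment `l` is contained in the closed cell `n`. -/
def InCell (o : Fin k → ℝ) (r : ℝ) (a v : κ → (Fin k → ℝ)) (l : κ) (n : Fin k → ℤ) : Prop :=
  ∀ t ∈ Icc (0 : ℝ) 1, a l + t • v l ∈ closedBall (ctr o r n) (r / 2)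

/-- The part of the segment `l` outside the good set, with the density `1 + ‖G‖ ^ p`. -/
noncomputable def beta (G : (Fin k → ℝ) → ((Fin k → ℝ) →L[ℝ] Y)) (p : ℝ) (E : Set (Fin k → ℝ))
    (a v : κ → (Fin k → ℝ)) (l : κ) : ℝ≥0∞ :=
  ∫⁻ t in Icc (0 : ℝ) 1 ∩ (fun t => a l + t • v l) ⁻¹' Eᶜ, (1 + ‖G (a l + t • v l)‖ₑ ^ p)

/-- A net of segments adapted to the cells of `I`. -/
structure Net (g : (Fin k → ℝ) → Y) (G : (Fin k → ℝ) → ((Fin k → ℝ) →L[ℝ] Y)) (o : Fin k → ℝ)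
    (r m : ℝ) (I : Finset (Fin k → ℤ)) (L : Finset κ) (a v : κ → (Fin k → ℝ)) (K : ℕ) : Prop where
  good : ∀ l ∈ L, GoodSeg g G (a l) (v l)
  len : ∀ l ∈ L, ‖v l‖ = m
  aligned : ∀ l ∈ L, ∀ n ∈ I, InCell o r a v l n ∨
    ∀ t ∈ Icc (0 : ℝ) 1, a l + t • v l ∉ ball (ctr o r n) (r / 2)
  mult : ∀ l ∈ L, ∀ J ⊆ I, (∀ n ∈ J, InCell o r a v l n) → J.card ≤ K

/-- The very good cells: `E` is dense in the cell, the segments of the net in the cell are mostly
in `E`, and no other segment hits the image of the inner box. -/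
structure VeryGood (g : (Fin k → ℝ) → Y) (G : (Fin k → ℝ) → ((Fin k → ℝ) →L[ℝ] Y)) (p : ℝ)
    (E E' : Set (Fin k → ℝ)) (o : Fin k → ℝ) (r ρ τ lam : ℝ) (L : Finset κ)
    (a v : κ → (Fin k → ℝ)) (b : (Fin k → ℤ) → (Fin k → ℝ)) (n : Fin k → ℤ) : Prop where
  dense : Dense E o r τ n
  own : ∀ l ∈ L, InCell o r a v l n → beta G p (E ∪ E') a v l ≤ ENNReal.ofReal lam
  foreign : ∀ l ∈ L, ¬ InCell o r a v l n → ∀ t ∈ Icc (0 : ℝ) 1,
    g (a l + t • v l) ∉ img g G o r ρ b n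

theorem one_add_le_rpow {x : ℝ≥0∞} {p : ℝ} (hp : 1 ≤ p) : x ≤ 1 + x ^ p := by
  rcases le_total x 1 with h | h
  · exact h.trans le_self_add
  · calc x = x ^ (1 : ℝ) := (ENNReal.rpow_one x).symm
      _ ≤ x ^ p := ENNReal.rpow_le_rpow_of_exponent_le h hp
      _ ≤ _ := le_add_self

/-- The bound for a foreign segment, in terms of `beta`. -/
theorem lintegral_le_beta {p : ℝ} (hp : 1 ≤ p) (hm : 0 ≤ m) (hθ : 0 ≤ θ)
    {a v : κ → (Fin k → ℝ)} {l : κ} (hv : ‖v l‖ = m) (S : Set (Fin k → ℝ)) :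
    ∫⁻ t in Icc (0 : ℝ) 1 ∩ (fun t => a l + t • v l) ⁻¹' Sᶜ,
        (ENNReal.ofReal (θ * m / 16) + ‖G (a l + t • v l) (v l)‖ₑ) ≤
      ENNReal.ofReal (m * (1 + θ / 16)) * beta G p S a v l := by
  rw [beta, ← lintegral_const_mul' _ _ ENNReal.ofReal_ne_top]
  refine lintegral_mono fun t => ?_
  have h1 : ‖G (a l + t • v l) (v l)‖ₑ ≤ ‖G (a l + t • v l)‖ₑ * ENNReal.ofReal m := by
    rw [← hv, ofReal_norm]
    exact ContinuousLinearMap.le_opENorm _ _
  have h2 : ‖G (a l + t • v l)‖ₑ ≤ 1 + ‖G (a l + t • v l)‖ₑ ^ p := one_add_le_rpow hp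
  have h3 : ENNReal.ofReal (m * (1 + θ / 16)) =
      ENNReal.ofReal m + ENNReal.ofReal (θ * m / 16) := by
    rw [← ENNReal.ofReal_add hm (by positivity)]
    congr 1
    ring
  rw [h3, add_mul, add_comm (ENNReal.ofReal (θ * m / 16))]
  gcongr
  · calc _ ≤ _ := h1
      _ = ENNReal.ofReal m * ‖G (a l + t • v l)‖ₑ := mul_comm _ _
      _ ≤ _ := by gcongr
  · calc ENNReal.ofReal (θ * m / 16) = ENNReal.ofReal (θ * m / 16) * 1 := (mul_one _).symm
      _ ≤ _ := by gcongr; exact le_self_add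

open Classical in
/-- **Most cells are very good.** -/
theorem card_not_veryGood (h : Pack g G E E' θ M η δ d) (hs : Scale θ M η δ d r m τ)
    (hθ : 0 < θ) (hρ : m / 2 ≤ ρ) (hρ' : ρ ≤ m) (hE : MeasurableSet E) (hτ : 0 < τ)
    {p : ℝ} (hp : 1 ≤ p) (hlam : 0 < lam)
    {I : Finset (Fin k → ℤ)} {b : (Fin k → ℤ) → (Fin k → ℝ)} (hb : ∀ n ∈ I, b n ∈ E)
    (hb' : ∀ n ∈ I, b n ∈ closedBall (ctr o r n) (r / 2)) {L : Finset κ}
    {a v : κ → (Fin k → ℝ)} {K : ℕ} (hnet : Net g G o r m I L a v K) :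
    ((I.filter fun n => ¬ VeryGood g G p E E' o r ρ τ lam L a v b n).card : ℝ≥0∞) ≤
      volume ((⋃ n ∈ I, ball (ctr o r n) (r / 2)) \ E) / ENNReal.ofReal (τ ^ k) +
      (K / ENNReal.ofReal lam + ENNReal.ofReal (1 + 16 / θ)) * ∑ l ∈ L, beta G p (E ∪ E') a v l := by
  have hm := hs.m_pos
  have hr : 0 ≤ r := hs.r_nonneg
  have hτr : τ ≤ r := by have := hs.τ_le; have := hs.m_le; linarith
  -- the three kinds of bad cells
  set J₁ := I.filter fun n => ¬ Dense E o r τ n with hJ₁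
  set B := L.filter fun l => ENNReal.ofReal lam < beta G p (E ∪ E') a v l with hB
  set J₂ := B.biUnion fun l => I.filter fun n => InCell o r a v l n with hJ₂
  set D : κ → Finset (Fin k → ℤ) := fun l =>
    (I.filter fun n => Dense E o r τ n ∧ ¬ InCell o r a v l n) with hD
  set J₃ := L.biUnion fun l =>
    (D l).filter fun n => ∃ t ∈ Icc (0 : ℝ) 1, g (a l + t • v l) ∈ img g G o r ρ b n with hJ₃
  have hsub : (I.filter fun n => ¬ VeryGood g G p E E' o r ρ τ lam L a v b n) ⊆ J₁ ∪ (J₂ ∪ J₃) := by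
    intro n hn
    obtain ⟨hnI, hbad⟩ := Finset.mem_filter.1 hn
    rw [Finset.mem_union, Finset.mem_union]
    by_cases h1 : Dense E o r τ n
    swap
    · exact Or.inl (Finset.mem_filter.2 ⟨hnI, h1⟩)
    right
    by_cases h2 : ∀ l ∈ L, InCell o r a v l n → beta G p (E ∪ E') a v l ≤ ENNReal.ofReal lam
    swap
    · left
      push Not at h2
      obtain ⟨l, hl, hln, hlt⟩ := h2
      exact Finset.mem_biUnion.2 ⟨l, Finset.mem_filter.2 ⟨hl, hlt⟩, Finset.mem_filter.2 ⟨hnI, hln⟩⟩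
    right
    by_contra h3
    refine hbad ⟨h1, h2, fun l hl hln t ht hmem => h3 ?_⟩
    exact Finset.mem_biUnion.2 ⟨l, hl, Finset.mem_filter.2
      ⟨Finset.mem_filter.2 ⟨hnI, h1, hln⟩, t, ht, hmem⟩⟩
  have hc1 : (J₁.card : ℝ≥0∞) ≤
      volume ((⋃ n ∈ I, ball (ctr o r n) (r / 2)) \ E) / ENNReal.ofReal (τ ^ k) := by
    rw [ENNReal.le_div_iff_mul_le (Or.inl (by simpa using pow_pos hτ k)) (Or.inl ENNReal.ofReal_ne_top)]
    exact card_not_dense hE hτ hτr I
  have hBc : (B.card : ℝ≥0∞) ≤ (∑ l ∈ L, beta G p (E ∪ E') a v l) / ENNReal.ofReal lam := by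
    rw [ENNReal.le_div_iff_mul_le (Or.inl (by simpa using hlam)) (Or.inl ENNReal.ofReal_ne_top)]
    calc (B.card : ℝ≥0∞) * ENNReal.ofReal lam = ∑ _l ∈ B, ENNReal.ofReal lam := by
          rw [Finset.sum_const, nsmul_eq_mul]
      _ ≤ ∑ l ∈ B, beta G p (E ∪ E') a v l :=
          Finset.sum_le_sum fun l hl => (Finset.mem_filter.1 hl).2.le
      _ ≤ _ := Finset.sum_le_sum_of_subset (Finset.filter_subset _ _)
  have hc2 : (J₂.card : ℝ≥0∞) ≤ K / ENNReal.ofReal lam * ∑ l ∈ L, beta G p (E ∪ E') a v l := by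
    have h1 : J₂.card ≤ B.card * K := by
      refine Finset.card_biUnion_le_card_mul _ _ _ fun l hl => ?_
      exact hnet.mult l (Finset.mem_filter.1 hl).1 _ (Finset.filter_subset _ _)
        fun n hn => (Finset.mem_filter.1 hn).2
    calc (J₂.card : ℝ≥0∞) ≤ (B.card : ℝ≥0∞) * K := by exact_mod_cast h1
      _ ≤ (∑ l ∈ L, beta G p (E ∪ E') a v l) / ENNReal.ofReal lam * K := by gcongr
      _ = _ := by simp only [div_eq_mul_inv]; ring
  have hc3 : (J₃.card : ℝ≥0∞) ≤ ENNReal.ofReal (1 + 16 / θ) * ∑ l ∈ L, beta G p (E ∪ E') a v l := by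
    have h1 : ∀ l ∈ L, (((D l).filter fun n => ∃ t ∈ Icc (0 : ℝ) 1,
        g (a l + t • v l) ∈ img g G o r ρ b n).card : ℝ≥0∞) ≤
          ENNReal.ofReal (1 + 16 / θ) * beta G p (E ∪ E') a v l := by
      intro l hl
      have hcells : Cells E o r τ (D l) b :=
        ⟨fun n hn => (Finset.mem_filter.1 hn).2.1, fun n hn => hb n (Finset.mem_filter.1 hn).1,
          fun n hn => hb' n (Finset.mem_filter.1 hn).1⟩
      have hγ : ∀ t ∈ Icc (0 : ℝ) 1, ∀ n ∈ D l, a l + t • v l ∉ ball (ctr o r n) (r / 2) := by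
        intro t ht n hn
        obtain ⟨hnI, -, hnot⟩ := Finset.mem_filter.1 hn
        exact (hnet.aligned l hl n hnI).resolve_left hnot t ht
      have h2 := hits_segment h hs hθ hρ hρ' hcells (hnet.good l hl) hγ
      have h3 := h2.trans (lintegral_le_beta (G := G) (θ := θ) hp hm.le hθ.le (a := a) (v := v)
        (hnet.len l hl) (E ∪ E'))
      have hpos : 0 < θ * m / 16 := by positivity
      rw [← ENNReal.le_div_iff_mul_le (Or.inl (by simpa using hpos)) (Or.inl ENNReal.ofReal_ne_top)] at h3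
      refine h3.trans_eq ?_
      rw [ENNReal.mul_div_right_comm, ← ENNReal.ofReal_div_of_pos hpos]
      congr 2
      field_simp
      ring
    calc (J₃.card : ℝ≥0∞) ≤ ∑ l ∈ L, (((D l).filter fun n => ∃ t ∈ Icc (0 : ℝ) 1,
        g (a l + t • v l) ∈ img g G o r ρ b n).card : ℝ≥0∞) := by
          exact_mod_cast Finset.card_biUnion_le
      _ ≤ ∑ l ∈ L, ENNReal.ofReal (1 + 16 / θ) * beta G p (E ∪ E') a v l := Finset.sum_le_sum h1
      _ = _ := by rw [Finset.mul_sum]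
  calc ((I.filter fun n => ¬ VeryGood g G p E E' o r ρ τ lam L a v b n).card : ℝ≥0∞)
      ≤ ((J₁ ∪ (J₂ ∪ J₃)).card : ℝ≥0∞) := by exact_mod_cast Finset.card_le_card hsub
    _ ≤ (J₁.card : ℝ≥0∞) + (J₂.card + J₃.card) := by
        have h1 := Finset.card_union_le J₁ (J₂ ∪ J₃)
        have h2 := Finset.card_union_le J₂ J₃
        exact_mod_cast h1.trans (by omega)
    _ ≤ _ := by
        rw [add_mul]
        gcongr

end net

end Vale.Agent.P073.PK
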