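import Vale.Agent.P073.PK.Thick
import Vale.Agent.P073.PK.Choice3

/-!
# P073, packing: the selected cells with thick image boxes, existence
-/

set_option linter.unusedSectionVars false

namespace Vale.Agent.P073.PK

open Set Filter Topology Metric MeasureTheory
open scoped ENNReal NNReal
open Vale.Agent.P073.HB

variable {k : ℕ} {Y : Type*} [NormedAddCommGroup Y] [NormedSpace ℝ Y]

/-- The cells which are finally chosen, with thick image boxes. -/
structure SelT (g : (Fin k → ℝ) → Y) (G : (Fin k → ℝ) → ((Fin k → ℝ) →L[ℝ] Y)) (p θ : ℝ)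
    (E E' : Set (Fin k → ℝ)) (K₀ : Set Y) (o : Fin k → ℝ) (r ρ τ lam : ℝ)
    (L : Finset ((Fin k → ℤ) × Fin k)) (m : ℝ)
    (b : (Fin k → ℤ) → (Fin k → ℝ)) (n : Fin k → ℤ) : Prop where
  vg : VeryGood g G p E E' o r ρ τ lam L (ga o m) (gv m) b n
  forT : ForT g G θ m o r ρ L (ga o m) (gv m) b n
  avoidT : Disjoint (cthickening (θ * m / 32) (img g G o r ρ b n)) K₀

theorem SelT.sel {g : (Fin k → ℝ) → Y} {G : (Fin k → ℝ) → ((Fin k → ℝ) →L[ℝ] Y)} {p θ : ℝ}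
    {E E' : Set (Fin k → ℝ)} {K₀ : Set Y} {o : Fin k → ℝ} {r ρ τ lam : ℝ}
    {L : Finset ((Fin k → ℤ) × Fin k)} {m : ℝ}
    {b : (Fin k → ℤ) → (Fin k → ℝ)} {n : Fin k → ℤ}
    (h : SelT g G p θ E E' K₀ o r ρ τ lam L m b n) : Sel g G p E E' K₀ o r ρ τ lam L m b n :=
  ⟨h.vg, h.avoidT.mono_left (self_subset_cthickening _)⟩

/-- The constant of the count of the cells which are not selected. -/
noncomputable def cntC (k : ℕ) (θ t₀ lam : ℝ) (N : ℕ) : ℝ≥0∞ :=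
  ENNReal.ofReal (N / t₀) ^ k + (2 ^ k / ENNReal.ofReal lam + ENNReal.ofReal (1 + 16 / θ) +
    ENNReal.ofReal (1 + 32 / θ)) * N ^ k

theorem cntC_ne_top {k : ℕ} {θ t₀ lam : ℝ} (hlam : 0 < lam) (N : ℕ) : cntC k θ t₀ lam N ≠ ⊤ := by
  unfold cntC
  have h1 : (2 ^ k / ENNReal.ofReal lam : ℝ≥0∞) ≠ ⊤ :=
    ENNReal.div_ne_top (by finiteness) (ENNReal.ofReal_pos.2 hlam).ne'
  refine ENNReal.add_ne_top.2 ⟨by finiteness, ENNReal.mul_ne_top
    (ENNReal.add_ne_top.2 ⟨ENNReal.add_ne_top.2 ⟨h1, ENNReal.ofReal_ne_top⟩,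
      ENNReal.ofReal_ne_top⟩) ?_⟩
  exact ENNReal.pow_ne_top (ENNReal.natCast_ne_top _)

variable {g : (Fin k → ℝ) → Y} {G : (Fin k → ℝ) → ((Fin k → ℝ) →L[ℝ] Y)}
  {E E' U : Set (Fin k → ℝ)} {θ M η t₀ lam : ℝ}

open Classical in
/-- **The number of cells which are not selected** (thick version, any bound `B` for the sum over
the edges). -/
theorem card_not_selT_le {δ d e m ρ p : ℝ} {D : Set Y} {N : ℕ} (h : Fine g G E E' U D θ M η t₀ N δ d e m)
    (hN : 0 < N) (hθ : 0 < θ) (hρ : m / 2 ≤ ρ) (hρ' : ρ ≤ m)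
    (hE : IsCompact E) (hE' : IsCompact E') (ht₀ : 0 < t₀) (hp : 1 ≤ p) (hlam : 0 < lam)
    (hU : MeasurableSet U) {o : Fin k → ℝ}
    {L : Finset ((Fin k → ℤ) × Fin k)} (hL : ∀ l ∈ L, l ∈ edgesIn U o m)
    (hgood : ∀ l ∈ L, GoodSeg g G (ga o m l) (gv m l)) {B : ℝ≥0∞}
    (hB : ∫⁻ x, dens G p U (E ∪ E') x ≤ B)
    (ho : edgeSum (dens G p U (E ∪ E')) o m * ENNReal.ofReal m ^ k ≤ B)
    {I : Finset (Fin k → ℤ)} (hI : ∀ n ∈ I, n ∈ cellsOf E o (N * m))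
    {b : (Fin k → ℤ) → (Fin k → ℝ)} (hb : ∀ n ∈ I, b n ∈ E)
    (hb' : ∀ n ∈ I, b n ∈ closedBall (ctr o (N * m) n) (N * m / 2)) {K₀ : Set Y} {ε : ℝ≥0∞}
    (hK₀ : ∀ I' : Finset (Fin k → ℤ), Cells E o (N * m) (t₀ * m) I' b →
      ((I'.filter fun n => ¬ Disjoint (cthickening (θ * m / 32)
        (img g G o (N * m) ρ b n)) K₀).card : ℝ≥0∞) * ENNReal.ofReal m ^ k ≤ ε) :
    ((I.filter fun n => ¬ SelT g G p θ E E' K₀ o (N * m) ρ (t₀ * m) lam L m b n).card :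
      ℝ≥0∞) * ENNReal.ofReal (N * m) ^ k ≤ cntC k θ t₀ lam N * B + N ^ k * ε := by
  have hm := h.scale.m_pos
  have hNm : 0 < (N : ℝ) * m := by positivity
  have hτ : 0 < t₀ * m := by positivity
  have hEm := hE.measurableSet
  have hE'm := hE'.measurableSet
  have hnet := grid_net (g := g) (G := G) (o := o) hm hN I L hgood
  have h1 := card_not_veryGood (o := o) h.pack h.scale hθ hρ hρ' hEm hτ hp hlam hb hb' hnet
  set VG := fun n => VeryGood g G p E E' o (N * m) ρ (t₀ * m) lam L (ga o m) (gv m) b n with hVG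
  set I' := I.filter VG with hI'
  have hcells : Cells E o (N * m) (t₀ * m) I' b :=
    ⟨fun n hn => (Finset.mem_filter.1 hn).2.dense, fun n hn => hb n (Finset.mem_filter.1 hn).1,
      fun n hn => hb' n (Finset.mem_filter.1 hn).1⟩
  have h2 := hK₀ I' hcells
  have h3 := card_not_forT h.pack h.scale hθ hρ hρ' hp hcells
    (grid_net (g := g) (G := G) (o := o) hm hN I' L hgood)
  have hsub : (I.filter fun n => ¬ SelT g G p θ E E' K₀ o (N * m) ρ (t₀ * m) lam L m b n) ⊆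
      (I.filter fun n => ¬ VG n) ∪
        ((I'.filter fun n => ¬ ForT g G θ m o (N * m) ρ L (ga o m) (gv m) b n) ∪
        (I'.filter fun n => ¬ Disjoint (cthickening (θ * m / 32)
          (img g G o (N * m) ρ b n)) K₀)) := by
    intro n hn
    obtain ⟨hnI, hns⟩ := Finset.mem_filter.1 hn
    rw [Finset.mem_union, Finset.mem_union]
    by_cases hv : VG n
    · right
      have hnI' : n ∈ I' := Finset.mem_filter.2 ⟨hnI, hv⟩
      by_cases hf : ForT g G θ m o (N * m) ρ L (ga o m) (gv m) b n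
      · right
        exact Finset.mem_filter.2 ⟨hnI', fun hd => hns ⟨hv, hf, hd⟩⟩
      · left
        exact Finset.mem_filter.2 ⟨hnI', hf⟩
    · left
      exact Finset.mem_filter.2 ⟨hnI, hv⟩
  have hV : volume ((⋃ n ∈ I, ball (ctr o (N * m) n) (N * m / 2)) \ E) ≤ B := by
    refine le_trans ?_ hB
    rw [lintegral_dens hU (hEm.union hE'm)]
    have hsub : (⋃ n ∈ I, ball (ctr o (N * m) n) (N * m / 2)) \ E ⊆ U \ (E ∪ E') := by
      rintro x ⟨hx, hxE⟩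
      simp only [mem_iUnion] at hx
      obtain ⟨n, hn, hx⟩ := hx
      have h2 := h.thick (cell_subset_cthickening (hI n hn) (ball_subset_closedBall hx))
      exact ⟨h2.1, fun h3 => h3.elim hxE h2.2⟩
    calc _ ≤ volume (U \ (E ∪ E')) := measure_mono hsub
      _ = ∫⁻ x in U \ (E ∪ E'), 1 := by rw [setLIntegral_const, one_mul]
      _ ≤ _ := lintegral_mono fun x => le_self_add
  have hβ := sum_beta_le (G := G) (p := p) (o := o) (m := m) (hEm.union hE'm) L hL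
  have hτk : ENNReal.ofReal ((t₀ * m) ^ k) ≠ 0 := by
    rw [Ne, ENNReal.ofReal_eq_zero, not_le]
    positivity
  have e1 : ENNReal.ofReal (N * m) ^ k =
      ENNReal.ofReal (N / t₀) ^ k * ENNReal.ofReal ((t₀ * m) ^ k) := by
    rw [ENNReal.ofReal_pow hτ.le, ← mul_pow, ← ENNReal.ofReal_mul (by positivity)]
    congr 2
    field_simp
  have e2 : ENNReal.ofReal (N * m) ^ k = (N : ℝ≥0∞) ^ k * ENNReal.ofReal m ^ k := by
    rw [ENNReal.ofReal_mul (by positivity), ENNReal.ofReal_natCast, mul_pow]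
  have hK : ((2 ^ k : ℕ) : ℝ≥0∞) = 2 ^ k := by push_cast; rfl
  rw [hK] at h1
  set sB := ∑ l ∈ L, beta G p (E ∪ E') (ga o m) (gv m) l with hsB
  have hsBB : sB * ENNReal.ofReal m ^ k ≤ B := (mul_le_mul' hβ le_rfl).trans ho
  have hc1 : ((I.filter fun n => ¬ VG n).card : ℝ≥0∞) * ENNReal.ofReal (N * m) ^ k ≤
      ENNReal.ofReal (N / t₀) ^ k * B +
        (2 ^ k / ENNReal.ofReal lam + ENNReal.ofReal (1 + 16 / θ)) * N ^ k * B := by
    calc _ ≤ (B / ENNReal.ofReal ((t₀ * m) ^ k) +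
        (2 ^ k / ENNReal.ofReal lam + ENNReal.ofReal (1 + 16 / θ)) * sB) *
          ENNReal.ofReal (N * m) ^ k := by
          refine mul_le_mul' (h1.trans ?_) le_rfl
          gcongr
      _ = B / ENNReal.ofReal ((t₀ * m) ^ k) * ENNReal.ofReal (N * m) ^ k +
          (2 ^ k / ENNReal.ofReal lam + ENNReal.ofReal (1 + 16 / θ)) *
          sB * ENNReal.ofReal (N * m) ^ k := add_mul _ _ _
      _ = ENNReal.ofReal (N / t₀) ^ k * B +
          (2 ^ k / ENNReal.ofReal lam + ENNReal.ofReal (1 + 16 / θ)) * N ^ k *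
          (sB * ENNReal.ofReal m ^ k) := by
          congr 1
          · rw [e1, mul_comm (ENNReal.ofReal (N / t₀) ^ k), ← mul_assoc,
              ENNReal.div_mul_cancel hτk ENNReal.ofReal_ne_top, mul_comm]
          · rw [e2]
            ring
      _ ≤ _ := by gcongr
  have hc2 : ((I'.filter fun n => ¬ ForT g G θ m o (N * m) ρ L (ga o m) (gv m) b n).card : ℝ≥0∞) *
      ENNReal.ofReal (N * m) ^ k ≤ ENNReal.ofReal (1 + 32 / θ) * N ^ k * B := by
    calc _ ≤ (ENNReal.ofReal (1 + 32 / θ) * sB) * ENNReal.ofReal (N * m) ^ k :=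
          mul_le_mul' h3 le_rfl
      _ = ENNReal.ofReal (1 + 32 / θ) * N ^ k * (sB * ENNReal.ofReal m ^ k) := by
          rw [e2]; ring
      _ ≤ _ := by gcongr
  have hc3 : ((I'.filter fun n => ¬ Disjoint (cthickening (θ * m / 32)
      (img g G o (N * m) ρ b n)) K₀).card : ℝ≥0∞) * ENNReal.ofReal (N * m) ^ k ≤ N ^ k * ε := by
    calc _ = N ^ k * (((I'.filter fun n => ¬ Disjoint (cthickening (θ * m / 32)
          (img g G o (N * m) ρ b n)) K₀).card : ℝ≥0∞) * ENNReal.ofReal m ^ k) := by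
          rw [e2]; ring
      _ ≤ _ := by gcongr
  calc _ ≤ (((I.filter fun n => ¬ VG n).card : ℝ≥0∞) +
        ((I'.filter fun n => ¬ ForT g G θ m o (N * m) ρ L (ga o m) (gv m) b n).card +
        (I'.filter fun n => ¬ Disjoint (cthickening (θ * m / 32)
          (img g G o (N * m) ρ b n)) K₀).card)) * ENNReal.ofReal (N * m) ^ k := by
        refine mul_le_mul' ?_ le_rfl
        have ha := Finset.card_le_card hsub
        have hb := Finset.card_union_le (I.filter fun n => ¬ VG n)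
          ((I'.filter fun n => ¬ ForT g G θ m o (N * m) ρ L (ga o m) (gv m) b n) ∪
          (I'.filter fun n => ¬ Disjoint (cthickening (θ * m / 32)
            (img g G o (N * m) ρ b n)) K₀))
        have hc := Finset.card_union_le
          (I'.filter fun n => ¬ ForT g G θ m o (N * m) ρ L (ga o m) (gv m) b n)
          (I'.filter fun n => ¬ Disjoint (cthickening (θ * m / 32)
            (img g G o (N * m) ρ b n)) K₀)
        exact_mod_cast ha.trans (by omega)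
    _ ≤ (ENNReal.ofReal (N / t₀) ^ k * B +
        (2 ^ k / ENNReal.ofReal lam + ENNReal.ofReal (1 + 16 / θ)) * N ^ k * B) +
        (ENNReal.ofReal (1 + 32 / θ) * N ^ k * B + N ^ k * ε) := by
        rw [add_mul, add_mul]
        exact add_le_add hc1 (add_le_add hc2 hc3)
    _ = _ := by
        rw [cntC]
        ring

/-- A fine grid with selected cells with thick image boxes. -/
structure GrdT (g : (Fin k → ℝ) → Y) (G : (Fin k → ℝ) → ((Fin k → ℝ) →L[ℝ] Y))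
    (E E' U : Set (Fin k → ℝ)) (D K₀ : Set Y) (p θ M κ η t₀ lam δ d e m : ℝ) (N : ℕ)
    (o : Fin k → ℝ) (L : Finset ((Fin k → ℤ) × Fin k)) (I J : Finset (Fin k → ℤ))
    (b : (Fin k → ℤ) → (Fin k → ℝ)) : Prop extends
    Grd g G E E' U D K₀ p θ M κ η t₀ lam δ d e m N o L I J b where
  selT : ∀ n ∈ J, SelT g G p θ E E' K₀ o (N * m) m (t₀ * m) lam L m b n

theorem GrdT.foreignT {D K₀ : Set Y} {p κ δ d e m : ℝ} {N : ℕ}
    {o : Fin k → ℝ} {L : Finset ((Fin k → ℤ) × Fin k)} {I J : Finset (Fin k → ℤ)}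
    {b : (Fin k → ℤ) → (Fin k → ℝ)}
    (h : GrdT g G E E' U D K₀ p θ M κ η t₀ lam δ d e m N o L I J b) {n : Fin k → ℤ} (hn : n ∈ J)
    {l : (Fin k → ℤ) × Fin k} (hl : l ∈ L)
    (hln : ¬ InCell o (N * m) (ga o m) (gv m) l n) {t : ℝ} (ht : t ∈ Icc (0 : ℝ) 1) :
    g (ga o m l + t • gv m l) ∉ cthickening (θ * m / 32) (img g G o (N * m) m b n) :=
  (h.selT n hn).forT l hl hln t ht

theorem GrdT.avoidT {D K₀ : Set Y} {p κ δ d e m : ℝ} {N : ℕ}
    {o : Fin k → ℝ} {L : Finset ((Fin k → ℤ) × Fin k)} {I J : Finset (Fin k → ℤ)}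
    {b : (Fin k → ℤ) → (Fin k → ℝ)}
    (h : GrdT g G E E' U D K₀ p θ M κ η t₀ lam δ d e m N o L I J b) {n : Fin k → ℤ} (hn : n ∈ J) :
    Disjoint (cthickening (θ * m / 32) (img g G o (N * m) m b n)) K₀ :=
  (h.selT n hn).avoidT

/-- The constants of the cells. -/
structure Consts (p θ M κ η t₀ lam : ℝ) (N : ℕ) : Prop where
  p1 : 1 ≤ p
  θ0 : 0 < θ
  M0 : 0 < M
  lam0 : 0 < lam
  lam1 : lam < 1
  t₀0 : 0 < t₀
  N0 : 0 < N
  η0 : 0 < η
  const : η * N + η + lam * (1 + M) ≤ κ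
  const' : ENNReal.ofReal η ^ p + 2 ^ (p - 1) * ((1 + ENNReal.ofReal M ^ p) * ENNReal.ofReal lam) ≤
    ENNReal.ofReal κ
  scale : ∀ δ d : ℝ, 0 < δ → 0 < d → ∃ m₀ : ℝ, 0 < m₀ ∧ ∀ m : ℝ, 0 < m → m ≤ m₀ →
        Scale θ M η δ d (N * m) m (t₀ * m)

theorem exists_consts {p θ M κ : ℝ} (hp : 1 ≤ p) (hθ : 0 < θ) (hM : 0 < M) (hκ : 0 < κ) {N : ℕ}
    (hN : 2 ≤ N) : ∃ η t₀ lam : ℝ, η ≤ κ ∧ Consts p θ M κ η t₀ lam N := by
  have hp0 : 0 ≤ p := by linarith
  have hN2 : (2 : ℝ) ≤ N := by exact_mod_cast hN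
  have h2p : (2 : ℝ≥0∞) ^ (p - 1) ≠ ⊤ := ENNReal.rpow_ne_top_of_nonneg (by linarith) (by norm_num)
  have hMp : ENNReal.ofReal M ^ p ≠ ⊤ := ENNReal.rpow_ne_top_of_nonneg hp0 ENNReal.ofReal_ne_top
  have h1Mp : 1 + ENNReal.ofReal M ^ p ≠ ⊤ := ENNReal.add_ne_top.2 ⟨ENNReal.one_ne_top, hMp⟩
  obtain ⟨η', hη', hη'κ, hη'1, -⟩ := exists_eta hp hκ (2 ^ (p - 1) * (1 + ENNReal.ofReal M ^ p))
    0 (ENNReal.mul_ne_top h2p h1Mp) (by simp) (ε := 1) one_ne_zero
  obtain ⟨η, t₀, lam, hη, ht₀, -, hlam, hlam1, hc1, hc2, hscale⟩ :=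
    exists_scale hθ hM hN2 hη'
  have hηη' : η ≤ η' := by nlinarith
  refine ⟨η, t₀, lam, hηη'.trans hη'κ, hp, hθ, hM, hlam, hlam1, ht₀, by omega, hη,
    hc1.trans hη'κ, ?_, hscale⟩
  refine le_trans ?_ hη'1
  rw [mul_assoc]
  have h1 : ENNReal.ofReal η ^ p ≤ ENNReal.ofReal η' ^ p :=
    ENNReal.rpow_le_rpow (ENNReal.ofReal_le_ofReal hηη') hp0
  have h2 : ENNReal.ofReal lam ≤ ENNReal.ofReal η' := ENNReal.ofReal_le_ofReal hc2
  gcongr

open Classical in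
/-- **The good cells of a fine grid with thick image boxes.** `U` is the domain of `g`; for every
closed set `D` disjoint from the image of `E` and every negligible set `K₀` the good cells exist
for all small meshes. -/
theorem exists_grdT {p κ : ℝ} {N : ℕ} (hc : Consts p θ M κ η t₀ lam N)
    (hU : IsOpen U) (hUb : Bornology.IsBounded U) (hg : ContinuousOn g U) (hi : InjOn g U)
    (hE : IsCompact E) (hE' : IsCompact E') (hEU : E ⊆ U) (hEU' : E' ⊆ U) (hdis : Disjoint E E')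
    (hud : UDiff g G E) (hG : ContinuousOn G E)
    (hθ : ∀ x ∈ E, ∀ v, θ * ‖v‖ ≤ ‖G x v‖) (hM : ∀ x ∈ E, ‖G x‖ ≤ M)
    {D : Set Y} (hD : IsClosed D) (hDE : Disjoint (g '' E) D) {K₀ : Set Y} (hK₀ : NeglT k K₀)
    {ε : ℝ≥0∞} (hε : ε ≠ 0) :
    ∃ δ d e m₀ : ℝ, 0 < δ ∧ 0 < d ∧ 0 < e ∧ 0 < m₀ ∧ ∀ m : ℝ, 0 < m → m ≤ m₀ →
      ∀ (o : Fin k → ℝ) (B : ℝ≥0∞),
        (∀ l ∈ edgesIn U o m, GoodSeg g G (ga o m l) (gv m l)) →
        ∫⁻ x, dens G p U (E ∪ E') x ≤ B →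
        edgeSum (dens G p U (E ∪ E')) o m * ENNReal.ofReal m ^ k ≤ B →
        ∃ (L : Finset ((Fin k → ℤ) × Fin k)) (I J : Finset (Fin k → ℤ))
          (b : (Fin k → ℤ) → (Fin k → ℝ)), (∀ l, l ∈ L ↔ l ∈ edgesIn U o m) ∧
          GrdT g G E E' U D K₀ p θ M κ η t₀ lam δ d e m N o L I J b ∧
          ((I \ J).card : ℝ≥0∞) * ENNReal.ofReal (N * m) ^ k ≤ cntC k θ t₀ lam N * B + ε := by
  have hN' : ((N : ℝ≥0∞) ^ k) ≠ ⊤ := ENNReal.pow_ne_top (ENNReal.natCast_ne_top _)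
  have hN0 : ((N : ℝ≥0∞) ^ k) ≠ 0 := pow_ne_zero _ (by exact_mod_cast hc.N0.ne')
  have hεN : ε / (N : ℝ≥0∞) ^ k ≠ 0 := by
    rw [Ne, ENNReal.div_eq_zero_iff]
    exact not_or.2 ⟨hε, hN'⟩
  obtain ⟨δ, d, e, m₁, hδ, hd, he, hm₁, h1⟩ := exists_fine hU hg hi hE hE' hEU hEU'
    hdis hud hG hθ hc.M0 hM hc.N0 hc.η0 hc.scale hD hDE
  obtain ⟨m₂, hm₂, h3⟩ := hK₀ θ hc.θ0 (ε / (N : ℝ≥0∞) ^ k) hεN
  refine ⟨δ, d, e, min m₁ m₂, hδ, hd, he, lt_min hm₁ hm₂, ?_⟩
  intro m hm hmm o B hgood hB ho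
  have hF := h1 m hm (hmm.trans (min_le_left _ _))
  have hNm : 0 < (N : ℝ) * m := by
    have : (0 : ℝ) < N := by exact_mod_cast hc.N0
    positivity
  have hLf := finite_edgesIn hUb o hm
  have hIf := finite_cellsOf hE.isBounded o hNm
  have hex : ∀ z, ∃ x : Fin k → ℝ, z ∈ cellsOf E o (N * m) → x ∈ E ∧
      x ∈ closedBall (ctr o (N * m) z) (N * m / 2) := by
    intro z
    by_cases hz : z ∈ cellsOf E o (N * m)
    · obtain ⟨x, hx, hx'⟩ := hz
      exact ⟨x, fun _ => ⟨hx, hx'⟩⟩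
    · exact ⟨0, fun h => absurd h hz⟩
  choose b hb' using hex
  set L := hLf.toFinset with hL
  set I := hIf.toFinset with hI
  have hmemL : ∀ l, l ∈ L ↔ l ∈ edgesIn U o m := fun l => hLf.mem_toFinset
  have hmemI : ∀ n, n ∈ I ↔ n ∈ cellsOf E o (N * m) := fun n => hIf.mem_toFinset
  set J := I.filter fun n => SelT g G p θ E E' K₀ o (N * m) m (t₀ * m) lam L m b n with hJ
  have hgood' : ∀ l ∈ L, GoodSeg g G (ga o m l) (gv m l) := fun l hl => hgood l ((hmemL l).1 hl)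
  have hbE : ∀ n ∈ I, b n ∈ E := fun n hn => (hb' n ((hmemI n).1 hn)).1
  have hbn : ∀ n ∈ I, b n ∈ closedBall (ctr o (N * m) n) (N * m / 2) :=
    fun n hn => (hb' n ((hmemI n).1 hn)).2
  refine ⟨L, I, J, b, hmemL, ?_, ?_⟩
  · exact
      { p1 := hc.p1, θ0 := hc.θ0, M0 := hc.M0, lam0 := hc.lam0, lam1 := hc.lam1, t₀0 := hc.t₀0
        N0 := hc.N0, const := hc.const, const' := hc.const', fine := hF, Em := hE.measurableSet
        LU := fun l hl => (hmemL l).1 hl, good := hgood', IE := hmemI, bE := hbE, bn := hbn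
        JI := Finset.filter_subset _ _
        sel := fun n hn => (Finset.mem_filter.1 hn).2.sel
        selT := fun n hn => (Finset.mem_filter.1 hn).2 }
  · have h4 := card_not_selT_le (K₀ := K₀) (ρ := m) hF hc.N0 hc.θ0 (by linarith) le_rfl hE hE'
      hc.t₀0 hc.p1 hc.lam0 hU.measurableSet (fun l hl => (hmemL l).1 hl) hgood' hB ho
      (fun n hn => (hmemI n).1 hn) hbE hbn
      (fun I' hI' => h3 m hm (hmm.trans (min_le_right _ _)) g G E E' M η δ d o (N * m) (t₀ * m) m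
        hF.pack hF.scale (by linarith) le_rfl I' b hI')
    rw [ENNReal.mul_div_cancel hN0 hN'] at h4
    refine le_trans (mul_le_mul' ?_ le_rfl) h4
    have h5 : I \ J ⊆ I.filter fun n =>
        ¬ SelT g G p θ E E' K₀ o (N * m) m (t₀ * m) lam L m b n := by
      intro n hn
      rw [Finset.mem_sdiff] at hn
      exact Finset.mem_filter.2 ⟨hn.1, fun hs => hn.2 (Finset.mem_filter.2 ⟨hn.1, hs⟩)⟩
    exact_mod_cast Finset.card_le_card h5

end Vale.Agent.P073.PK
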