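import Vale.Agent.P073.PK.Count
import Vale.Agent.P073.HB.Grid
import Mathlib.Data.Pi.Interval

/-!
# P073, packing: the fine grid, generic origins, and the number of very good cells
-/

namespace Vale.Agent.P073.PK

open Set Filter Topology Metric MeasureTheory
open scoped ENNReal NNReal
open Vale.Agent.P073.HB

variable {k : ℕ}

/-! ### Cells and edges of the fine grid -/

/-- The origin of the edge `l` of the fine grid. -/
def ga (o : Fin k → ℝ) (m : ℝ) (l : (Fin k → ℤ) × Fin k) : Fin k → ℝ := vx o m l.1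

/-- The vector of the edge `l` of the fine grid. -/
def gv (m : ℝ) (l : (Fin k → ℤ) × Fin k) : Fin k → ℝ := ev m l.2

theorem ga_add (o : Fin k → ℝ) (m : ℝ) (l : (Fin k → ℤ) × Fin k) (t : ℝ) (i : Fin k) :
    (ga o m l + t • gv m l) i = o i + m * (l.1 i + if i = l.2 then t else 0) := by
  simp only [ga, gv, vx, ev, Pi.add_apply, Pi.smul_apply, smul_eq_mul, Pi.single_apply]
  split_ifs <;> ring

theorem norm_gv {m : ℝ} (hm : 0 ≤ m) (l : (Fin k → ℤ) × Fin k) : ‖gv m l‖ = m := by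
  rw [gv, ev, Pi.norm_single, Real.norm_eq_abs, abs_of_nonneg hm]

theorem mem_cell {o : Fin k → ℝ} {r : ℝ} (hr : 0 ≤ r) {n : Fin k → ℤ} {x : Fin k → ℝ} :
    x ∈ closedBall (ctr o r n) (r / 2) ↔ ∀ i, o i + r * n i ≤ x i ∧ x i ≤ o i + r * (n i + 1) := by
  rw [mem_closedBall, dist_pi_le_iff (by linarith)]
  refine forall_congr' fun i => ?_
  rw [Real.dist_eq, abs_le]
  simp only [ctr]
  constructor
  · rintro ⟨h1, h2⟩
    constructor <;> linarith
  · rintro ⟨h1, h2⟩
    constructor <;> linarith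

theorem mem_ocell {o : Fin k → ℝ} {r : ℝ} (hr : 0 < r) {n : Fin k → ℤ} {x : Fin k → ℝ} :
    x ∈ ball (ctr o r n) (r / 2) ↔ ∀ i, o i + r * n i < x i ∧ x i < o i + r * (n i + 1) := by
  rw [mem_ball, dist_pi_lt_iff (by linarith)]
  refine forall_congr' fun i => ?_
  rw [Real.dist_eq, abs_lt]
  simp only [ctr]
  constructor
  · rintro ⟨h1, h2⟩
    constructor <;> linarith
  · rintro ⟨h1, h2⟩
    constructor <;> linarith

theorem aligned_grid {o : Fin k → ℝ} {m : ℝ} (hm : 0 < m) {N : ℕ} (hN : 0 < N)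
    (l : (Fin k → ℤ) × Fin k) (n : Fin k → ℤ) :
    InCell o (N * m) (ga o m) (gv m) l n ∨
      ∀ t ∈ Icc (0 : ℝ) 1, ga o m l + t • gv m l ∉ ball (ctr o (N * m) n) (N * m / 2) := by
  have hNm : 0 < (N : ℝ) * m := by positivity
  by_contra hcon
  push Not at hcon
  obtain ⟨hnot, t, ht, hmem⟩ := hcon
  apply hnot
  rw [mem_ocell hNm] at hmem
  have key : ∀ i, (N : ℤ) * n i ≤ l.1 i ∧ l.1 i + (if i = l.2 then 1 else 0) ≤ N * (n i + 1) := by
    intro i
    have h1 := hmem i
    rw [ga_add] at h1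
    have h2 : (N : ℝ) * n i < l.1 i + if i = l.2 then t else 0 := by
      have := h1.1
      by_contra hc
      push Not at hc
      have := mul_le_mul_of_nonneg_left hc hm.le
      nlinarith
    have h3 : (l.1 i + if i = l.2 then t else 0 : ℝ) < N * (n i + 1) := by
      have := h1.2
      by_contra hc
      push Not at hc
      have := mul_le_mul_of_nonneg_left hc hm.le
      nlinarith
    by_cases hi : i = l.2
    · rw [if_pos hi] at h2 h3
      rw [if_pos hi]
      have h4 : (N : ℝ) * n i < l.1 i + 1 := by linarith [ht.2]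
      have h5 : (l.1 i : ℝ) < N * (n i + 1) := by linarith [ht.1]
      have h6 : (N : ℤ) * n i < l.1 i + 1 := by exact_mod_cast h4
      have h7 : l.1 i < (N : ℤ) * (n i + 1) := by exact_mod_cast h5
      constructor <;> omega
    · rw [if_neg hi] at h2 h3
      rw [if_neg hi]
      rw [add_zero] at h2 h3 ⊢
      have h6 : (N : ℤ) * n i < l.1 i := by exact_mod_cast h2
      have h7 : l.1 i < (N : ℤ) * (n i + 1) := by exact_mod_cast h3
      constructor <;> omega
  intro s hs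
  rw [mem_cell hNm.le]
  intro i
  rw [ga_add]
  obtain ⟨h1, h2⟩ := key i
  have h1' : (N : ℝ) * n i ≤ l.1 i := by exact_mod_cast h1
  have h2' : (l.1 i : ℝ) + (if i = l.2 then 1 else 0) ≤ N * (n i + 1) := by
    by_cases hi : i = l.2
    · rw [if_pos hi] at h2 ⊢
      exact_mod_cast h2
    · rw [if_neg hi] at h2 ⊢
      exact_mod_cast h2
  have h3 : (0 : ℝ) ≤ if i = l.2 then s else 0 := by
    split_ifs
    · exact hs.1
    · exact le_rfl
  have h4 : (if i = l.2 then s else 0) ≤ (if i = l.2 then (1 : ℝ) else 0) := by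
    split_ifs
    · exact hs.2
    · exact le_rfl
  constructor
  · have := mul_le_mul_of_nonneg_left (h1'.trans (le_add_of_nonneg_right h3)) hm.le
    nlinarith
  · have := mul_le_mul_of_nonneg_left ((add_le_add_right h4 (l.1 i : ℝ)).trans h2') hm.le
    nlinarith

theorem inCell_vertex {o : Fin k → ℝ} {m : ℝ} (hm : 0 < m) {N : ℕ} {l : (Fin k → ℤ) × Fin k}
    {n : Fin k → ℤ} (h : ga o m l ∈ closedBall (ctr o (N * m) n) (N * m / 2)) (i : Fin k) :
    (N : ℤ) * n i ≤ l.1 i ∧ l.1 i ≤ N * (n i + 1) := by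
  rw [mem_cell (by positivity)] at h
  have h1 := h i
  simp only [ga, vx] at h1
  have h2 : (N : ℝ) * n i ≤ l.1 i := by
    have := h1.1
    by_contra hc
    push Not at hc
    have := mul_lt_mul_of_pos_left hc hm
    nlinarith
  have h3 : (l.1 i : ℝ) ≤ N * (n i + 1) := by
    have := h1.2
    by_contra hc
    push Not at hc
    have := mul_lt_mul_of_pos_left hc hm
    nlinarith
  exact ⟨by exact_mod_cast h2, by exact_mod_cast h3⟩

theorem mult_grid {o : Fin k → ℝ} {m : ℝ} (hm : 0 < m) {N : ℕ} (hN : 0 < N)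
    (l : (Fin k → ℤ) × Fin k) (J : Finset (Fin k → ℤ))
    (hJ : ∀ n ∈ J, InCell o (N * m) (ga o m) (gv m) l n) : J.card ≤ 2 ^ k := by
  classical
  have hsub : J ⊆ Fintype.piFinset fun i => ({l.1 i / N, l.1 i / N - 1} : Finset ℤ) := by
    intro n hn
    rw [Fintype.mem_piFinset]
    intro i
    have h0 := hJ n hn 0 ⟨le_rfl, zero_le_one⟩
    rw [zero_smul, add_zero] at h0
    obtain ⟨h1, h2⟩ := inCell_vertex hm h0 i
    have hN' : (0 : ℤ) < N := by exact_mod_cast hN
    have h3 : n i ≤ l.1 i / N := by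
      rw [Int.le_ediv_iff_mul_le hN']
      linarith
    have h4 : l.1 i / N ≤ n i + 1 := by
      have := Int.ediv_le_ediv hN' h2
      rwa [Int.mul_ediv_cancel_left _ hN'.ne'] at this
    simp only [Finset.mem_insert, Finset.mem_singleton]
    omega
  refine (Finset.card_le_card hsub).trans ?_
  rw [Fintype.card_piFinset]
  refine (Finset.prod_le_pow_card _ _ 2 fun i _ => Finset.card_le_two).trans ?_
  rw [Finset.card_univ, Fintype.card_fin]

/-- A set of integer vectors with bounded coordinates is finite. -/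
theorem finite_int_vec (A B : Fin k → ℤ) : {z : Fin k → ℤ | ∀ i, A i ≤ z i ∧ z i ≤ B i}.Finite := by
  refine (Set.finite_Icc A B).subset fun z hz => ?_
  rw [Set.mem_ofPred_eq] at hz
  exact ⟨fun i => (hz i).1, fun i => (hz i).2⟩

theorem finite_of_bounded {U : Set (Fin k → ℝ)} (hU : Bornology.IsBounded U) (o : Fin k → ℝ)
    {r : ℝ} (hr : 0 < r) {P : (Fin k → ℤ) → Prop}
    (hP : ∀ z, P z → ∃ x ∈ U, ∀ i, |x i - (o i + r * z i)| ≤ r) : {z | P z}.Finite := by
  obtain ⟨R, hR⟩ := hU.exists_norm_le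
  refine (finite_int_vec (fun i => ⌊(-R - o i) / r⌋ - 1) (fun i => ⌈(R - o i) / r⌉ + 1)).subset ?_
  intro z hz
  rw [Set.mem_ofPred_eq] at hz ⊢
  obtain ⟨x, hx, hxz⟩ := hP z hz
  intro i
  have h1 : |x i| ≤ R := (norm_le_pi_norm x i).trans (hR x hx)
  have h2 := abs_le.1 (hxz i)
  have h3 := abs_le.1 h1
  constructor
  · have h4 : (-R - o i) / r ≤ z i + 1 := by
      rw [div_le_iff₀ hr]
      linarith
    have h5 : (⌊(-R - o i) / r⌋ : ℝ) ≤ z i + 1 := (Int.floor_le _).trans h4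
    have h6 : ⌊(-R - o i) / r⌋ ≤ z i + 1 := by exact_mod_cast h5
    linarith
  · have h4 : (z i : ℝ) - 1 ≤ (R - o i) / r := by
      rw [le_div_iff₀ hr]
      linarith
    have h5 : (z i : ℝ) - 1 ≤ (⌈(R - o i) / r⌉ : ℝ) := h4.trans (Int.le_ceil _)
    have h6 : z i - 1 ≤ ⌈(R - o i) / r⌉ := by exact_mod_cast h5
    linarith

/-- The edges of the fine grid contained in `U`. -/
def edgesIn (U : Set (Fin k → ℝ)) (o : Fin k → ℝ) (m : ℝ) : Set ((Fin k → ℤ) × Fin k) :=
  {l | ∀ t ∈ Icc (0 : ℝ) 1, ga o m l + t • gv m l ∈ U}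

theorem finite_edgesIn {U : Set (Fin k → ℝ)} (hU : Bornology.IsBounded U) (o : Fin k → ℝ)
    {m : ℝ} (hm : 0 < m) : (edgesIn U o m).Finite := by
  have h1 : {z : Fin k → ℤ | vx o m z ∈ U}.Finite := by
    refine finite_of_bounded hU o hm fun z hz => ⟨vx o m z, hz, fun i => ?_⟩
    simp only [vx]
    rw [sub_self, abs_zero]
    exact hm.le
  refine (h1.prod (Set.finite_univ (α := Fin k))).subset fun l hl => ?_
  refine ⟨?_, mem_univ _⟩
  have h2 := hl 0 ⟨le_rfl, zero_le_one⟩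
  rw [zero_smul, add_zero] at h2
  exact h2

/-- The cells meeting `E`. -/
def cellsOf (E : Set (Fin k → ℝ)) (o : Fin k → ℝ) (r : ℝ) : Set (Fin k → ℤ) :=
  {n | (E ∩ closedBall (ctr o r n) (r / 2)).Nonempty}

theorem finite_cellsOf {E : Set (Fin k → ℝ)} (hE : Bornology.IsBounded E) (o : Fin k → ℝ)
    {r : ℝ} (hr : 0 < r) : (cellsOf E o r).Finite := by
  refine finite_of_bounded hE o hr fun z hz => ?_
  obtain ⟨x, hxE, hx⟩ := hz
  refine ⟨x, hxE, fun i => ?_⟩
  rw [mem_cell hr.le] at hx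
  rw [abs_le]
  constructor <;> linarith [(hx i).1, (hx i).2]

/-- Every point belongs to a cell. -/
theorem exists_cell (o : Fin k → ℝ) {r : ℝ} (hr : 0 < r) (x : Fin k → ℝ) :
    ∃ n : Fin k → ℤ, x ∈ closedBall (ctr o r n) (r / 2) := by
  refine ⟨fun i => ⌊(x i - o i) / r⌋, (mem_cell hr.le).2 fun i => ?_⟩
  have h1 := Int.floor_le ((x i - o i) / r)
  have h2 := (Int.lt_floor_add_one ((x i - o i) / r)).le
  rw [le_div_iff₀ hr] at h1
  rw [div_le_iff₀ hr] at h2
  constructor <;> linarith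

theorem cell_subset_cthickening {E : Set (Fin k → ℝ)} {o : Fin k → ℝ} {r : ℝ} {n : Fin k → ℤ}
    (hn : n ∈ cellsOf E o r) : closedBall (ctr o r n) (r / 2) ⊆ cthickening r E := by
  obtain ⟨x, hxE, hx⟩ := hn
  intro y hy
  refine mem_cthickening_of_dist_le y x r E hxE ?_
  rw [mem_closedBall] at hx hy
  have := dist_triangle_right y x (ctr o r n)
  linarith

end Vale.Agent.P073.PK
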