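import Vale.Agent.P073.PK.Negl

/-!
# P073, packing: properties of the selected cells, in any dimension
-/

set_option linter.unusedSectionVars false

namespace Vale.Agent.P073.PK

open Set Filter Topology Metric MeasureTheory
open scoped ENNReal NNReal
open Vale.Agent.P073.HB (GoodSeg vx edgeSum obox)

variable {k : ℕ} {Y : Type*} [NormedAddCommGroup Y] [NormedSpace ℝ Y]

/-- A fine grid of mesh `m`, cells of side `N m`, selected cells `J`. -/
structure Grd (g : (Fin k → ℝ) → Y) (G : (Fin k → ℝ) → ((Fin k → ℝ) →L[ℝ] Y))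
    (E E' U : Set (Fin k → ℝ)) (D K₀ : Set Y) (p θ M κ η t₀ lam δ d e m : ℝ) (N : ℕ)
    (o : Fin k → ℝ) (L : Finset ((Fin k → ℤ) × Fin k)) (I J : Finset (Fin k → ℤ))
    (b : (Fin k → ℤ) → (Fin k → ℝ)) : Prop where
  p1 : 1 ≤ p
  θ0 : 0 < θ
  M0 : 0 < M
  lam0 : 0 < lam
  lam1 : lam < 1
  t₀0 : 0 < t₀
  N0 : 0 < N
  const : η * N + η + lam * (1 + M) ≤ κ
  const' : ENNReal.ofReal η ^ p + 2 ^ (p - 1) * ((1 + ENNReal.ofReal M ^ p) * ENNReal.ofReal lam) ≤
    ENNReal.ofReal κ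
  fine : Fine g G E E' U D θ M η t₀ N δ d e m
  Em : MeasurableSet E
  LU : ∀ l ∈ L, l ∈ edgesIn U o m
  good : ∀ l ∈ L, GoodSeg g G (ga o m l) (gv m l)
  IE : ∀ n, n ∈ I ↔ n ∈ cellsOf E o (N * m)
  bE : ∀ n ∈ I, b n ∈ E
  bn : ∀ n ∈ I, b n ∈ closedBall (ctr o (N * m) n) (N * m / 2)
  JI : J ⊆ I
  sel : ∀ n ∈ J, Sel g G p E E' K₀ o (N * m) m (t₀ * m) lam L m b n

namespace Grd

variable {g : (Fin k → ℝ) → Y} {G : (Fin k → ℝ) → ((Fin k → ℝ) →L[ℝ] Y)}
  {E E' U : Set (Fin k → ℝ)} {D K₀ : Set Y} {p θ M κ η t₀ lam δ d e m : ℝ} {N : ℕ}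
  {o : Fin k → ℝ} {L : Finset ((Fin k → ℤ) × Fin k)} {I J : Finset (Fin k → ℤ)}
  {b : (Fin k → ℤ) → (Fin k → ℝ)}

section

variable (h : Grd g G E E' U D K₀ p θ M κ η t₀ lam δ d e m N o L I J b)
include h

theorem m_pos : 0 < m := h.fine.scale.m_pos

theorem Nm_pos : 0 < (N : ℝ) * m := by
  have := h.m_pos
  have h1 : (0 : ℝ) < N := by exact_mod_cast h.N0
  positivity

theorem cell_subset {n : Fin k → ℤ} (hn : n ∈ I) :
    closedBall (ctr o (N * m) n) (N * m / 2) ⊆ U \ E' :=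
  (cell_subset_cthickening ((h.IE n).1 hn)).trans h.fine.thick

theorem box_subset_cell (n : Fin k → ℤ) :
    box o (N * m) m n ⊆ closedBall (ctr o (N * m) n) (N * m / 2) :=
  closedBall_subset_closedBall (by have := h.m_pos; linarith)

theorem below {n : Fin k → ℤ} (hn : n ∈ I) (w : Fin k → ℝ) : θ * ‖w‖ ≤ ‖G (b n) w‖ :=
  h.fine.pack.below _ (h.bE n hn) w

theorem above {n : Fin k → ℤ} (hn : n ∈ I) : ‖G (b n)‖ ≤ M := h.fine.pack.above _ (h.bE n hn)

theorem cells : Cells E o (N * m) (t₀ * m) J b :=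
  ⟨fun n hn => (h.sel n hn).vg.dense, fun n hn => h.bE n (h.JI hn), fun n hn => h.bn n (h.JI hn)⟩

/-- The image boxes of the selected cells are at a positive distance. -/
theorem disj {n n' : Fin k → ℤ} (hn : n ∈ J) (hn' : n' ∈ J) (hne : n ≠ n') :
    Disjoint (thickening (θ * m / 16) (img g G o (N * m) m b n))
      (thickening (θ * m / 16) (img g G o (N * m) m b n')) :=
  img_thick_disjoint h.fine.pack h.fine.scale (ρ := m) (by have := h.m_pos; linarith) le_rfl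
    h.cells hn hn' hne

theorem avoid {n : Fin k → ℤ} (hn : n ∈ J) : Disjoint (img g G o (N * m) m b n) K₀ :=
  (h.sel n hn).avoid

theorem avoidD {n : Fin k → ℤ} (hn : n ∈ I) :
    Disjoint (cthickening e (img g G o (N * m) m b n)) D :=
  h.fine.img o m b n h.m_pos.le (h.bE n hn) (h.bn n hn)

theorem foreign {n : Fin k → ℤ} (hn : n ∈ J) {l : (Fin k → ℤ) × Fin k} (hl : l ∈ L)
    (hln : ¬ InCell o (N * m) (ga o m) (gv m) l n) {t : ℝ} (ht : t ∈ Icc (0 : ℝ) 1) :
    g (ga o m l + t • gv m l) ∉ img g G o (N * m) m b n :=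
  (h.sel n hn).vg.foreign l hl hln t ht

theorem own1 [CompleteSpace Y] {n : Fin k → ℤ} (hn : n ∈ J) {l : (Fin k → ℤ) × Fin k} (hl : l ∈ L)
    (hln : InCell o (N * m) (ga o m) (gv m) l n) {t : ℝ} (ht : t ∈ Icc (0 : ℝ) 1) :
    ‖g (ga o m l + t • gv m l) - aff g G (b n) (ga o m l + t • gv m l)‖ ≤ κ * m := by
  have hnI := h.JI hn
  have hcell := h.cell_subset hnI
  have hm := h.m_pos
  have h1 := (h.sel n hn).vg.close h.fine.pack h.fine.scale h.M0.le h.p1 h.lam0.le h.lam1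
    h.Em (h.bE n hnI) (h.bn n hnI)
    (fun l _ => norm_gv hm.le l)
    (Set.disjoint_left.2 fun y hy hy' => (hcell hy).2 hy') hl hln (h.good _ hl) ht
  refine h1.trans ?_
  calc η * (N * m) + (η + lam * (1 + M)) * m = (η * N + η + lam * (1 + M)) * m := by ring
    _ ≤ κ * m := mul_le_mul_of_nonneg_right h.const hm.le

theorem own2 {n : Fin k → ℤ} (hn : n ∈ J) {l : (Fin k → ℤ) × Fin k} (hl : l ∈ L)
    (hln : InCell o (N * m) (ga o m) (gv m) l n) :
    ∫⁻ t in Ioc (0 : ℝ) 1, ‖G (ga o m l + t • gv m l) (gv m l) - G (b n) (gv m l)‖ₑ ^ p ≤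
      ENNReal.ofReal m ^ p * ENNReal.ofReal κ := by
  have hnI := h.JI hn
  have hcell := h.cell_subset hnI
  have hm := h.m_pos
  exact ((h.sel n hn).vg.deriv_close_rpow h.fine.pack h.fine.scale h.M0.le h.p1
    h.Em (h.bE n hnI) (h.bn n hnI) (fun l _ => norm_gv hm.le l)
    (Set.disjoint_left.2 fun y hy hy' => (hcell hy).2 hy') hl hln).trans
      (mul_le_mul' le_rfl h.const')

/-- The pointwise bound in a cell. -/
theorem osc_le {n : Fin k → ℤ} (hn : n ∈ I) {x : Fin k → ℝ}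
    (hx : x ∈ closedBall (ctr o (N * m) n) (N * m / 2)) :
    ‖G x - G (b n)‖ₑ ^ p ≤ ENNReal.ofReal η ^ p + 2 ^ (p - 1) * (1 + ENNReal.ofReal M ^ p) *
        dens G p U (E ∪ E') x := by
  have hp0 : 0 ≤ p := by linarith [h.p1]
  by_cases hxE : x ∈ E
  · refine le_trans ?_ le_self_add
    rw [← ofReal_norm]
    refine ENNReal.rpow_le_rpow (ENNReal.ofReal_le_ofReal ?_) hp0
    refine h.fine.pack.osc (b n) (h.bE n hn) x hxE ?_
    have h1 := dist_triangle_right x (b n) (ctr o (N * m) n)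
    have h2 := mem_closedBall.1 hx
    have h3 := mem_closedBall.1 (h.bn n hn)
    rw [dist_eq_norm] at h1
    have h4 := h.fine.scale.r_lt
    linarith
  · refine le_trans ?_ le_add_self
    have hxU : x ∈ U \ (E ∪ E') := by
      have := h.cell_subset hn hx
      exact ⟨this.1, fun h' => h'.elim hxE this.2⟩
    rw [dens, indicator_of_mem hxU]
    have h1 : ‖G (b n)‖ₑ ≤ ENNReal.ofReal M := by
      rw [← ofReal_norm]
      exact ENNReal.ofReal_le_ofReal (h.above hn)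
    calc ‖G x - G (b n)‖ₑ ^ p ≤ (‖G x‖ₑ + ENNReal.ofReal M) ^ p := by
          refine ENNReal.rpow_le_rpow ?_ hp0
          exact (enorm_sub_le).trans (add_le_add le_rfl h1)
      _ ≤ 2 ^ (p - 1) * (‖G x‖ₑ ^ p + ENNReal.ofReal M ^ p) :=
          ENNReal.rpow_add_le_mul_rpow_add_rpow _ _ h.p1
      _ ≤ 2 ^ (p - 1) * ((1 + ENNReal.ofReal M ^ p) * (1 + ‖G x‖ₑ ^ p)) := by
          gcongr
          calc ‖G x‖ₑ ^ p + ENNReal.ofReal M ^ p
              ≤ (1 + ENNReal.ofReal M ^ p) * ‖G x‖ₑ ^ p + (1 + ENNReal.ofReal M ^ p) := by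
                gcongr
                · calc ‖G x‖ₑ ^ p = 1 * ‖G x‖ₑ ^ p := (one_mul _).symm
                    _ ≤ _ := by gcongr; exact le_self_add
                · exact le_add_self
            _ = _ := by ring
      _ = _ := by ring

end

end Grd

/-- The sum of the integrals over different closed cells of a lattice. -/
theorem sum_lintegral_cell_le {o : Fin k → ℝ} {r : ℝ} (hr : 0 < r)
    (J : Finset (Fin k → ℤ)) {U : Set (Fin k → ℝ)}
    (hJ : ∀ z ∈ J, closedBall (ctr o r z) (r / 2) ⊆ U) (W : (Fin k → ℝ) → ℝ≥0∞) :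
    ∑ z ∈ J, ∫⁻ x in closedBall (ctr o r z) (r / 2), W x ≤ ∫⁻ x in U, W x := by
  have h1 : ∀ z ∈ J, ∫⁻ x in closedBall (ctr o r z) (r / 2), W x ≤
      ∫⁻ x in ball (ctr o r z) (r / 2), W x := by
    intro z _
    rw [← ball_union_sphere]
    refine (lintegral_union_le W _ _).trans ?_
    rw [setLIntegral_measure_zero (sphere (ctr o r z) (r / 2)) W
      (Measure.addHaar_sphere_of_ne_zero _ _ (by positivity)), add_zero]
  refine (Finset.sum_le_sum h1).trans ?_
  rw [← lintegral_biUnion_finset (fun z _ z' _ hzz => ball_disjoint hr.le hzz)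
    (fun z _ => measurableSet_ball)]
  refine lintegral_mono_set (iUnion₂_subset fun z hz => ?_)
  exact ball_subset_closedBall.trans (hJ z hz)

theorem volume_cellk {o : Fin k → ℝ} {r : ℝ} (hr : 0 < r) {z : Fin k → ℤ} :
    volume (closedBall (ctr o r z) (r / 2)) = ENNReal.ofReal r ^ k := by
  rw [Real.volume_pi_closedBall _ (by positivity), Fintype.card_fin,
    ENNReal.ofReal_pow (by positivity)]
  congr 2
  ring

/-- The fine edges which can be contained in the cell `z`. -/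
noncomputable def cellL (N : ℕ) (z : Fin k → ℤ) : Finset ((Fin k → ℤ) × Fin k) :=
  (Fintype.piFinset fun i => Finset.Icc ((N : ℤ) * z i) ((N : ℤ) * (z i + 1))) ×ˢ Finset.univ

theorem card_cellL (N : ℕ) (z : Fin k → ℤ) : (cellL N z).card = k * (N + 1) ^ k := by
  rw [cellL, Finset.card_product, Fintype.card_piFinset, Finset.card_univ, Fintype.card_fin]
  have h1 : ∀ i, (Finset.Icc ((N : ℤ) * z i) ((N : ℤ) * (z i + 1))).card = N + 1 := by
    intro i
    rw [Int.card_Icc]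
    have : (N : ℤ) * (z i + 1) + 1 - (N : ℤ) * z i = ((N + 1 : ℕ) : ℤ) := by
      push_cast; ring
    rw [this, Int.toNat_natCast]
  simp only [h1, Finset.prod_const, Finset.card_univ, Fintype.card_fin]
  rw [mul_comm]

theorem mem_cellL {o : Fin k → ℝ} {m : ℝ} (hm : 0 < m) {N : ℕ} {z : Fin k → ℤ}
    {l : (Fin k → ℤ) × Fin k} (hl : InCell o (N * m) (ga o m) (gv m) l z) : l ∈ cellL N z := by
  have h0 := hl 0 ⟨le_rfl, zero_le_one⟩
  rw [zero_smul, add_zero] at h0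
  have h1 := inCell_vertex hm h0
  refine Finset.mem_product.2 ⟨?_, Finset.mem_univ _⟩
  rw [Fintype.mem_piFinset]
  intro i
  exact Finset.mem_Icc.2 (h1 i)

/-- Every fine edge is contained in a cell. -/
theorem exists_inCell_grid (o : Fin k → ℝ) {m : ℝ} (hm : 0 < m) {N : ℕ} (hN : 0 < N)
    (l : (Fin k → ℤ) × Fin k) : ∃ z, InCell o (N * m) (ga o m) (gv m) l z := by
  refine ⟨fun i => l.1 i / N, fun t ht => ?_⟩
  rw [mem_cell (by positivity)]
  intro i
  rw [ga_add]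
  have h2j : (0 : ℤ) < N := by exact_mod_cast hN
  have hz : (N : ℤ) * (l.1 i / N) ≤ l.1 i := Int.mul_ediv_self_le h2j.ne'
  have hz' : l.1 i < N * (l.1 i / N) + N := Int.lt_mul_ediv_self_add h2j
  have hz'' : l.1 i + 1 ≤ N * (l.1 i / N + 1) := by
    rw [mul_add, mul_one]; omega
  have hzR : (N : ℝ) * ((l.1 i / N : ℤ) : ℝ) ≤ l.1 i := by exact_mod_cast hz
  have hzR' : (l.1 i : ℝ) + 1 ≤ N * (((l.1 i / N : ℤ) : ℝ) + 1) := by exact_mod_cast hz''
  have h3 : (0 : ℝ) ≤ if i = l.2 then t else 0 := by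
    split_ifs
    · exact ht.1
    · exact le_rfl
  have h4 : (if i = l.2 then t else 0) ≤ (1 : ℝ) := by
    split_ifs
    · exact ht.2
    · exact zero_le_one
  constructor
  · have := mul_le_mul_of_nonneg_left (hzR.trans (le_add_of_nonneg_right h3)) hm.le
    nlinarith
  · have := mul_le_mul_of_nonneg_left ((add_le_add_right h4 (l.1 i : ℝ)).trans hzR') hm.le
    nlinarith

namespace Grd

variable {g : (Fin k → ℝ) → Y} {G : (Fin k → ℝ) → ((Fin k → ℝ) →L[ℝ] Y)}
  {E E' U : Set (Fin k → ℝ)} {D K₀ : Set Y} {p θ M κ η t₀ lam δ d e m : ℝ} {N : ℕ}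
  {o : Fin k → ℝ} {L : Finset ((Fin k → ℤ) × Fin k)} {I J : Finset (Fin k → ℤ)}
  {b : (Fin k → ℤ) → (Fin k → ℝ)}

section

variable (h : Grd g G E E' U D K₀ p θ M κ η t₀ lam δ d e m N o L I J b)
include h

/-- The closeness of the derivatives on the selected cells. -/
theorem s1 : ∑ n ∈ J, ∫⁻ x in closedBall (ctr o (N * m) n) (N * m / 2), ‖G x - G (b n)‖ₑ ^ p ≤
    ENNReal.ofReal η ^ p * volume U +
      2 ^ (p - 1) * (1 + ENNReal.ofReal M ^ p) * ∫⁻ x, dens G p U (E ∪ E') x := by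
  have hp0 : 0 ≤ p := by linarith [h.p1]
  set W : (Fin k → ℝ) → ℝ≥0∞ := fun x => ENNReal.ofReal η ^ p +
    2 ^ (p - 1) * (1 + ENNReal.ofReal M ^ p) * dens G p U (E ∪ E') x with hW
  calc _ ≤ ∑ n ∈ J, ∫⁻ x in closedBall (ctr o (N * m) n) (N * m / 2), W x :=
        Finset.sum_le_sum fun n hn => setLIntegral_mono' measurableSet_closedBall
          fun x hx => h.osc_le (h.JI hn) hx
    _ ≤ ∫⁻ x in U, W x := sum_lintegral_cell_le h.Nm_pos J
          (fun n hn => (h.cell_subset (h.JI hn)).trans sdiff_subset) W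
    _ ≤ _ := by
      rw [hW, lintegral_add_left measurable_const, setLIntegral_const]
      gcongr
      rw [lintegral_const_mul' _ _ (by
        refine ENNReal.mul_ne_top ?_ ?_
        · exact ENNReal.rpow_ne_top_of_nonneg (by linarith [h.p1]) (by norm_num)
        · exact ENNReal.add_ne_top.2 ⟨ENNReal.one_ne_top,
            ENNReal.rpow_ne_top_of_nonneg hp0 ENNReal.ofReal_ne_top⟩)]
      gcongr
      exact Measure.restrict_le_self

/-- The part of `E` outside the selected cells. -/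
theorem volume_diff_le : volume (E \ ⋃ n ∈ J, closedBall (ctr o (N * m) n) (N * m / 2)) ≤
    ((I \ J).card : ℝ≥0∞) * ENNReal.ofReal (N * m) ^ k := by
  have hsub : E \ (⋃ n ∈ J, closedBall (ctr o (N * m) n) (N * m / 2)) ⊆
      ⋃ n ∈ I \ J, closedBall (ctr o (N * m) n) (N * m / 2) := by
    rintro x ⟨hxE, hx⟩
    obtain ⟨z, hz⟩ := exists_cell o h.Nm_pos x
    have hzI : z ∈ I := (h.IE z).2 ⟨x, hxE, hz⟩
    refine mem_biUnion (Finset.mem_coe.2 (Finset.mem_sdiff.2 ⟨hzI, fun hzJ => hx ?_⟩)) hz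
    exact mem_biUnion (Finset.mem_coe.2 hzJ) hz
  calc _ ≤ volume (⋃ n ∈ I \ J, closedBall (ctr o (N * m) n) (N * m / 2)) := measure_mono hsub
    _ ≤ ∑ n ∈ I \ J, volume (closedBall (ctr o (N * m) n) (N * m / 2)) :=
        measure_biUnion_finset_le _ _
    _ = _ := by simp only [volume_cellk h.Nm_pos, Finset.sum_const, nsmul_eq_mul]

/-- The energy outside the selected cells. -/
theorem s2 {β : ℝ≥0∞} (hβ : ((I \ J).card : ℝ≥0∞) * ENNReal.ofReal (N * m) ^ k ≤ β) :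
    ∫⁻ x in U \ ⋃ n ∈ J, closedBall (ctr o (N * m) n) (N * m / 2), ‖G x‖ₑ ^ p ≤
      ENNReal.ofReal M ^ p * β + ∫⁻ x in U \ E, ‖G x‖ₑ ^ p := by
  have hp0 : 0 ≤ p := by linarith [h.p1]
  have hJm : MeasurableSet (⋃ n ∈ J, closedBall (ctr o (N * m) n) (N * m / 2)) :=
    Finset.measurableSet_biUnion _ fun n _ => measurableSet_closedBall
  have hsub : U \ (⋃ n ∈ J, closedBall (ctr o (N * m) n) (N * m / 2)) ⊆
      (E \ ⋃ n ∈ J, closedBall (ctr o (N * m) n) (N * m / 2)) ∪ (U \ E) := by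
    rintro x ⟨hx, hxJ⟩
    by_cases hxE : x ∈ E
    · exact Or.inl ⟨hxE, hxJ⟩
    · exact Or.inr ⟨hx, hxE⟩
  calc _ ≤ ∫⁻ x in (E \ ⋃ n ∈ J, closedBall (ctr o (N * m) n) (N * m / 2)) ∪ (U \ E),
        ‖G x‖ₑ ^ p := lintegral_mono_set hsub
    _ ≤ (∫⁻ x in E \ ⋃ n ∈ J, closedBall (ctr o (N * m) n) (N * m / 2), ‖G x‖ₑ ^ p) +
        ∫⁻ x in U \ E, ‖G x‖ₑ ^ p := lintegral_union_le _ _ _
    _ ≤ (∫⁻ _x in E \ ⋃ n ∈ J, closedBall (ctr o (N * m) n) (N * m / 2), ENNReal.ofReal M ^ p) +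
        ∫⁻ x in U \ E, ‖G x‖ₑ ^ p := by
        refine add_le_add ?_ le_rfl
        refine setLIntegral_mono' (h.Em.diff hJm) fun x hx => ?_
        refine ENNReal.rpow_le_rpow ?_ hp0
        rw [← ofReal_norm]
        exact ENNReal.ofReal_le_ofReal (h.fine.pack.above x hx.1)
    _ ≤ _ := by
        rw [setLIntegral_const]
        gcongr
        exact h.volume_diff_le.trans hβ

/-- The energy of the fine edges (of a finite family) outside the selected cells. -/
theorem s3 (L' : Finset ((Fin k → ℤ) × Fin k)) (hL' : ∀ l ∈ L', l ∈ edgesIn U o m)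
    (hL'J : ∀ l ∈ L', ∀ n ∈ J, ¬ InCell o (N * m) (ga o m) (gv m) l n) {β : ℝ≥0∞}
    (hβ : ((I \ J).card : ℝ≥0∞) * ENNReal.ofReal (N * m) ^ k ≤ β) :
    ENNReal.ofReal m ^ k * ∑ l ∈ L', ∫⁻ t in Ioc (0 : ℝ) 1, ‖G (ga o m l + t • gv m l)‖ₑ ^ p ≤
      k * 2 ^ k * (ENNReal.ofReal M ^ p * β) +
        ENNReal.ofReal m ^ k * edgeSum ((U \ E).indicator fun x => ‖G x‖ₑ ^ p) o m := by
  classical
  have hp0 : 0 ≤ p := by linarith [h.p1]
  have hm := h.m_pos
  have hseg : ∀ l : (Fin k → ℤ) × Fin k, Measurable fun t : ℝ => ga o m l + t • gv m l := fun l =>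
    (by fun_prop : Continuous fun t : ℝ => ga o m l + t • gv m l).measurable
  -- the pointwise bound
  have h1 : ∀ l ∈ L', ∫⁻ t in Ioc (0 : ℝ) 1, ‖G (ga o m l + t • gv m l)‖ₑ ^ p ≤
      (∫⁻ t in Ioc (0 : ℝ) 1, (E.indicator fun _ => ENNReal.ofReal M ^ p)
        (ga o m l + t • gv m l)) +
      ∫⁻ t in Ioc (0 : ℝ) 1, ((U \ E).indicator fun x => ‖G x‖ₑ ^ p)
        (ga o m l + t • gv m l) := by
    intro l hl
    have hmeas : AEMeasurable (fun t : ℝ => (E.indicator fun _ => ENNReal.ofReal M ^ p)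
        (ga o m l + t • gv m l)) (volume.restrict (Ioc 0 1)) :=
      ((measurable_const.indicator h.Em).comp (hseg l)).aemeasurable
    rw [← lintegral_add_left' hmeas]
    refine setLIntegral_mono' measurableSet_Ioc fun t ht => ?_
    have hx := hL' l hl t ⟨ht.1.le, ht.2⟩
    by_cases hxE : ga o m l + t • gv m l ∈ E
    · refine le_trans ?_ le_self_add
      rw [indicator_of_mem hxE]
      refine ENNReal.rpow_le_rpow ?_ hp0
      rw [← ofReal_norm]
      exact ENNReal.ofReal_le_ofReal (h.fine.pack.above _ hxE)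
    · refine le_trans ?_ le_add_self
      rw [indicator_of_mem (show ga o m l + t • gv m l ∈ U \ E from ⟨hx, hxE⟩)]
  -- the edges which meet `E`
  have h2 : ∑ l ∈ L', ∫⁻ t in Ioc (0 : ℝ) 1, (E.indicator fun _ => ENNReal.ofReal M ^ p)
      (ga o m l + t • gv m l) ≤ ((I \ J).card * (k * (N + 1) ^ k) : ℕ) * ENNReal.ofReal M ^ p := by
    set T := (I \ J).biUnion fun z => cellL N z with hT
    have hTc : T.card ≤ (I \ J).card * (k * (N + 1) ^ k) :=
      Finset.card_biUnion_le_card_mul _ _ _ fun z _ => (card_cellL N z).le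
    have h3 : ∀ l ∈ L', ∫⁻ t in Ioc (0 : ℝ) 1, (E.indicator fun _ => ENNReal.ofReal M ^ p)
        (ga o m l + t • gv m l) ≤ if l ∈ T then ENNReal.ofReal M ^ p else 0 := by
      intro l hl
      by_cases hlT : l ∈ T
      · rw [if_pos hlT]
        have h8 : ∫⁻ _t in Ioc (0 : ℝ) 1, ENNReal.ofReal M ^ p = ENNReal.ofReal M ^ p := by
          rw [setLIntegral_const, Real.volume_Ioc]
          simp
        refine le_trans (lintegral_mono fun t => ?_) h8.le
        exact indicator_le_self' (f := fun _ : Fin k → ℝ => ENNReal.ofReal M ^ p)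
          (fun _ _ => zero_le) _
      · rw [if_neg hlT]
        have h5 : ∀ t ∈ Ioc (0 : ℝ) 1, (E.indicator fun _ => ENNReal.ofReal M ^ p)
            (ga o m l + t • gv m l) = 0 := by
          intro t ht
          refine indicator_of_notMem (fun hxE => hlT ?_) _
          obtain ⟨z, hz⟩ := exists_inCell_grid o hm h.N0 l
          have hzI : z ∈ I := (h.IE z).2 ⟨_, hxE, hz t ⟨ht.1.le, ht.2⟩⟩
          exact Finset.mem_biUnion.2 ⟨z, Finset.mem_sdiff.2 ⟨hzI, fun hzJ => hL'J l hl z hzJ hz⟩,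
            mem_cellL hm hz⟩
        rw [setLIntegral_congr_fun measurableSet_Ioc h5]
        simp
    calc _ ≤ ∑ l ∈ L', if l ∈ T then ENNReal.ofReal M ^ p else 0 := Finset.sum_le_sum h3
      _ = ((L'.filter fun l => l ∈ T).card : ℝ≥0∞) * ENNReal.ofReal M ^ p := by
          rw [← Finset.sum_filter, Finset.sum_const, nsmul_eq_mul]
      _ ≤ _ := by
          refine mul_le_mul' ?_ le_rfl
          have : (L'.filter fun l => l ∈ T).card ≤ T.card :=
            Finset.card_le_card fun l hl => (Finset.mem_filter.1 hl).2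
          exact_mod_cast this.trans hTc
  have h4 : ∑ l ∈ L', ∫⁻ t in Ioc (0 : ℝ) 1, ((U \ E).indicator fun x => ‖G x‖ₑ ^ p)
        (ga o m l + t • gv m l) ≤ edgeSum ((U \ E).indicator fun x => ‖G x‖ₑ ^ p) o m :=
    ENNReal.sum_le_tsum _
  have e1 : ENNReal.ofReal m ^ k * ((N : ℝ≥0∞) + 1) ^ k ≤ 2 ^ k * ENNReal.ofReal (N * m) ^ k := by
    rw [← mul_pow, ← mul_pow]
    refine pow_le_pow_left' ?_ k
    have h5 : ((N : ℝ≥0∞) + 1) = ENNReal.ofReal (N + 1) := by
      rw [ENNReal.ofReal_add (by positivity) zero_le_one, ENNReal.ofReal_natCast, ENNReal.ofReal_one]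
    have h6 : (2 : ℝ≥0∞) = ENNReal.ofReal 2 := by norm_num
    rw [h5, h6, ← ENNReal.ofReal_mul hm.le, ← ENNReal.ofReal_mul (by norm_num)]
    refine ENNReal.ofReal_le_ofReal ?_
    have h7 : (1 : ℝ) ≤ N := by exact_mod_cast h.N0
    nlinarith
  calc _ ≤ ENNReal.ofReal m ^ k * (((I \ J).card * (k * (N + 1) ^ k) : ℕ) * ENNReal.ofReal M ^ p +
        edgeSum ((U \ E).indicator fun x => ‖G x‖ₑ ^ p) o m) := by
        refine mul_le_mul' le_rfl ((Finset.sum_le_sum h1).trans ?_)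
        rw [Finset.sum_add_distrib]
        exact add_le_add h2 h4
    _ = k * (((I \ J).card : ℝ≥0∞) * (ENNReal.ofReal m ^ k * ((N : ℝ≥0∞) + 1) ^ k) *
          ENNReal.ofReal M ^ p) +
        ENNReal.ofReal m ^ k * edgeSum ((U \ E).indicator fun x => ‖G x‖ₑ ^ p) o m := by
        push_cast; ring
    _ ≤ k * (((I \ J).card : ℝ≥0∞) * (2 ^ k * ENNReal.ofReal (N * m) ^ k) *
          ENNReal.ofReal M ^ p) +
        ENNReal.ofReal m ^ k * edgeSum ((U \ E).indicator fun x => ‖G x‖ₑ ^ p) o m := by gcongr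
    _ = k * 2 ^ k * (ENNReal.ofReal M ^ p *
          (((I \ J).card : ℝ≥0∞) * ENNReal.ofReal (N * m) ^ k)) +
        ENNReal.ofReal m ^ k * edgeSum ((U \ E).indicator fun x => ‖G x‖ₑ ^ p) o m := by ring
    _ ≤ _ := by gcongr

end

end Grd

end Vale.Agent.P073.PK
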