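import Vale.Agent.P073.HB.Acl3

/-!
# P073, packing: number of disjoint sets that are hit by a curve
-/

namespace Vale.Agent.P073.PK

open MeasureTheory Set Filter Topology
open scoped ENNReal
open Vale.Agent.P073.HB

theorem hit_le {X : Type*} [PseudoEMetricSpace X] {u : ℝ → X} {h : ℝ → ℝ≥0∞} (hu : HasMod u h)
    (hc : ContinuousOn u (Icc 0 1)) {N P : Set X} (hN : IsOpen N) {ρ : ℝ≥0∞}
    (hρ : ∀ x ∈ P, ∀ y, y ∉ N → ρ ≤ edist x y) {t s : ℝ} (ht : t ∈ Icc (0 : ℝ) 1)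
    (hs : s ∈ Icc (0 : ℝ) 1) (htP : u t ∈ P) (hsN : u s ∉ N) :
    ρ ≤ ∫⁻ r in Icc (0 : ℝ) 1 ∩ u ⁻¹' N, h r := by
  rcases le_total t s with hts | hst
  · have hcl : IsClosed (Icc t s ∩ u ⁻¹' Nᶜ) :=
      (hc.mono (Icc_subset_Icc ht.1 hs.2)).preimage_isClosed_of_isClosed isClosed_Icc
        hN.isClosed_compl
    have hK : IsCompact (Icc t s ∩ u ⁻¹' Nᶜ) := isCompact_Icc.of_isClosed_subset hcl inter_subset_left
    obtain ⟨τ, hτ, hmin⟩ := hK.exists_isLeast ⟨s, ⟨hts, le_rfl⟩, hsN⟩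
    have h01 : τ ∈ Icc (0 : ℝ) 1 := ⟨ht.1.trans hτ.1.1, hτ.1.2.trans hs.2⟩
    calc ρ ≤ edist (u t) (u τ) := hρ _ htP _ hτ.2
      _ ≤ ∫⁻ r in Ioc t τ, h r := hu t ht τ h01 hτ.1.1
      _ = ∫⁻ r in Ioo t τ, h r := by rw [restrict_Ioo_eq_restrict_Ioc]
      _ ≤ _ := by
        refine lintegral_mono_set fun r hr => ?_
        refine ⟨⟨ht.1.trans hr.1.le, hr.2.le.trans h01.2⟩, ?_⟩
        by_contra hn
        exact absurd (hmin ⟨⟨hr.1.le, hr.2.le.trans hτ.1.2⟩, hn⟩) (not_le.2 hr.2)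
  · have hcl : IsClosed (Icc s t ∩ u ⁻¹' Nᶜ) :=
      (hc.mono (Icc_subset_Icc hs.1 ht.2)).preimage_isClosed_of_isClosed isClosed_Icc
        hN.isClosed_compl
    have hK : IsCompact (Icc s t ∩ u ⁻¹' Nᶜ) := isCompact_Icc.of_isClosed_subset hcl inter_subset_left
    obtain ⟨τ, hτ, hmax⟩ := hK.exists_isGreatest ⟨s, ⟨le_rfl, hst⟩, hsN⟩
    have h01 : τ ∈ Icc (0 : ℝ) 1 := ⟨hs.1.trans hτ.1.1, hτ.1.2.trans ht.2⟩
    calc ρ ≤ edist (u t) (u τ) := hρ _ htP _ hτ.2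
      _ = edist (u τ) (u t) := edist_comm _ _
      _ ≤ ∫⁻ r in Ioc τ t, h r := hu τ h01 t ht hτ.1.2
      _ ≤ _ := by
        refine lintegral_mono_set fun r hr => ?_
        refine ⟨⟨h01.1.trans hr.1.le, hr.2.trans ht.2⟩, ?_⟩
        by_contra hn
        exact absurd (hmax ⟨⟨hτ.1.1.trans hr.1.le, hr.2⟩, hn⟩) (not_le.2 hr.1)

/-- A curve which leaves each of finitely many disjoint open sets `N i`, and which hits for each
`i` the set `P i`, at distance at least `ρ` from the complement of `N i`, has length at least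
`ρ` times their number, inside the union of the `N i`. -/
theorem hit_count {X ι : Type*} [PseudoEMetricSpace X] {u : ℝ → X} {h : ℝ → ℝ≥0∞}
    (hu : HasMod u h) (hc : ContinuousOn u (Icc 0 1)) (I : Finset ι) {N P : ι → Set X}
    (hN : ∀ i ∈ I, IsOpen (N i)) (hd : (I : Set ι).PairwiseDisjoint N) {ρ : ℝ≥0∞}
    (hρ : ∀ i ∈ I, ∀ x ∈ P i, ∀ y, y ∉ N i → ρ ≤ edist x y)
    (hhit : ∀ i ∈ I, ∃ t ∈ Icc (0 : ℝ) 1, u t ∈ P i)
    (hout : ∀ i ∈ I, ∃ t ∈ Icc (0 : ℝ) 1, u t ∉ N i) :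
    (I.card : ℝ≥0∞) * ρ ≤ ∫⁻ r in Icc (0 : ℝ) 1 ∩ u ⁻¹' ⋃ i ∈ I, N i, h r := by
  have hopen : ∀ i ∈ I, ∃ O : Set ℝ, IsOpen O ∧ u ⁻¹' N i ∩ Icc 0 1 = O ∩ Icc 0 1 := fun i hi =>
    continuousOn_iff'.1 hc _ (hN i hi)
  have hmeas : ∀ i ∈ I, MeasurableSet (Icc (0 : ℝ) 1 ∩ u ⁻¹' N i) := fun i hi => by
    obtain ⟨O, hO, he⟩ := hopen i hi
    rw [inter_comm, he]
    exact hO.measurableSet.inter measurableSet_Icc
  have hU : Icc (0 : ℝ) 1 ∩ u ⁻¹' ⋃ i ∈ I, N i = ⋃ i ∈ I, (Icc (0 : ℝ) 1 ∩ u ⁻¹' N i) := by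
    ext r
    simp only [mem_inter_iff, mem_preimage, mem_iUnion]
    tauto
  rw [hU, lintegral_biUnion_finset _ hmeas]
  · calc (I.card : ℝ≥0∞) * ρ = ∑ _i ∈ I, ρ := by rw [Finset.sum_const, nsmul_eq_mul]
      _ ≤ _ := Finset.sum_le_sum fun i hi => by
          obtain ⟨t, ht, htP⟩ := hhit i hi
          obtain ⟨s, hs, hsN⟩ := hout i hi
          exact hit_le hu hc (hN i hi) (hρ i hi) ht hs htP hsN
  · intro i hi j hj hij
    have := hd hi hj hij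
    rw [Function.onFun, Set.disjoint_left] at this ⊢
    exact fun r hr hr' => this hr.2 hr'.2

open Classical in
/-- Number of hits of one curve: at most `1` plus the length inside the sets divided by `ρ`. -/
theorem hit_count_add_one {X ι : Type*} [PseudoEMetricSpace X] {u : ℝ → X} {h : ℝ → ℝ≥0∞}
    (hu : HasMod u h) (hc : ContinuousOn u (Icc 0 1)) (I : Finset ι) {N P : ι → Set X}
    (hN : ∀ i ∈ I, IsOpen (N i)) (hd : (I : Set ι).PairwiseDisjoint N) {ρ : ℝ≥0∞}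
    (hρ : ∀ i ∈ I, ∀ x ∈ P i, ∀ y, y ∉ N i → ρ ≤ edist x y) :
    ((I.filter fun i => ∃ t ∈ Icc (0 : ℝ) 1, u t ∈ P i).card : ℝ≥0∞) * ρ ≤
      ρ + ∫⁻ r in Icc (0 : ℝ) 1 ∩ u ⁻¹' ⋃ i ∈ I, N i, h r := by
  rcases eq_or_ne ρ 0 with h0 | h0
  · simp [h0]
  set J := I.filter fun i => ∃ t ∈ Icc (0 : ℝ) 1, u t ∈ P i with hJ
  have hJI : J ⊆ I := Finset.filter_subset _ _
  by_cases hout : ∀ i ∈ J, ∃ t ∈ Icc (0 : ℝ) 1, u t ∉ N i
  · have h1 := hit_count hu hc J (fun i hi => hN i (hJI hi))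
      (hd.subset (by exact_mod_cast hJI)) (fun i hi => hρ i (hJI hi))
      (fun i hi => (Finset.mem_filter.1 hi).2) hout
    refine h1.trans (le_trans (lintegral_mono_set ?_) le_add_self)
    refine inter_subset_inter_right _ (preimage_mono ?_)
    exact biUnion_subset_biUnion_left (by exact_mod_cast hJI)
  · push Not at hout
    obtain ⟨i, hi, hall⟩ := hout
    have hsub : J ⊆ {i} := by
      intro j hj
      rw [Finset.mem_singleton]
      by_contra hne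
      obtain ⟨t, ht, htP⟩ := (Finset.mem_filter.1 hj).2
      have h1 := hall t ht
      have hdj := Set.disjoint_left.1 (hd (hJI hi) (hJI hj) (Ne.symm hne)) h1
      have := hρ j (hJI hj) _ htP _ hdj
      rw [edist_self] at this
      exact h0 (nonpos_iff_eq_zero.1 this)
    have hcard : J.card ≤ 1 := (Finset.card_le_card hsub).trans (by simp)
    calc (J.card : ℝ≥0∞) * ρ ≤ 1 * ρ := by gcongr; exact_mod_cast hcard
      _ ≤ _ := by rw [one_mul]; exact le_self_add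

end Vale.Agent.P073.PK
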