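import Mathlib.Analysis.Normed.Module.FiniteDimension
import Mathlib.Analysis.Normed.Operator.BoundedLinearMaps
import Mathlib.Topology.MetricSpace.HausdorffDistance

/-!
# P073, packing: lower bounds for an injective continuous map on compact sets on which it is
uniformly differentiable, in the directions in which the derivative is bounded below
-/

namespace Vale.Agent.P073.PK

open Set Filter Topology Metric

variable {X Y : Type*} [NormedAddCommGroup X] [NormedSpace ℝ X]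
  [NormedAddCommGroup Y] [NormedSpace ℝ Y]

/-- `f` is uniformly differentiable along `E`, with derivative `F`. -/
def UDiff (f : X → Y) (F : X → (X →L[ℝ] Y)) (E : Set X) : Prop :=
  ∀ η : ℝ, 0 < η → ∃ δ : ℝ, 0 < δ ∧ ∀ x ∈ E, ∀ y ∈ E, ‖y - x‖ < δ →
    ‖f y - f x - F x (y - x)‖ ≤ η * ‖y - x‖

theorem UDiff.mono {f : X → Y} {F : X → (X →L[ℝ] Y)} {E E' : Set X} (h : UDiff f F E)
    (hE : E' ⊆ E) : UDiff f F E' := fun η hη => by
  obtain ⟨δ, hδ, h'⟩ := h η hη
  exact ⟨δ, hδ, fun x hx y hy => h' x (hE hx) y (hE hy)⟩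

/-- `F` is bounded below by `θ` on `E`, in the directions of `W`. -/
def BddBelowDir (F : X → (X →L[ℝ] Y)) (E : Set X) (W : Submodule ℝ X) (θ : ℝ) : Prop :=
  ∀ x ∈ E, ∀ v ∈ W, θ * ‖v‖ ≤ ‖F x v‖

theorem exists_bddBelowDir [FiniteDimensional ℝ X] {F : X → (X →L[ℝ] Y)} {E : Set X}
    (hE : IsCompact E) (hF : ContinuousOn F E) (W : Submodule ℝ X)
    (hW : ∀ x ∈ E, ∀ v ∈ W, F x v = 0 → v = 0) :
    ∃ θ : ℝ, 0 < θ ∧ BddBelowDir F E W θ := by
  have hS : IsCompact (sphere (0 : X) 1 ∩ (W : Set X)) :=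
    (isCompact_sphere 0 1).inter_right W.closed_of_finiteDimensional
  have hK : IsCompact (E ×ˢ (sphere (0 : X) 1 ∩ (W : Set X))) := hE.prod hS
  have hc : ContinuousOn (fun p : X × X => ‖F p.1 p.2‖) (E ×ˢ (sphere (0 : X) 1 ∩ (W : Set X))) := by
    refine ContinuousOn.norm ?_
    refine ContinuousOn.clm_apply ?_ continuous_snd.continuousOn
    exact hF.comp continuous_fst.continuousOn fun p hp => hp.1
  rcases (E ×ˢ (sphere (0 : X) 1 ∩ (W : Set X))).eq_empty_or_nonempty with he | hne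
  · refine ⟨1, one_pos, fun x hx v hv => ?_⟩
    by_cases h0 : v = 0
    · simp [h0]
    exfalso
    have hn : ‖v‖ ≠ 0 := norm_ne_zero_iff.2 h0
    have : (x, ‖v‖⁻¹ • v) ∈ E ×ˢ (sphere (0 : X) 1 ∩ (W : Set X)) := by
      refine ⟨hx, ?_, W.smul_mem _ hv⟩
      simp [norm_smul, hn]
    rw [he] at this
    exact this
  · obtain ⟨p, hp, hmin⟩ := hK.exists_isMinOn hne hc
    have hpos : 0 < ‖F p.1 p.2‖ := by
      rw [norm_pos_iff]
      intro h0
      have h1 := hW p.1 hp.1 p.2 hp.2.2 h0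
      have h2 := hp.2.1
      rw [h1] at h2
      simp at h2
    refine ⟨‖F p.1 p.2‖, hpos, fun x hx v hv => ?_⟩
    by_cases h0 : v = 0
    · simp [h0]
    have hn : ‖v‖ ≠ 0 := norm_ne_zero_iff.2 h0
    have hm : (x, ‖v‖⁻¹ • v) ∈ E ×ˢ (sphere (0 : X) 1 ∩ (W : Set X)) := by
      refine ⟨hx, ?_, W.smul_mem _ hv⟩
      simp [norm_smul, hn]
    have h3 := hmin hm
    simp only [mem_setOf_eq] at h3
    rw [map_smul, norm_smul, norm_inv, norm_norm] at h3
    calc ‖F p.1 p.2‖ * ‖v‖ ≤ (‖v‖⁻¹ * ‖F x v‖) * ‖v‖ :=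
          mul_le_mul_of_nonneg_right h3 (norm_nonneg _)
      _ = ‖F x v‖ := by field_simp

/-- Local lower bound. -/
theorem lower_local {f : X → Y} {F : X → (X →L[ℝ] Y)} {E : Set X} {W : Submodule ℝ X}
    {θ η δ : ℝ} (hθ : BddBelowDir F E W θ)
    (hd : ∀ x ∈ E, ∀ y ∈ E, ‖y - x‖ < δ → ‖f y - f x - F x (y - x)‖ ≤ η * ‖y - x‖)
    {x y : X} (hx : x ∈ E) (hy : y ∈ E) (hxy : ‖y - x‖ < δ) (hW : y - x ∈ W) :
    (θ - η) * ‖y - x‖ ≤ ‖f y - f x‖ := by
  have h1 := hd x hx y hy hxy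
  have h2 := hθ x hx _ hW
  have h3 : ‖F x (y - x)‖ ≤ ‖f y - f x‖ + ‖f y - f x - F x (y - x)‖ := by
    have : F x (y - x) = (f y - f x) - (f y - f x - F x (y - x)) := by abel
    calc ‖F x (y - x)‖ = ‖(f y - f x) - (f y - f x - F x (y - x))‖ := by rw [← this]
      _ ≤ _ := norm_sub_le _ _
  nlinarith [h1, h2, h3]

/-- Points of a compact set at distance at least `δ` have images at positive distance. -/
theorem exists_sep {f : X → Y} {E : Set X} (hE : IsCompact E) (hf : ContinuousOn f E)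
    (hi : InjOn f E) {δ : ℝ} (hδ : 0 < δ) :
    ∃ d : ℝ, 0 < d ∧ ∀ x ∈ E, ∀ y ∈ E, δ ≤ ‖y - x‖ → d ≤ ‖f y - f x‖ := by
  have hK : IsCompact ((E ×ˢ E) ∩ {p : X × X | δ ≤ ‖p.2 - p.1‖}) :=
    (hE.prod hE).inter_right (isClosed_le continuous_const (by fun_prop))
  have hc : ContinuousOn (fun p : X × X => ‖f p.2 - f p.1‖)
      ((E ×ˢ E) ∩ {p : X × X | δ ≤ ‖p.2 - p.1‖}) := by
    refine ContinuousOn.norm (ContinuousOn.sub ?_ ?_)
    · exact hf.comp continuous_snd.continuousOn fun p hp => hp.1.2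
    · exact hf.comp continuous_fst.continuousOn fun p hp => hp.1.1
  rcases ((E ×ˢ E) ∩ {p : X × X | δ ≤ ‖p.2 - p.1‖}).eq_empty_or_nonempty with he | hne
  · refine ⟨1, one_pos, fun x hx y hy hxy => ?_⟩
    exfalso
    have : (x, y) ∈ (E ×ˢ E) ∩ {p : X × X | δ ≤ ‖p.2 - p.1‖} := ⟨⟨hx, hy⟩, hxy⟩
    rw [he] at this
    exact this
  · obtain ⟨p, hp, hmin⟩ := hK.exists_isMinOn hne hc
    refine ⟨‖f p.2 - f p.1‖, ?_, fun x hx y hy hxy => hmin (show (x, y) ∈ _ from ⟨⟨hx, hy⟩, hxy⟩)⟩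
    rw [norm_pos_iff, sub_ne_zero]
    intro h
    have h1 := hi hp.1.2 hp.1.1 h
    have h2 := hp.2
    simp only [mem_setOf_eq, h1, sub_self, norm_zero] at h2
    linarith

/-- Global lower bound in the directions of `W`. -/
theorem exists_lower {f : X → Y} {F : X → (X →L[ℝ] Y)} {E : Set X} {W : Submodule ℝ X}
    (hE : IsCompact E) (hf : ContinuousOn f E) (hi : InjOn f E) (hU : UDiff f F E)
    {θ : ℝ} (hθ0 : 0 < θ) (hθ : BddBelowDir F E W θ) :
    ∃ c : ℝ, 0 < c ∧ ∀ x ∈ E, ∀ y ∈ E, y - x ∈ W → c * ‖y - x‖ ≤ ‖f y - f x‖ := by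
  obtain ⟨δ, hδ, hd⟩ := hU (θ / 2) (by positivity)
  obtain ⟨d, hd0, hsep⟩ := exists_sep hE hf hi hδ
  obtain ⟨R, hR⟩ := hE.isBounded.exists_norm_le
  have hR0 : 0 < 2 * |R| + 1 := by positivity
  refine ⟨min (θ / 2) (d / (2 * |R| + 1)), by positivity, fun x hx y hy hW => ?_⟩
  rcases lt_or_ge ‖y - x‖ δ with h | h
  · have := lower_local hθ hd hx hy h hW
    calc min (θ / 2) (d / (2 * |R| + 1)) * ‖y - x‖ ≤ (θ / 2) * ‖y - x‖ :=
          mul_le_mul_of_nonneg_right (min_le_left _ _) (norm_nonneg _)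
      _ = (θ - θ / 2) * ‖y - x‖ := by ring
      _ ≤ _ := this
  · have h1 := hsep x hx y hy h
    have h2 : ‖y - x‖ ≤ 2 * |R| + 1 := by
      have := norm_sub_le y x
      have h3 := hR x hx
      have h4 := hR y hy
      have h5 := le_abs_self R
      linarith
    calc min (θ / 2) (d / (2 * |R| + 1)) * ‖y - x‖ ≤ (d / (2 * |R| + 1)) * ‖y - x‖ :=
          mul_le_mul_of_nonneg_right (min_le_right _ _) (norm_nonneg _)
      _ ≤ (d / (2 * |R| + 1)) * (2 * |R| + 1) := by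
          exact mul_le_mul_of_nonneg_left h2 (by positivity)
      _ = d := by field_simp
      _ ≤ _ := h1

/-- Disjoint compact sets have images at positive distance. -/
theorem exists_dist_image {f : X → Y} {K L : Set X} (hK : IsCompact K) (hL : IsCompact L)
    (hf : ContinuousOn f (K ∪ L)) (hi : InjOn f (K ∪ L)) (hKL : Disjoint K L) :
    ∃ d : ℝ, 0 < d ∧ ∀ x ∈ K, ∀ y ∈ L, d ≤ ‖f y - f x‖ := by
  have hK' := hK.image_of_continuousOn (hf.mono subset_union_left)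
  have hL' := hL.image_of_continuousOn (hf.mono subset_union_right)
  have hd : Disjoint (f '' K) (f '' L) := by
    rw [Set.disjoint_left]
    rintro _ ⟨x, hx, rfl⟩ ⟨y, hy, hxy⟩
    have := hi (Or.inr hy) (Or.inl hx) hxy
    subst this
    exact Set.disjoint_left.1 hKL hx hy
  obtain ⟨r, hr, h⟩ := hd.exists_thickenings hK' hL'.isClosed
  refine ⟨r, hr, fun x hx y hy => ?_⟩
  by_contra hlt
  push Not at hlt
  have h1 : f y ∈ thickening r (f '' K) := by
    rw [mem_thickening_iff]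
    exact ⟨f x, mem_image_of_mem f hx, by rwa [dist_eq_norm]⟩
  have h2 : f y ∈ thickening r (f '' L) := self_subset_thickening hr _ (mem_image_of_mem f hy)
  exact Set.disjoint_left.1 h h1 h2

end Vale.Agent.P073.PK
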