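import Vale.Agent.P073.PK.Data

/-!
# P073, packing: sets which are met by few image boxes
-/

set_option linter.unusedSectionVars false

namespace Vale.Agent.P073.PK

open Set Filter Topology Metric MeasureTheory
open scoped ENNReal NNReal
open Vale.Agent.P073.HB

variable {k : ℕ} {Y : Type*} [NormedAddCommGroup Y] [NormedSpace ℝ Y]

open Classical in
/-- The set `K₀` is met by few image boxes of cells of dimension `k`, when the mesh is small. -/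
def Negl (k : ℕ) (K₀ : Set Y) : Prop := ∀ θ : ℝ, 0 < θ → ∀ ε : ℝ≥0∞, ε ≠ 0 →
  ∃ m₀ : ℝ, 0 < m₀ ∧ ∀ m : ℝ, 0 < m → m ≤ m₀ →
    ∀ (g : (Fin k → ℝ) → Y) (G : (Fin k → ℝ) → ((Fin k → ℝ) →L[ℝ] Y))
      (E E' : Set (Fin k → ℝ)) (M η δ d : ℝ) (o : Fin k → ℝ) (r τ ρ : ℝ),
      Pack g G E E' θ M η δ d → Scale θ M η δ d r m τ → m / 2 ≤ ρ → ρ ≤ m →
      ∀ (I : Finset (Fin k → ℤ)) (b : (Fin k → ℤ) → (Fin k → ℝ)), Cells E o r τ I b →
      ((I.filter fun n => ¬ Disjoint (img g G o r ρ b n) K₀).card : ℝ≥0∞) *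
        ENNReal.ofReal m ^ k ≤ ε

theorem negl_empty : Negl k (∅ : Set Y) := by
  classical
  intro θ _ ε _
  refine ⟨1, one_pos, fun m _ _ g G E E' M η δ d o r τ ρ _ _ _ _ I b _ => ?_⟩
  have : (I.filter fun n => ¬ Disjoint (img g G o r ρ b n) (∅ : Set Y)) = ∅ :=
    Finset.filter_eq_empty_iff.2 fun z _ h => h (Set.disjoint_empty _)
  simp

theorem Negl.mono {K₀ K₁ : Set Y} (h : Negl k K₁) (hK : K₀ ⊆ K₁) : Negl k K₀ := by
  classical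
  intro θ hθ ε hε
  obtain ⟨m₀, hm₀, h1⟩ := h θ hθ ε hε
  refine ⟨m₀, hm₀, fun m hm hmm g G E E' M η δ d o r τ ρ hP hS hρ hρ' I b hI => ?_⟩
  refine le_trans ?_ (h1 m hm hmm g G E E' M η δ d o r τ ρ hP hS hρ hρ' I b hI)
  refine mul_le_mul' ?_ le_rfl
  have h2 : (I.filter fun n => ¬ Disjoint (img g G o r ρ b n) K₀) ⊆
      I.filter fun n => ¬ Disjoint (img g G o r ρ b n) K₁ := by
    intro n hn
    obtain ⟨h3, h4⟩ := Finset.mem_filter.1 hn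
    exact Finset.mem_filter.2 ⟨h3, fun h5 => h4 (h5.mono_right hK)⟩
  exact_mod_cast Finset.card_le_card h2

theorem Negl.union {K₀ K₁ : Set Y} (h₀ : Negl k K₀) (h₁ : Negl k K₁) : Negl k (K₀ ∪ K₁) := by
  classical
  intro θ hθ ε hε
  have hε2 : ε / 2 ≠ 0 := by
    rw [Ne, ENNReal.div_eq_zero_iff]
    exact not_or.2 ⟨hε, by norm_num⟩
  obtain ⟨m₀, hm₀, h2⟩ := h₀ θ hθ (ε / 2) hε2
  obtain ⟨m₁, hm₁, h3⟩ := h₁ θ hθ (ε / 2) hε2
  refine ⟨min m₀ m₁, lt_min hm₀ hm₁, fun m hm hmm g G E E' M η δ d o r τ ρ hP hS hρ hρ' I b hI => ?_⟩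
  have h4 := h2 m hm (hmm.trans (min_le_left _ _)) g G E E' M η δ d o r τ ρ hP hS hρ hρ' I b hI
  have h5 := h3 m hm (hmm.trans (min_le_right _ _)) g G E E' M η δ d o r τ ρ hP hS hρ hρ' I b hI
  have h6 : (I.filter fun n => ¬ Disjoint (img g G o r ρ b n) (K₀ ∪ K₁)) ⊆
      (I.filter fun n => ¬ Disjoint (img g G o r ρ b n) K₀) ∪
        I.filter fun n => ¬ Disjoint (img g G o r ρ b n) K₁ := by
    intro n hn
    obtain ⟨h7, h8⟩ := Finset.mem_filter.1 hn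
    rw [disjoint_union_right, not_and_or] at h8
    rw [Finset.mem_union, Finset.mem_filter, Finset.mem_filter]
    tauto
  calc _ ≤ (((I.filter fun n => ¬ Disjoint (img g G o r ρ b n) K₀).card : ℝ≥0∞) +
        (I.filter fun n => ¬ Disjoint (img g G o r ρ b n) K₁).card) * ENNReal.ofReal m ^ k := by
        refine mul_le_mul' ?_ le_rfl
        exact_mod_cast (Finset.card_le_card h6).trans (Finset.card_union_le _ _)
    _ ≤ ε / 2 + ε / 2 := by rw [add_mul]; exact add_le_add h4 h5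
    _ = ε := ENNReal.add_halves ε

/-- Compact null sets, if the dimension of the target is at most `k`. -/
theorem negl_of_null [MeasurableSpace Y] [BorelSpace Y] [FiniteDimensional ℝ Y] {μ : Measure Y}
    [μ.IsAddHaarMeasure] {K : Set Y} (hK : IsCompact K) (hK0 : μ K = 0)
    (hk : Module.finrank ℝ Y ≤ k) : Negl k K := by
  intro θ hθ ε hε
  obtain ⟨m₀, hm₀, h⟩ := exists_card_meet_le (μ := μ) hK hK0 hk hθ hε
  exact ⟨m₀, hm₀, h⟩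

/-- Finitely many curves of finite length, if `k ≥ 2`. -/
theorem negl_curves {ι : Type*} (S : Finset ι) (u : ι → ℝ → Y) (q : ι → ℝ → ℝ≥0∞)
    (hu : ∀ i ∈ S, HasMod (u i) (q i)) (hc : ∀ i ∈ S, ContinuousOn (u i) (Icc 0 1))
    (hq : ∀ i ∈ S, ∫⁻ t in Icc (0 : ℝ) 1, q i t ≠ ⊤) (hk : 2 ≤ k) :
    Negl k (⋃ i ∈ S, u i '' Icc (0 : ℝ) 1) := by
  classical
  intro θ hθ ε hε
  obtain ⟨m₀, hm₀, h⟩ := exists_card_curves_le S u q hu hc hq hk hθ hε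
  refine ⟨m₀, hm₀, fun m hm hmm g G E E' M η δ d o r τ ρ hP hS hρ hρ' I b hI => ?_⟩
  refine le_trans (mul_le_mul' ?_ le_rfl) (h m hm hmm g G E E' M η δ d o r τ ρ hP hS hρ hρ' I b hI)
  have h6 : (I.filter fun n => ¬ Disjoint (img g G o r ρ b n) (⋃ i ∈ S, u i '' Icc (0 : ℝ) 1)) ⊆
      I.filter fun n => ∃ i ∈ S, ∃ t ∈ Icc (0 : ℝ) 1, u i t ∈ img g G o r ρ b n := by
    intro n hn
    obtain ⟨h7, h8⟩ := Finset.mem_filter.1 hn
    obtain ⟨y, hy, hy'⟩ := not_disjoint_iff.1 h8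
    simp only [mem_iUnion] at hy'
    obtain ⟨i, hi, t, ht, rfl⟩ := hy'
    exact Finset.mem_filter.2 ⟨h7, i, hi, t, ht, hy⟩
  exact_mod_cast Finset.card_le_card h6

/-- A good segment is a curve of finite length. -/
theorem GoodSeg.lintegral_ne_top {k' : ℕ} {f : (Fin k' → ℝ) → Y}
    {F : (Fin k' → ℝ) → ((Fin k' → ℝ) →L[ℝ] Y)} {a w : Fin k' → ℝ} (h : HB.GoodSeg f F a w) :
    ∫⁻ t in Icc (0 : ℝ) 1, ‖F (a + t • w) w‖ₑ ≠ ⊤ := by
  have h1 := (intervalIntegrable_iff_integrableOn_Icc_of_le (zero_le_one' ℝ)).1 h.1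
  exact h1.2.ne

/-- Finitely many good segments, if `k ≥ 2`. -/
theorem negl_segments {k' : ℕ} {f : (Fin k' → ℝ) → Y}
    {F : (Fin k' → ℝ) → ((Fin k' → ℝ) →L[ℝ] Y)} {ι : Type*} (S : Finset ι)
    (a w : ι → (Fin k' → ℝ)) (h : ∀ i ∈ S, HB.GoodSeg f F (a i) (w i)) (hk : 2 ≤ k) :
    Negl k (⋃ i ∈ S, (fun t : ℝ => f (a i + t • w i)) '' Icc (0 : ℝ) 1) :=
  negl_curves S (fun i t => f (a i + t • w i)) (fun i t => ‖F (a i + t • w i) (w i)‖ₑ)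
    (fun i hi => (h i hi).hasMod) (fun i hi => (h i hi).continuousOn)
    (fun i hi => GoodSeg.lintegral_ne_top (h i hi)) hk

open Classical in
/-- **The good cells of a fine grid**, all conditions at once: `U₁` is the domain of `g`, `U` the
part in which the cells are chosen, `D` is a closed set away from the image of `E`, `K₀` a
negligible set. -/
theorem exists_grid {g : (Fin k → ℝ) → Y} {G : (Fin k → ℝ) → ((Fin k → ℝ) →L[ℝ] Y)}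
    {E E' U U₁ : Set (Fin k → ℝ)} {θ M η t₀ lam p : ℝ}
    (hU₁ : IsOpen U₁) (hU : IsOpen U) (hUU : U ⊆ U₁) (hg : ContinuousOn g U₁) (hi : InjOn g U₁)
    (hE : IsCompact E) (hE' : IsCompact E') (hEU : E ⊆ U) (hEU' : E' ⊆ U₁) (hdis : Disjoint E E')
    (hud : UDiff g G E) (hG : ContinuousOn G E) (hθ0 : 0 < θ)
    (hθ : ∀ x ∈ E, ∀ v, θ * ‖v‖ ≤ ‖G x v‖) (hM0 : 0 < M)
    (hM : ∀ x ∈ E, ‖G x‖ ≤ M) {N : ℕ} (hN : 0 < N) (hη : 0 < η) (ht₀ : 0 < t₀) (hp : 1 ≤ p)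
    (hlam : 0 < lam)
    (hs : ∀ δ d : ℝ, 0 < δ → 0 < d → ∃ m₀ : ℝ, 0 < m₀ ∧ ∀ m : ℝ, 0 < m → m ≤ m₀ →
        Scale θ M η δ d (N * m) m (t₀ * m)) {D : Set Y} (hD : IsClosed D)
    (hDE : Disjoint (g '' E) D) {K₀ : Set Y} (hK₀ : Negl k K₀) {ε : ℝ≥0∞} (hε : ε ≠ 0) :
    ∃ δ d e m₀ : ℝ, 0 < δ ∧ 0 < d ∧ 0 < e ∧ 0 < m₀ ∧ ∀ m : ℝ, 0 < m → m ≤ m₀ →
      Fine g G E E' U D θ M η t₀ N δ d e m ∧
      ∀ (ρ : ℝ) (o : Fin k → ℝ) (L : Finset ((Fin k → ℤ) × Fin k)) (c : ℝ≥0∞)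
        (I : Finset (Fin k → ℤ)) (b : (Fin k → ℤ) → (Fin k → ℝ)), m / 2 ≤ ρ → ρ ≤ m →
        (∀ l ∈ L, l ∈ edgesIn U o m) → (∀ l ∈ L, GoodSeg g G (ga o m l) (gv m l)) →
        edgeSum (dens G p U (E ∪ E')) o m * ENNReal.ofReal m ^ k ≤
          c * ∫⁻ x, dens G p U (E ∪ E') x →
        (∀ n ∈ I, n ∈ cellsOf E o (N * m)) → (∀ n ∈ I, b n ∈ E) →
        (∀ n ∈ I, b n ∈ closedBall (ctr o (N * m) n) (N * m / 2)) →
        ((I.filter fun n => ¬ Sel g G p E E' K₀ o (N * m) ρ (t₀ * m) lam L m b n).card :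
          ℝ≥0∞) * ENNReal.ofReal (N * m) ^ k ≤
          (ENNReal.ofReal (N / t₀) ^ k + (2 ^ k / ENNReal.ofReal lam +
            ENNReal.ofReal (1 + 16 / θ)) * c * N ^ k) * (∫⁻ x, dens G p U (E ∪ E') x) + ε := by
  have hN' : ((N : ℝ≥0∞) ^ k) ≠ ⊤ := ENNReal.pow_ne_top (ENNReal.natCast_ne_top _)
  have hN0 : ((N : ℝ≥0∞) ^ k) ≠ 0 := pow_ne_zero _ (by exact_mod_cast hN.ne')
  have hεN : ε / (N : ℝ≥0∞) ^ k ≠ 0 := by
    rw [Ne, ENNReal.div_eq_zero_iff]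
    exact not_or.2 ⟨hε, hN'⟩
  obtain ⟨δ, d, e, m₁, hδ, hd, he, hm₁, h1⟩ := exists_fine hU₁ hg hi hE hE' (hEU.trans hUU) hEU'
    hdis hud hG hθ hM0 hM hN hη hs hD hDE
  obtain ⟨s, hs0, h2⟩ := hE.exists_cthickening_subset_open hU hEU
  obtain ⟨m₂, hm₂, h3⟩ := hK₀ θ hθ0 (ε / (N : ℝ≥0∞) ^ k) hεN
  have hNR : (0 : ℝ) < N := by exact_mod_cast hN
  refine ⟨δ, d, e, min m₁ (min (s / N) m₂), hδ, hd, he, by positivity, ?_⟩
  intro m hm hmm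
  have ha : m ≤ m₁ := hmm.trans (min_le_left _ _)
  have hb : m ≤ s / N := hmm.trans ((min_le_right _ _).trans (min_le_left _ _))
  have hc : m ≤ m₂ := hmm.trans ((min_le_right _ _).trans (min_le_right _ _))
  rw [le_div_iff₀ hNR] at hb
  have hF₁ := h1 m hm ha
  have hF : Fine g G E E' U D θ M η t₀ N δ d e m :=
    ⟨hF₁.pack, hF₁.scale, fun x hx => ⟨h2 (cthickening_mono (by linarith) E hx),
      (hF₁.thick hx).2⟩, hF₁.img⟩
  refine ⟨hF, ?_⟩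
  intro ρ o L c I b hρ hρ' hL hgood ho hI hbE hbn
  refine (card_not_sel_le hF hN hθ0 hρ hρ' hE hE' ht₀ hp hlam hU.measurableSet hL hgood ho hI hbE
    hbn (fun I' hI' => h3 m hm hc g G E E' M η δ d o (N * m) (t₀ * m) ρ hF.pack hF.scale hρ hρ'
      I' b hI')).trans_eq ?_
  rw [ENNReal.mul_div_cancel hN0 hN']

end Vale.Agent.P073.PK
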