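import Vale.Agent.P073.PK.Avoid
import Mathlib.MeasureTheory.Measure.Lebesgue.EqHaar

/-!
# P073, packing: the images of almost all planes are null sets
-/

set_option linter.unusedSectionVars false

namespace Vale.Agent.P073.PK

open Set Filter Topology Metric MeasureTheory
open scoped ENNReal NNReal

/-- A level set of a non-zero linear form is a null set. -/
theorem volume_level {k : ℕ} {φ : (Fin k → ℝ) →ₗ[ℝ] ℝ} (hφ : φ ≠ 0) (t : ℝ) :
    volume {o : Fin k → ℝ | φ o = t} = 0 := by
  rcases eq_empty_or_nonempty {o : Fin k → ℝ | φ o = t} with h | ⟨o₀, ho₀⟩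
  · rw [h, measure_empty]
  · have h1 : {o : Fin k → ℝ | φ o = t} =
        (fun o => o + (-o₀)) ⁻¹' (LinearMap.ker φ : Set (Fin k → ℝ)) := by
      ext o
      have ho₀' : φ o₀ = t := ho₀
      simp only [mem_ofPred_eq, mem_preimage, SetLike.mem_coe, LinearMap.mem_ker, map_add, map_neg,
        ho₀']
      constructor
      · intro h; rw [h]; ring
      · intro h; linarith
    rw [h1, measure_preimage_add_right]
    refine Measure.addHaar_submodule _ _ fun h2 => hφ ?_
    exact LinearMap.ker_eq_top.1 h2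

/-- The linear form with coefficients `ν`. -/
noncomputable def lin {k : ℕ} (ν : Fin k → ℝ) : (Fin k → ℝ) →ₗ[ℝ] ℝ where
  toFun x := ∑ i, ν i * x i
  map_add' x y := by simp only [Pi.add_apply, mul_add, Finset.sum_add_distrib]
  map_smul' c x := by
    simp only [Pi.smul_apply, smul_eq_mul, RingHom.id_apply, Finset.mul_sum]
    exact Finset.sum_congr rfl fun i _ => by ring

theorem lin_apply {k : ℕ} (ν x : Fin k → ℝ) : lin ν x = ∑ i, ν i * x i := rfl

theorem lin_ne_zero {k : ℕ} {ν : Fin k → ℝ} (hν : ν ≠ 0) : lin ν ≠ 0 := by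
  intro h
  apply hν
  funext i
  have h1 := LinearMap.congr_fun h (Pi.single i 1)
  rw [lin_apply, LinearMap.zero_apply] at h1
  rw [Finset.sum_eq_single i] at h1
  · simpa using h1
  · intro j _ hj
    rw [Pi.single_eq_of_ne hj, mul_zero]
  · intro h; exact absurd (Finset.mem_univ i) h

/-- **The images of the rational planes with a generic origin are null sets.** -/
theorem ae_null_planes {k : ℕ} {Y : Type*} [TopologicalSpace Y] [MeasurableSpace Y]
    [BorelSpace Y] {μ : Measure Y} [SFinite μ] {Ω : Set (Fin k → ℝ)} {Λ : Set Y}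
    {f : (Fin k → ℝ) → Y} {g : Y → (Fin k → ℝ)} (hΛ : IsOpen Λ)
    (hg : ContinuousOn g Λ) (hfΛ : MapsTo f Ω Λ) (hgf : ∀ x ∈ Ω, g (f x) = x) :
    ∀ᵐ o : Fin k → ℝ, ∀ (ν : Fin k → ℚ) (c : ℚ), ν ≠ 0 →
      μ (f '' (Ω ∩ {x | ∑ i, (ν i : ℝ) * (x i - o i) = c})) = 0 := by
  rw [ae_all_iff]
  intro ν
  rw [ae_all_iff]
  intro c
  by_cases hν : ν = 0
  · exact ae_of_all _ fun o h => absurd hν h
  set ν' : Fin k → ℝ := fun i => ν i with hν'
  have hν'0 : ν' ≠ 0 := by
    intro h
    apply hν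
    funext i
    have := congr_fun h i
    simp only [hν', Pi.zero_apply] at this
    exact_mod_cast this
  set S : Set ℝ := {t | 0 < μ.restrict Λ {y | lin ν' (g y) = t}} with hS
  have hc : Continuous (lin ν') := LinearMap.continuous_of_finiteDimensional _
  have hSc : S.Countable := by
    refine Measure.countable_meas_level_set_pos₀ (g := fun y => lin ν' (g y)) ?_
    exact ((hc.comp_continuousOn hg).aemeasurable hΛ.measurableSet).nullMeasurable
  have hnull : volume {o : Fin k → ℝ | lin ν' o + c ∈ S} = 0 := by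
    have h1 : {o : Fin k → ℝ | lin ν' o + c ∈ S} ⊆ ⋃ t ∈ S, {o | lin ν' o = t - c} := by
      intro o ho
      exact mem_biUnion (x := lin ν' o + c) ho (by simp)
    refine measure_mono_null h1 ?_
    rw [measure_biUnion_null_iff hSc]
    intro t _
    exact volume_level (lin_ne_zero hν'0) _
  rw [ae_iff]
  refine measure_mono_null ?_ hnull
  intro o ho
  simp only [mem_ofPred_eq, Classical.not_imp] at ho
  have ho := ho.2
  show 0 < μ.restrict Λ {y | lin ν' (g y) = lin ν' o + c}
  rw [Measure.restrict_apply' hΛ.measurableSet]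
  refine lt_of_lt_of_le (pos_iff_ne_zero.2 ho) (measure_mono ?_)
  rintro _ ⟨x, ⟨hx, hx'⟩, rfl⟩
  refine ⟨?_, hfΛ hx⟩
  simp only [mem_ofPred_eq] at hx' ⊢
  rw [hgf x hx, lin_apply, lin_apply]
  have e : ∑ i, (ν i : ℝ) * (x i - o i) = ∑ i, ν' i * x i - ∑ i, ν' i * o i := by
    rw [← Finset.sum_sub_distrib]
    exact Finset.sum_congr rfl fun i _ => by rw [hν']; ring
  rw [e] at hx'
  linarith

/-- A coordinate plane is one of the rational planes. -/
theorem null_coord_plane {k : ℕ} {Y : Type*} [MeasurableSpace Y] {μ : Measure Y}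
    {Ω : Set (Fin k → ℝ)} {f : (Fin k → ℝ) → Y} {o : Fin k → ℝ}
    (h : ∀ (ν : Fin k → ℚ) (c : ℚ), ν ≠ 0 →
      μ (f '' (Ω ∩ {x | ∑ i, (ν i : ℝ) * (x i - o i) = c})) = 0) (i : Fin k) (c : ℚ) :
    μ (f '' (Ω ∩ {x | x i = o i + c})) = 0 := by
  have h1 := h (Pi.single i 1) c (by simp)
  have hset : {x : Fin k → ℝ | x i = o i + c} =
      {x | ∑ j, ((Pi.single i (1 : ℚ) : Fin k → ℚ) j : ℝ) * (x j - o j) = c} := by
    ext x
    have e : ∑ j, ((Pi.single i (1 : ℚ) : Fin k → ℚ) j : ℝ) * (x j - o j) = x i - o i := by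
      rw [Finset.sum_eq_single i]
      · simp
      · intro j _ hj
        rw [Pi.single_eq_of_ne hj]
        simp
      · intro h; exact absurd (Finset.mem_univ i) h
    simp only [mem_ofPred_eq]
    rw [e]
    exact ⟨fun h => by linarith, fun h => by linarith⟩
  rw [hset]
  exact h1

/-- A segment between points of `o + ℚ ^ k` is contained in a rational plane, if `k ≥ 2`. -/
theorem null_rational_segment {k : ℕ} {Y : Type*} [MeasurableSpace Y] {μ : Measure Y}
    {Ω : Set (Fin k → ℝ)} {f : (Fin k → ℝ) → Y} {o : Fin k → ℝ} (hk : 2 ≤ k)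
    (h : ∀ (ν : Fin k → ℚ) (c : ℚ), ν ≠ 0 →
      μ (f '' (Ω ∩ {x | ∑ i, (ν i : ℝ) * (x i - o i) = c})) = 0) (a b : Fin k → ℚ) :
    μ (f '' (Ω ∩ segment ℝ (fun i => o i + a i) (fun i => o i + b i))) = 0 := by
  -- a non-zero rational vector orthogonal to `b - a`
  obtain ⟨ν, hν, hνw⟩ : ∃ ν : Fin k → ℚ, ν ≠ 0 ∧ ∑ i, ν i * (b i - a i) = 0 := by
    set i₀ : Fin k := ⟨0, by omega⟩ with hi₀
    set i₁ : Fin k := ⟨1, by omega⟩ with hi₁
    have hne : i₀ ≠ i₁ := by simp [hi₀, hi₁, Fin.ext_iff]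
    by_cases hw : b i₀ - a i₀ = 0
    · refine ⟨Pi.single i₀ 1, by simp, ?_⟩
      rw [Finset.sum_eq_single i₀]
      · rw [hw, mul_zero]
      · intro j _ hj
        rw [Pi.single_eq_of_ne hj, zero_mul]
      · intro h; exact absurd (Finset.mem_univ _) h
    · refine ⟨Pi.single i₁ (b i₀ - a i₀) - Pi.single i₀ (b i₁ - a i₁), ?_, ?_⟩
      · intro h0
        apply hw
        have := congr_fun h0 i₁
        simpa [Pi.single_eq_of_ne hne.symm] using this
      · simp only [Pi.sub_apply, sub_mul, Finset.sum_sub_distrib]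
        rw [Finset.sum_eq_single i₁, Finset.sum_eq_single i₀]
        · simp only [Pi.single_eq_same]; ring
        · intro j _ hj
          rw [Pi.single_eq_of_ne hj, zero_mul]
        · intro h; exact absurd (Finset.mem_univ _) h
        · intro j _ hj
          rw [Pi.single_eq_of_ne hj, zero_mul]
        · intro h; exact absurd (Finset.mem_univ _) h
  refine measure_mono_null (image_mono (inter_subset_inter_right _ ?_))
    (h ν (∑ i, ν i * a i) hν)
  rintro x ⟨s, t, -, -, hst, rfl⟩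
  simp only [mem_ofPred_eq, Pi.add_apply, Pi.smul_apply, smul_eq_mul]
  have h2 : (∑ i, (ν i : ℝ) * (b i - a i) : ℝ) = 0 := by exact_mod_cast hνw
  have e : ∀ i, (ν i : ℝ) * (s * (o i + a i) + t * (o i + b i) - o i) =
      ν i * a i + t * (ν i * (b i - a i)) := by
    intro i
    have : s = 1 - t := by linarith
    rw [this]; ring
  simp only [e]
  rw [Finset.sum_add_distrib, ← Finset.mul_sum, h2, mul_zero, add_zero]
  push_cast
  rfl

end Vale.Agent.P073.PK
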