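import Vale.Agent.P073.PK.Lower
import Mathlib.LinearAlgebra.FiniteDimensional.Lemmas
import Mathlib.LinearAlgebra.Dimension.FreeAndStrongRankCondition
import Mathlib.Topology.Sequences

/-!
# P073, packing: the kind of a linear map of three-space

`three`: bounded below; `two i`: the kernel contains a vector of sup norm one with `i`-th
coordinate one and the map is bounded below on the plane `v i = 0`; `one i`: the map is a multiple,
with coefficients at most one, of its value on the `i`-th basis vector; `zero`.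
-/

namespace Vale.Agent.P073.PK

open Set Filter Topology Metric

/-- The kind of a linear map. -/
inductive Kind : Type
  | three : Kind
  | two (i : Fin 3) : Kind
  | one (i : Fin 3) : Kind
  | zero : Kind
  deriving DecidableEq, Fintype

variable {Y : Type*} [NormedAddCommGroup Y] [NormedSpace ℝ Y]

/-- The basis vector. -/
def ee (i : Fin 3) : Fin 3 → ℝ := Pi.single i 1

/-- The map `A` is of the given kind, with constants `θ`, `M`. -/
def HasKind : Kind → ℝ → ℝ → ((Fin 3 → ℝ) →L[ℝ] Y) → Prop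
  | .three, θ, M, A => ‖A‖ ≤ M ∧ ∀ v, θ * ‖v‖ ≤ ‖A v‖
  | .two i, θ, M, A => ‖A‖ ≤ M ∧ (∀ v, v i = 0 → θ * ‖v‖ ≤ ‖A v‖) ∧
      ∃ κ : Fin 3 → ℝ, ‖κ‖ ≤ 1 ∧ κ i = 1 ∧ A κ = 0
  | .one i, θ, M, A => ‖A‖ ≤ M ∧ θ ≤ ‖A (ee i)‖ ∧
      ∃ c : Fin 3 → ℝ, ‖c‖ ≤ 1 ∧ c i = 1 ∧ ∀ v, A v = (∑ j, c j * v j) • A (ee i)
  | .zero, _, M, A => ‖A‖ ≤ M ∧ A = 0

theorem HasKind.bound {κ : Kind} {θ M : ℝ} {A : (Fin 3 → ℝ) →L[ℝ] Y} (h : HasKind κ θ M A) :
    ‖A‖ ≤ M := by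
  cases κ <;> exact h.1

theorem HasKind.mono {κ : Kind} {θ θ' M M' : ℝ} {A : (Fin 3 → ℝ) →L[ℝ] Y} (h : HasKind κ θ M A)
    (hθ : θ' ≤ θ) (hM : M ≤ M') : HasKind κ θ' M' A := by
  cases κ with
  | three => exact ⟨h.1.trans hM, fun v => (mul_le_mul_of_nonneg_right hθ (norm_nonneg _)).trans (h.2 v)⟩
  | two i => exact ⟨h.1.trans hM,
      fun v hv => (mul_le_mul_of_nonneg_right hθ (norm_nonneg _)).trans (h.2.1 v hv), h.2.2⟩
  | one i => exact ⟨h.1.trans hM, hθ.trans h.2.1, h.2.2⟩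
  | zero => exact ⟨h.1.trans hM, h.2⟩

theorem isClosed_hasKind (κ : Kind) (θ M : ℝ) :
    IsClosed {A : (Fin 3 → ℝ) →L[ℝ] Y | HasKind κ θ M A} := by
  have hM : IsClosed {A : (Fin 3 → ℝ) →L[ℝ] Y | ‖A‖ ≤ M} := isClosed_le continuous_norm continuous_const
  have hev : ∀ v : Fin 3 → ℝ, Continuous fun A : (Fin 3 → ℝ) →L[ℝ] Y => A v := fun v => by fun_prop
  have hball : IsCompact (closedBall (0 : Fin 3 → ℝ) 1) := isCompact_closedBall 0 1
  cases κ with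
  | three =>
    have : {A : (Fin 3 → ℝ) →L[ℝ] Y | HasKind .three θ M A} =
        {A | ‖A‖ ≤ M} ∩ ⋂ v : Fin 3 → ℝ, {A | θ * ‖v‖ ≤ ‖A v‖} := by
      ext A; simp [HasKind]
    rw [this]
    exact hM.inter (isClosed_iInter fun v => isClosed_le continuous_const (hev v).norm)
  | two i =>
    have : {A : (Fin 3 → ℝ) →L[ℝ] Y | HasKind (.two i) θ M A} =
        ({A | ‖A‖ ≤ M} ∩ ⋂ v : Fin 3 → ℝ, {A | v i = 0 → θ * ‖v‖ ≤ ‖A v‖}) ∩
          Prod.snd '' ((closedBall (0 : Fin 3 → ℝ) 1 ×ˢ (univ : Set ((Fin 3 → ℝ) →L[ℝ] Y))) ∩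
            {q | q.1 i = 1 ∧ q.2 q.1 = 0}) := by
      ext A
      simp only [HasKind, mem_ofPred_eq, mem_inter_iff, mem_iInter, mem_image, mem_prod,
        mem_closedBall, dist_zero_right, mem_univ, and_true, Prod.exists]
      constructor
      · rintro ⟨h1, h2, κ, h3, h4, h5⟩
        exact ⟨⟨h1, h2⟩, κ, A, ⟨h3, h4, h5⟩, rfl⟩
      · rintro ⟨⟨h1, h2⟩, κ, A', ⟨h3, h4, h5⟩, rfl⟩
        exact ⟨h1, h2, κ, h3, h4, h5⟩
    rw [this]
    refine (hM.inter (isClosed_iInter fun v => ?_)).inter ?_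
    · by_cases hv : v i = 0
      · simp only [hv, forall_const]
        exact isClosed_le continuous_const (hev v).norm
      · simp [hv]
    · have hcl : IsClosed {q : (Fin 3 → ℝ) × ((Fin 3 → ℝ) →L[ℝ] Y) | q.1 i = 1 ∧ q.2 q.1 = 0} := by
        refine IsClosed.inter ?_ ?_
        · exact isClosed_eq (by fun_prop) continuous_const
        · exact isClosed_eq (continuous_snd.clm_apply continuous_fst) continuous_const
      have : CompactSpace (closedBall (0 : Fin 3 → ℝ) 1) := isCompact_iff_compactSpace.1 hball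
      have himg : Prod.snd '' ((closedBall (0 : Fin 3 → ℝ) 1 ×ˢ (univ : Set ((Fin 3 → ℝ) →L[ℝ] Y))) ∩
            {q | q.1 i = 1 ∧ q.2 q.1 = 0}) =
          Prod.snd '' ((fun q : (closedBall (0 : Fin 3 → ℝ) 1) × ((Fin 3 → ℝ) →L[ℝ] Y) =>
            ((q.1 : Fin 3 → ℝ), q.2)) ⁻¹' {q | q.1 i = 1 ∧ q.2 q.1 = 0}) := by
        ext A
        constructor
        · rintro ⟨⟨κ, A'⟩, ⟨⟨h1, -⟩, h2⟩, rfl⟩
          exact ⟨(⟨κ, h1⟩, A'), h2, rfl⟩
        · rintro ⟨⟨⟨κ, h1⟩, A'⟩, h2, rfl⟩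
          exact ⟨(κ, A'), ⟨⟨h1, trivial⟩, h2⟩, rfl⟩
      rw [himg]
      exact isClosedMap_snd_of_compactSpace _ (hcl.preimage (by fun_prop))
  | one i =>
    have : {A : (Fin 3 → ℝ) →L[ℝ] Y | HasKind (.one i) θ M A} =
        ({A | ‖A‖ ≤ M} ∩ {A | θ ≤ ‖A (ee i)‖}) ∩
          Prod.snd '' ((closedBall (0 : Fin 3 → ℝ) 1 ×ˢ (univ : Set ((Fin 3 → ℝ) →L[ℝ] Y))) ∩
            {q | q.1 i = 1 ∧ ∀ v, q.2 v = (∑ j, q.1 j * v j) • q.2 (ee i)}) := by
      ext A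
      simp only [HasKind, mem_ofPred_eq, mem_inter_iff, mem_image, mem_prod,
        mem_closedBall, dist_zero_right, mem_univ, and_true, Prod.exists]
      constructor
      · rintro ⟨h1, h2, κ, h3, h4, h5⟩
        exact ⟨⟨h1, h2⟩, κ, A, ⟨h3, h4, h5⟩, rfl⟩
      · rintro ⟨⟨h1, h2⟩, κ, A', ⟨h3, h4, h5⟩, rfl⟩
        exact ⟨h1, h2, κ, h3, h4, h5⟩
    rw [this]
    refine (hM.inter (isClosed_le continuous_const (hev _).norm)).inter ?_
    have hcl : IsClosed {q : (Fin 3 → ℝ) × ((Fin 3 → ℝ) →L[ℝ] Y) | q.1 i = 1 ∧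
        ∀ v, q.2 v = (∑ j, q.1 j * v j) • q.2 (ee i)} := by
      refine IsClosed.inter ?_ ?_
      · exact isClosed_eq (by fun_prop) continuous_const
      · have : {q : (Fin 3 → ℝ) × ((Fin 3 → ℝ) →L[ℝ] Y) | ∀ v, q.2 v = (∑ j, q.1 j * v j) • q.2 (ee i)} =
            ⋂ v : Fin 3 → ℝ, {q | q.2 v = (∑ j, q.1 j * v j) • q.2 (ee i)} := by
          ext q; simp
        change IsClosed {q : (Fin 3 → ℝ) × ((Fin 3 → ℝ) →L[ℝ] Y) | ∀ v, q.2 v = (∑ j, q.1 j * v j) • q.2 (ee i)}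
        rw [this]
        exact isClosed_iInter fun v => isClosed_eq (by fun_prop) (by fun_prop)
    have : CompactSpace (closedBall (0 : Fin 3 → ℝ) 1) := isCompact_iff_compactSpace.1 hball
    have himg : Prod.snd '' ((closedBall (0 : Fin 3 → ℝ) 1 ×ˢ (univ : Set ((Fin 3 → ℝ) →L[ℝ] Y))) ∩
          {q | q.1 i = 1 ∧ ∀ v, q.2 v = (∑ j, q.1 j * v j) • q.2 (ee i)}) =
        Prod.snd '' ((fun q : (closedBall (0 : Fin 3 → ℝ) 1) × ((Fin 3 → ℝ) →L[ℝ] Y) =>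
          ((q.1 : Fin 3 → ℝ), q.2)) ⁻¹' {q | q.1 i = 1 ∧
            ∀ v, q.2 v = (∑ j, q.1 j * v j) • q.2 (ee i)}) := by
      ext A
      constructor
      · rintro ⟨⟨κ, A'⟩, ⟨⟨h1, -⟩, h2⟩, rfl⟩
        exact ⟨(⟨κ, h1⟩, A'), h2, rfl⟩
      · rintro ⟨⟨⟨κ, h1⟩, A'⟩, h2, rfl⟩
        exact ⟨(κ, A'), ⟨⟨h1, trivial⟩, h2⟩, rfl⟩
    rw [himg]
    exact isClosedMap_snd_of_compactSpace _ (hcl.preimage (by fun_prop))
  | zero =>
    exact hM.inter (isClosed_eq continuous_id continuous_const)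

/-- Every linear map is of some kind. -/
theorem exists_hasKind (A : (Fin 3 → ℝ) →L[ℝ] Y) : ∃ κ θ, 0 < θ ∧ HasKind κ θ ‖A‖ A := by
  have hbd : ∀ W : Submodule ℝ (Fin 3 → ℝ), (∀ v ∈ W, A v = 0 → v = 0) →
      ∃ θ : ℝ, 0 < θ ∧ ∀ v ∈ W, θ * ‖v‖ ≤ ‖A v‖ := fun W hW => by
    obtain ⟨θ, hθ, h⟩ := exists_bddBelowDir (F := fun _ : Fin 3 → ℝ => A) (E := {0})
      isCompact_singleton continuousOn_const W (fun x _ => hW)
    exact ⟨θ, hθ, h 0 rfl⟩
  by_cases hk : ∀ v, A v = 0 → v = 0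
  · obtain ⟨θ, hθ, h⟩ := hbd ⊤ fun v _ => hk v
    exact ⟨.three, θ, hθ, le_rfl, fun v => h v trivial⟩
  push Not at hk
  obtain ⟨u, hu, hu0⟩ := hk
  -- normalise the kernel vector
  have hscale : ∀ u : Fin 3 → ℝ, u ≠ 0 → ∃ i, ∃ t : ℝ, t ≠ 0 ∧ ‖t • u‖ ≤ 1 ∧ (t • u) i = 1 := by
    intro u hu0
    obtain ⟨i, -, hi⟩ := Finset.exists_max_image Finset.univ (fun i => |u i|) ⟨0, Finset.mem_univ _⟩
    have hne : u i ≠ 0 := by
      intro h0
      refine hu0 (funext fun j => ?_)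
      have := hi j (Finset.mem_univ _)
      rw [h0, abs_zero] at this
      exact abs_nonpos_iff.1 this
    refine ⟨i, (u i)⁻¹, inv_ne_zero hne, ?_, by simp [hne]⟩
    rw [pi_norm_le_iff_of_nonneg zero_le_one]
    intro j
    rw [Pi.smul_apply, smul_eq_mul, Real.norm_eq_abs, abs_mul, abs_inv]
    have h1 := hi j (Finset.mem_univ _)
    have h2 : 0 < |u i| := abs_pos.2 hne
    rw [inv_mul_le_iff₀ h2, mul_one]
    exact h1
  obtain ⟨i, t, ht, hκ1, hκi⟩ := hscale u hu0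
  have hκ : A (t • u) = 0 := by rw [map_smul, hu, smul_zero]
  by_cases hW : ∀ v : Fin 3 → ℝ, v i = 0 → A v = 0 → v = 0
  · obtain ⟨θ, hθ, h⟩ := hbd (LinearMap.ker (LinearMap.proj i : (Fin 3 → ℝ) →ₗ[ℝ] ℝ))
      fun v hv => hW v (by simpa using hv)
    exact ⟨.two i, θ, hθ, le_rfl, fun v hv => h v (by simpa using hv), t • u, hκ1, hκi, hκ⟩
  push Not at hW
  obtain ⟨w, hwi, hw, hw0⟩ := hW
  by_cases hA : A = 0
  · exact ⟨.zero, 1, one_pos, le_rfl, hA⟩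
  -- the range has dimension at most one
  have hli : LinearIndependent ℝ ![t • u, w] := by
    rw [LinearIndependent.pair_iff]
    intro a b hab
    have h1 := congrFun hab i
    simp only [Pi.add_apply, Pi.zero_apply] at h1
    rw [Pi.smul_apply, hκi, Pi.smul_apply, hwi, smul_zero, add_zero, smul_eq_mul, mul_one] at h1
    refine ⟨h1, ?_⟩
    rw [h1, zero_smul, zero_add] at hab
    exact (smul_eq_zero.1 hab).resolve_right hw0
  have hker : 2 ≤ Module.finrank ℝ (LinearMap.ker (A : (Fin 3 → ℝ) →ₗ[ℝ] Y)) := by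
    have h1 : ∀ j, ![t • u, w] j ∈ LinearMap.ker (A : (Fin 3 → ℝ) →ₗ[ℝ] Y) := by
      intro j
      fin_cases j
      · exact hκ
      · exact hw
    have h2 : LinearIndependent ℝ (fun j => (⟨![t • u, w] j, h1 j⟩ :
        LinearMap.ker (A : (Fin 3 → ℝ) →ₗ[ℝ] Y))) := by
      refine LinearIndependent.of_comp (LinearMap.ker (A : (Fin 3 → ℝ) →ₗ[ℝ] Y)).subtype ?_
      exact hli
    simpa using h2.fintype_card_le_finrank
  have hrange : Module.finrank ℝ (LinearMap.range (A : (Fin 3 → ℝ) →ₗ[ℝ] Y)) ≤ 1 := by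
    have := LinearMap.finrank_range_add_finrank_ker (A : (Fin 3 → ℝ) →ₗ[ℝ] Y)
    rw [Module.finrank_fin_fun] at this
    omega
  obtain ⟨l, -, hl⟩ := Finset.exists_max_image Finset.univ (fun j => ‖A (ee j)‖) ⟨0, Finset.mem_univ _⟩
  have hsum : ∀ v : Fin 3 → ℝ, A v = ∑ j, v j • A (ee j) := by
    intro v
    have : v = ∑ j, v j • ee j := by
      funext q
      simp [ee, Finset.sum_apply, Pi.single_apply]
    conv_lhs => rw [this]
    rw [map_sum]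
    simp only [map_smul]
  have hne : A (ee l) ≠ 0 := by
    intro h0
    refine hA (ContinuousLinearMap.ext fun v => ?_)
    rw [hsum v]
    refine Finset.sum_eq_zero fun j _ => ?_
    have := hl j (Finset.mem_univ _)
    rw [h0, norm_zero] at this
    rw [norm_le_zero_iff.1 this, smul_zero]
  have hc : ∀ j, ∃ c : ℝ, c • A (ee l) = A (ee j) := by
    intro j
    have h1 : (⟨A (ee l), ⟨ee l, rfl⟩⟩ : LinearMap.range (A : (Fin 3 → ℝ) →ₗ[ℝ] Y)) ≠ 0 := by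
      intro h; exact hne (congrArg Subtype.val h)
    have h2 : Module.finrank ℝ (LinearMap.range (A : (Fin 3 → ℝ) →ₗ[ℝ] Y)) = 1 := by
      refine le_antisymm hrange ?_
      have : Nontrivial (LinearMap.range (A : (Fin 3 → ℝ) →ₗ[ℝ] Y)) := ⟨⟨_, _, h1⟩⟩
      exact Module.finrank_pos
    obtain ⟨c, hc⟩ := (finrank_eq_one_iff_of_nonzero' _ h1).1 h2 ⟨A (ee j), ⟨ee j, rfl⟩⟩
    exact ⟨c, congrArg Subtype.val hc⟩
  choose c hc using hc
  have hnorm : 0 < ‖A (ee l)‖ := norm_pos_iff.2 hne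
  refine ⟨.one l, ‖A (ee l)‖, hnorm, le_rfl, le_rfl, c, ?_, ?_, fun v => ?_⟩
  · rw [pi_norm_le_iff_of_nonneg zero_le_one]
    intro j
    have h1 := hl j (Finset.mem_univ _)
    rw [← hc j, norm_smul] at h1
    nlinarith
  · have h1 := hc l
    have h2 : (c l - 1) • A (ee l) = 0 := by rw [sub_smul, one_smul, h1, sub_self]
    have := (smul_eq_zero.1 h2).resolve_right hne
    linarith
  · rw [hsum v, Finset.sum_smul]
    refine Finset.sum_congr rfl fun j _ => ?_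
    rw [← hc j, smul_smul, mul_comm]

end Vale.Agent.P073.PK
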