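import Vale.Agent.P073.PK.Cells
import Vale.Agent.P073.PK.Hits
import Vale.Agent.P073.HB.Acl4

/-!
# P073, packing: the fine net of a good cell, and the number of cells hit by foreign strands
-/

namespace Vale.Agent.P073.PK

open Set Filter Topology Metric MeasureTheory
open scoped ENNReal NNReal
open Vale.Agent.P073.HB

variable {k : ℕ} {Y : Type*} [NormedAddCommGroup Y] [NormedSpace ℝ Y]

/-- The scales: cells of side `r`, fine mesh `m`, density `τ`. -/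
structure Scale (θ M η δ d r m τ : ℝ) : Prop where
  m_pos : 0 < m
  m_le : 2 * m ≤ r
  τ_nonneg : 0 ≤ τ
  τ_le : τ ≤ m / 4
  η_nonneg : 0 ≤ η
  η_le : η ≤ θ / 2
  small : η * r + M * τ ≤ θ * m / 32
  r_lt : r < δ
  d_ge : 2 * θ * m ≤ d
  d_ge' : θ * r ≤ d

namespace Scale
variable {θ M η δ d r m τ : ℝ}

theorem θ_nonneg (h : Scale θ M η δ d r m τ) : 0 ≤ θ := by
  have := h.η_nonneg; have := h.η_le; linarith

theorem r_nonneg (h : Scale θ M η δ d r m τ) : 0 ≤ r := by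
  have := h.m_pos; have := h.m_le; linarith

end Scale

namespace Pack

variable {g : (Fin k → ℝ) → Y} {G : (Fin k → ℝ) → ((Fin k → ℝ) →L[ℝ] Y)}
  {E E' : Set (Fin k → ℝ)} {θ M η δ d : ℝ} {o : Fin k → ℝ} {r m τ ρ : ℝ}

theorem box_sep_scale (h : Pack g G E E' θ M η δ d) (hs : Scale θ M η δ d r m τ)
    (hρ : m / 2 ≤ ρ) (hρ' : ρ ≤ m) {n n' : Fin k → ℤ} (hnn : n ≠ n')
    (hn : Dense E o r τ n) (hn' : Dense E o r τ n') {b b' : Fin k → ℝ} (hb : b ∈ E)
    (hbn : b ∈ closedBall (ctr o r n) (r / 2)) (hb' : b' ∈ E)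
    (hbn' : b' ∈ closedBall (ctr o r n') (r / 2))
    {z z' : Fin k → ℝ} (hz : z ∈ box o r ρ n) (hz' : z' ∈ box o r ρ n') :
    θ * m / 8 ≤ ‖aff g G b' z' - aff g G b z‖ := by
  have hθ := hs.θ_nonneg
  have h1 := hs.m_pos
  have h2 := hs.τ_nonneg
  have h3 := hs.τ_le
  have h4 := hs.η_nonneg
  have h5 := hs.η_le
  have h6 := hs.small
  have h7 := hs.d_ge
  refine le_trans ?_ (h.box_sep hs.η_nonneg hs.r_nonneg hs.r_lt (by linarith) hnn hn hn' hb hbn hb'
    hbn' ?_ (by linarith) hz hz')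
  · have h8 : (θ / 2) * (m / 2) ≤ (θ - η) * (2 * ρ - 2 * τ) :=
      mul_le_mul (by linarith) (by linarith) (by linarith) (by linarith)
    have h9 : 0 ≤ θ * m := by positivity
    linarith
  · calc (θ - η) * (2 * ρ - 2 * τ) ≤ θ * (2 * m) :=
          mul_le_mul (by linarith) (by linarith) (by linarith) hθ
      _ ≤ d := by linarith

theorem foreign_sep_scale (h : Pack g G E E' θ M η δ d) (hs : Scale θ M η δ d r m τ)
    (hρ : m / 2 ≤ ρ) (hρ' : ρ ≤ m) {n : Fin k → ℤ} (hn : Dense E o r τ n) {b : Fin k → ℝ}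
    (hb : b ∈ E) (hbn : b ∈ closedBall (ctr o r n) (r / 2)) {y : Fin k → ℝ}
    (hy : y ∈ E ∧ y ∉ ball (ctr o r n) (r / 2) ∨ y ∈ E') {z : Fin k → ℝ}
    (hz : z ∈ box o r ρ n) : θ * m / 16 ≤ ‖g y - aff g G b z‖ := by
  have hθ := hs.θ_nonneg
  have h1 := hs.m_pos
  have h2 := hs.τ_nonneg
  have h3 := hs.τ_le
  have h4 := hs.η_nonneg
  have h5 := hs.η_le
  have h6 := hs.small
  have h7 := hs.d_ge
  rcases hy with ⟨hy, hyn⟩ | hy
  · refine le_trans ?_ (h.foreign_sep hs.η_nonneg hs.r_lt (by linarith) hn hb hbn ?_ (by linarith)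
      hy hyn hz)
    · have h8 : (θ / 2) * (m / 4) ≤ (θ - η) * (ρ - τ) :=
        mul_le_mul (by linarith) (by linarith) (by linarith) (by linarith)
      have h9 : 0 ≤ θ * m := by positivity
      linarith
    · calc (θ - η) * (ρ - τ) ≤ θ * (2 * m) :=
            mul_le_mul (by linarith) (by linarith) (by linarith) hθ
        _ ≤ d := by linarith
  · refine le_trans ?_ (h.foreign_sep' hs.η_nonneg hs.r_lt hn hb hbn hy
      (closedBall_subset_closedBall (by linarith) hz))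
    have : 0 ≤ θ * m := by positivity
    linarith

end Pack

/-- The family of good cells and their base points. -/
structure Cells (E : Set (Fin k → ℝ)) (o : Fin k → ℝ) (r τ : ℝ) (I : Finset (Fin k → ℤ))
    (b : (Fin k → ℤ) → (Fin k → ℝ)) : Prop where
  dense : ∀ n ∈ I, Dense E o r τ n
  base : ∀ n ∈ I, b n ∈ E
  base' : ∀ n ∈ I, b n ∈ closedBall (ctr o r n) (r / 2)

section strands

variable {g : (Fin k → ℝ) → Y} {G : (Fin k → ℝ) → ((Fin k → ℝ) →L[ℝ] Y)}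
  {E E' : Set (Fin k → ℝ)} {θ M η δ d : ℝ} {o : Fin k → ℝ} {r m τ ρ : ℝ}

/-- The image of the inner box. -/
def img (g : (Fin k → ℝ) → Y) (G : (Fin k → ℝ) → ((Fin k → ℝ) →L[ℝ] Y)) (o : Fin k → ℝ) (r ρ : ℝ)
    (b : (Fin k → ℤ) → (Fin k → ℝ)) (n : Fin k → ℤ) : Set Y := aff g G (b n) '' box o r ρ n

theorem img_thick_disjoint (h : Pack g G E E' θ M η δ d) (hs : Scale θ M η δ d r m τ)
    (hρ : m / 2 ≤ ρ) (hρ' : ρ ≤ m) {I : Finset (Fin k → ℤ)} {b : (Fin k → ℤ) → (Fin k → ℝ)}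
    (hI : Cells E o r τ I b) :
    (I : Set (Fin k → ℤ)).PairwiseDisjoint fun n => thickening (θ * m / 16) (img g G o r ρ b n) := by
  intro n hn n' hn' hnn
  rw [Function.onFun, Set.disjoint_left]
  intro y hy hy'
  rw [mem_thickening_iff] at hy hy'
  obtain ⟨_, ⟨z, hz, rfl⟩, h1⟩ := hy
  obtain ⟨_, ⟨z', hz', rfl⟩, h2⟩ := hy'
  have h3 := h.box_sep_scale hs hρ hρ' hnn (hI.dense n hn) (hI.dense n' hn') (hI.base n hn)
    (hI.base' n hn) (hI.base n' hn') (hI.base' n' hn') hz hz'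
  rw [← dist_eq_norm] at h3
  have h4 := dist_triangle_left (aff g G (b n') z') (aff g G (b n) z) y
  linarith

open Classical in
/-- **Number of cells hit by a foreign curve.** -/
theorem hits_curve (h : Pack g G E E' θ M η δ d) (hs : Scale θ M η δ d r m τ) (hθ : 0 < θ)
    (hρ : m / 2 ≤ ρ) (hρ' : ρ ≤ m) {I : Finset (Fin k → ℤ)} {b : (Fin k → ℤ) → (Fin k → ℝ)}
    (hI : Cells E o r τ I b) {u : ℝ → Y} {q : ℝ → ℝ≥0∞} (hu : HasMod u q)
    (hc : ContinuousOn u (Icc 0 1)) {S : Set ℝ}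
    (hS : ∀ t ∈ Icc (0 : ℝ) 1, t ∉ S → ∀ n ∈ I, ∀ z ∈ box o r ρ n,
      θ * m / 16 ≤ ‖u t - aff g G (b n) z‖) :
    ((I.filter fun n => ∃ t ∈ Icc (0 : ℝ) 1, u t ∈ img g G o r ρ b n).card : ℝ≥0∞) *
        ENNReal.ofReal (θ * m / 16) ≤
      ∫⁻ t in Icc (0 : ℝ) 1 ∩ S, (ENNReal.ofReal (θ * m / 16) + q t) := by
  have hm := hs.m_pos
  have hκ : 0 < θ * m / 16 := by positivity
  have hρN : ∀ n ∈ I, ∀ x ∈ img g G o r ρ b n, ∀ y, y ∉ thickening (θ * m / 16) (img g G o r ρ b n) →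
      ENNReal.ofReal (θ * m / 16) ≤ edist x y := by
    intro n _ x hx y hy
    by_contra hlt
    push Not at hlt
    refine hy (mem_thickening_iff.2 ⟨x, hx, ?_⟩)
    rw [edist_dist, ENNReal.ofReal_lt_ofReal_iff hκ] at hlt
    rwa [dist_comm]
  have hsub : Icc (0 : ℝ) 1 ∩ u ⁻¹' (⋃ n ∈ I, thickening (θ * m / 16) (img g G o r ρ b n)) ⊆
      Icc (0 : ℝ) 1 ∩ S := by
    rintro t ⟨ht, htu⟩
    refine ⟨ht, ?_⟩
    by_contra htS
    simp only [mem_preimage, mem_iUnion] at htu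
    obtain ⟨n, hn, hy⟩ := htu
    rw [mem_thickening_iff] at hy
    obtain ⟨_, ⟨z, hz, rfl⟩, h1⟩ := hy
    have h2 := hS t ht htS n hn z hz
    rw [← dist_eq_norm] at h2
    linarith
  have hdisj := img_thick_disjoint h hs hρ hρ' hI
  by_cases hex : ∃ t ∈ Icc (0 : ℝ) 1, t ∉ S
  · obtain ⟨t, ht, htS⟩ := hex
    set J := I.filter fun n => ∃ t ∈ Icc (0 : ℝ) 1, u t ∈ img g G o r ρ b n with hJ
    have hJI : J ⊆ I := Finset.filter_subset _ _
    have h1 := hit_count hu hc J (N := fun n => thickening (θ * m / 16) (img g G o r ρ b n))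
      (P := fun n => img g G o r ρ b n) (ρ := ENNReal.ofReal (θ * m / 16))
      (fun n _ => isOpen_thickening) (hdisj.subset (by exact_mod_cast hJI))
      (fun n hn => hρN n (hJI hn)) (fun n hn => (Finset.mem_filter.1 hn).2)
      (fun n hn => ⟨t, ht, fun hy => by
        rw [mem_thickening_iff] at hy
        obtain ⟨_, ⟨z, hz, rfl⟩, h1⟩ := hy
        have h2 := hS t ht htS n (hJI hn) z hz
        rw [← dist_eq_norm] at h2
        linarith⟩)
    refine h1.trans ?_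
    refine le_trans (lintegral_mono_set ?_) (lintegral_mono fun t => ?_) (b := ∫⁻ t in Icc (0 : ℝ) 1 ∩ S, q t)
    · refine Subset.trans ?_ hsub
      refine inter_subset_inter_right _ (preimage_mono ?_)
      exact biUnion_subset_biUnion_left (by exact_mod_cast hJI)
    · exact le_add_self
  · push Not at hex
    have hIS : Icc (0 : ℝ) 1 ∩ S = Icc (0 : ℝ) 1 := inter_eq_left.2 fun t ht => hex t ht
    have h1 := hit_count_add_one hu hc I (N := fun n => thickening (θ * m / 16) (img g G o r ρ b n))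
      (P := fun n => img g G o r ρ b n) (ρ := ENNReal.ofReal (θ * m / 16))
      (fun n _ => isOpen_thickening) hdisj hρN
    refine h1.trans ?_
    rw [hIS, lintegral_add_left measurable_const, setLIntegral_const, Real.volume_Icc]
    simp only [sub_zero, ENNReal.ofReal_one, mul_one]
    gcongr
    exact inter_subset_left

/-- The good points of a strand: its points in `E` outside the interior of the cell, or in `E'`. -/
theorem strand_far (h : Pack g G E E' θ M η δ d) (hs : Scale θ M η δ d r m τ)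
    (hρ : m / 2 ≤ ρ) (hρ' : ρ ≤ m) {I : Finset (Fin k → ℤ)} {b : (Fin k → ℤ) → (Fin k → ℝ)}
    (hI : Cells E o r τ I b) {γ : ℝ → (Fin k → ℝ)}
    (hγ : ∀ t ∈ Icc (0 : ℝ) 1, ∀ n ∈ I, γ t ∉ ball (ctr o r n) (r / 2)) :
    ∀ t ∈ Icc (0 : ℝ) 1, t ∉ γ ⁻¹' (E ∪ E')ᶜ → ∀ n ∈ I, ∀ z ∈ box o r ρ n,
      θ * m / 16 ≤ ‖g (γ t) - aff g G (b n) z‖ := by
  intro t ht htS n hn z hz
  simp only [mem_preimage, mem_compl_iff, not_not] at htS
  refine h.foreign_sep_scale hs hρ hρ' (hI.dense n hn) (hI.base n hn) (hI.base' n hn) ?_ hz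
  rcases htS with h1 | h1
  · exact Or.inl ⟨h1, hγ t ht n hn⟩
  · exact Or.inr h1

open Classical in
/-- **Number of cells hit by a foreign segment of the fine net.** -/
theorem hits_segment (h : Pack g G E E' θ M η δ d) (hs : Scale θ M η δ d r m τ) (hθ : 0 < θ)
    (hρ : m / 2 ≤ ρ) (hρ' : ρ ≤ m) {I : Finset (Fin k → ℤ)} {b : (Fin k → ℤ) → (Fin k → ℝ)}
    (hI : Cells E o r τ I b) {a v : Fin k → ℝ} (hseg : GoodSeg g G a v)
    (hγ : ∀ t ∈ Icc (0 : ℝ) 1, ∀ n ∈ I, a + t • v ∉ ball (ctr o r n) (r / 2)) :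
    ((I.filter fun n => ∃ t ∈ Icc (0 : ℝ) 1, g (a + t • v) ∈ img g G o r ρ b n).card : ℝ≥0∞) *
        ENNReal.ofReal (θ * m / 16) ≤
      ∫⁻ t in Icc (0 : ℝ) 1 ∩ (fun t => a + t • v) ⁻¹' (E ∪ E')ᶜ,
        (ENNReal.ofReal (θ * m / 16) + ‖G (a + t • v) v‖ₑ) :=
  hits_curve h hs hθ hρ hρ' hI hseg.hasMod hseg.continuousOn
    (strand_far h hs hρ hρ' hI (γ := fun t => a + t • v) hγ)

end strands

section closeness

variable {g : (Fin k → ℝ) → Y} {G : (Fin k → ℝ) → ((Fin k → ℝ) →L[ℝ] Y)}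
  {E E' : Set (Fin k → ℝ)} {θ M η δ d : ℝ} {o : Fin k → ℝ} {r m τ ρ lam : ℝ}

/-- Along a segment of a cell which is mostly in `E`, `G` is close to its value at the base
point. -/
theorem lintegral_dist_le (h : Pack g G E E' θ M η δ d) (hrδ : r < δ)
    (hE : MeasurableSet E) {n : Fin k → ℤ} {b : Fin k → ℝ} (hb : b ∈ E)
    (hbn : b ∈ closedBall (ctr o r n) (r / 2)) {a v : Fin k → ℝ}
    (hav : ∀ t ∈ Icc (0 : ℝ) 1, a + t • v ∈ closedBall (ctr o r n) (r / 2)) :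
    ∫⁻ t in Ioc (0 : ℝ) 1, ‖G (a + t • v) v - G b v‖ₑ ≤
      ENNReal.ofReal (η * ‖v‖) + ∫⁻ t in Ioc (0 : ℝ) 1 ∩ (fun t => a + t • v) ⁻¹' Eᶜ,
        (‖G (a + t • v) v‖ₑ + ENNReal.ofReal (M * ‖v‖)) := by
  have hmeas : MeasurableSet ((fun t : ℝ => a + t • v) ⁻¹' E) :=
    (by fun_prop : Continuous fun t : ℝ => a + t • v).measurable hE
  rw [← lintegral_inter_add_sdiff (μ := volume) _ (Ioc (0 : ℝ) 1) hmeas]
  gcongr ?_ + ?_
  · calc ∫⁻ t in Ioc (0 : ℝ) 1 ∩ (fun t => a + t • v) ⁻¹' E, ‖G (a + t • v) v - G b v‖ₑ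
        ≤ ∫⁻ t in Ioc (0 : ℝ) 1 ∩ (fun t => a + t • v) ⁻¹' E, ENNReal.ofReal (η * ‖v‖) := by
          refine setLIntegral_mono' (measurableSet_Ioc.inter hmeas) fun t ht => ?_
          have h1 : ‖(a + t • v) - b‖ ≤ r := by
            have h2 := hav t ⟨ht.1.1.le, ht.1.2⟩
            have := dist_triangle_right (a + t • v) b (ctr o r n)
            rw [mem_closedBall] at h2 hbn
            rw [← dist_eq_norm]
            linarith
          have h3 := h.osc b hb _ ht.2 (h1.trans_lt hrδ)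
          rw [← ofReal_norm, ← _root_.sub_apply]
          refine ENNReal.ofReal_le_ofReal ((ContinuousLinearMap.le_opNorm _ _).trans ?_)
          exact mul_le_mul_of_nonneg_right h3 (norm_nonneg _)
      _ ≤ ∫⁻ t in Ioc (0 : ℝ) 1, ENNReal.ofReal (η * ‖v‖) := lintegral_mono_set inter_subset_left
      _ = _ := by rw [setLIntegral_const, Real.volume_Ioc]; simp
  · change _ ≤ ∫⁻ t in Ioc (0 : ℝ) 1 \ (fun t => a + t • v) ⁻¹' E,
      (‖G (a + t • v) v‖ₑ + ENNReal.ofReal (M * ‖v‖))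
    refine setLIntegral_mono' (measurableSet_Ioc.diff hmeas) fun t _ => ?_
    have h2 : ‖G b v‖ₑ ≤ ENNReal.ofReal (M * ‖v‖) := by
      rw [← ofReal_norm]
      refine ENNReal.ofReal_le_ofReal ((ContinuousLinearMap.le_opNorm _ _).trans ?_)
      exact mul_le_mul_of_nonneg_right (h.above b hb) (norm_nonneg _)
    exact (enorm_sub_le).trans (by gcongr)

/-- **Closeness on the fine net of a good cell.** -/
theorem net_close (h : Pack g G E E' θ M η δ d) (hη : 0 ≤ η) (hM : 0 ≤ M) (hlam : 0 ≤ lam)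
    (hlam1 : lam < 1) (hrδ : r < δ)
    (hE : MeasurableSet E) {n : Fin k → ℤ} {b : Fin k → ℝ} (hb : b ∈ E)
    (hbn : b ∈ closedBall (ctr o r n) (r / 2)) {a v : Fin k → ℝ}
    [CompleteSpace Y] (hseg : GoodSeg g G a v)
    (hav : ∀ t ∈ Icc (0 : ℝ) 1, a + t • v ∈ closedBall (ctr o r n) (r / 2))
    (h1 : volume (Ioc (0 : ℝ) 1 ∩ (fun t => a + t • v) ⁻¹' Eᶜ) ≤ ENNReal.ofReal lam)
    (h2 : ∫⁻ t in Ioc (0 : ℝ) 1 ∩ (fun t => a + t • v) ⁻¹' Eᶜ, ‖G (a + t • v) v‖ₑ ≤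
      ENNReal.ofReal (lam * ‖v‖)) {t : ℝ} (ht : t ∈ Icc (0 : ℝ) 1) :
    ‖g (a + t • v) - aff g G b (a + t • v)‖ ≤ η * r + (η + lam * (1 + M)) * ‖v‖ := by
  obtain ⟨s, hs, hsE⟩ : ∃ s ∈ Ioc (0 : ℝ) 1, a + s • v ∈ E := by
    by_contra hn
    push Not at hn
    have : Ioc (0 : ℝ) 1 ∩ (fun t => a + t • v) ⁻¹' Eᶜ = Ioc (0 : ℝ) 1 :=
      inter_eq_left.2 fun s hs => hn s hs
    rw [this, Real.volume_Ioc, sub_zero] at h1
    exact absurd ((ENNReal.ofReal_le_ofReal_iff hlam).1 h1) (not_le.2 hlam1)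
  have hs' : s ∈ Icc (0 : ℝ) 1 := ⟨hs.1.le, hs.2⟩
  have hd : ‖(a + s • v) - b‖ ≤ r := by
    have h2 := hav s hs'
    have := dist_triangle_right (a + s • v) b (ctr o r n)
    rw [mem_closedBall] at h2 hbn
    rw [← dist_eq_norm]
    linarith
  have h3 := h.diff b hb _ hsE (hd.trans_lt hrδ)
  have h4 := hseg.enorm_sub_le (G b) hs' ht
  have h5 := lintegral_dist_le h hrδ hE hb hbn hav
  have h6 : ∫⁻ t in Ioc (0 : ℝ) 1 ∩ (fun t => a + t • v) ⁻¹' Eᶜ,
      (‖G (a + t • v) v‖ₑ + ENNReal.ofReal (M * ‖v‖)) ≤ ENNReal.ofReal (lam * (1 + M) * ‖v‖) := by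
    rw [lintegral_add_right _ measurable_const, setLIntegral_const]
    calc _ ≤ ENNReal.ofReal (lam * ‖v‖) + ENNReal.ofReal (M * ‖v‖) * ENNReal.ofReal lam := by gcongr
      _ = _ := by
        rw [← ENNReal.ofReal_mul (by positivity), ← ENNReal.ofReal_add (by positivity) (by positivity)]
        congr 1
        ring
  have h7 : ‖g (a + t • v) - g (a + s • v) - G b ((t - s) • v)‖ ≤ (η + lam * (1 + M)) * ‖v‖ := by
    have h8 := h4.trans (h5.trans (add_le_add_right h6 _))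
    rw [← ENNReal.ofReal_add (by positivity) (by positivity), ← ofReal_norm,
      ENNReal.ofReal_le_ofReal_iff (by positivity)] at h8
    calc _ ≤ _ := h8
      _ = _ := by ring
  have e : g (a + t • v) - aff g G b (a + t • v) =
      (g (a + s • v) - g b - G b (a + s • v - b)) +
        (g (a + t • v) - g (a + s • v) - G b ((t - s) • v)) := by
    simp only [aff]
    have : G b (a + t • v - b) = G b (a + s • v - b) + G b ((t - s) • v) := by
      rw [← map_add]; congr 1; module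
    rw [this]; abel
  rw [e]
  refine (norm_add_le _ _).trans (add_le_add ?_ h7)
  exact h3.trans (mul_le_mul_of_nonneg_left hd hη)

/-- The same for the `p`-th powers. -/
theorem lintegral_rpow_dist_le (h : Pack g G E E' θ M η δ d) (hrδ : r < δ) {p : ℝ} (hp : 1 ≤ p)
    (hE : MeasurableSet E) {n : Fin k → ℤ} {b : Fin k → ℝ} (hb : b ∈ E)
    (hbn : b ∈ closedBall (ctr o r n) (r / 2)) {a v : Fin k → ℝ}
    (hav : ∀ t ∈ Icc (0 : ℝ) 1, a + t • v ∈ closedBall (ctr o r n) (r / 2)) :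
    ∫⁻ t in Ioc (0 : ℝ) 1, ‖G (a + t • v) v - G b v‖ₑ ^ p ≤
      ENNReal.ofReal (η * ‖v‖) ^ p + 2 ^ (p - 1) * ∫⁻ t in Ioc (0 : ℝ) 1 ∩
        (fun t => a + t • v) ⁻¹' Eᶜ, (‖G (a + t • v) v‖ₑ ^ p + ENNReal.ofReal (M * ‖v‖) ^ p) := by
  have hmeas : MeasurableSet ((fun t : ℝ => a + t • v) ⁻¹' E) :=
    (by fun_prop : Continuous fun t : ℝ => a + t • v).measurable hE
  have hp0 : 0 ≤ p := by linarith
  rw [← lintegral_inter_add_sdiff (μ := volume) _ (Ioc (0 : ℝ) 1) hmeas]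
  gcongr ?_ + ?_
  · calc ∫⁻ t in Ioc (0 : ℝ) 1 ∩ (fun t => a + t • v) ⁻¹' E, ‖G (a + t • v) v - G b v‖ₑ ^ p
        ≤ ∫⁻ t in Ioc (0 : ℝ) 1 ∩ (fun t => a + t • v) ⁻¹' E, ENNReal.ofReal (η * ‖v‖) ^ p := by
          refine setLIntegral_mono' (measurableSet_Ioc.inter hmeas) fun t ht => ?_
          refine ENNReal.rpow_le_rpow ?_ hp0
          have h1 : ‖(a + t • v) - b‖ ≤ r := by
            have h2 := hav t ⟨ht.1.1.le, ht.1.2⟩
            have := dist_triangle_right (a + t • v) b (ctr o r n)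
            rw [mem_closedBall] at h2 hbn
            rw [← dist_eq_norm]
            linarith
          have h3 := h.osc b hb _ ht.2 (h1.trans_lt hrδ)
          rw [← ofReal_norm, ← _root_.sub_apply]
          refine ENNReal.ofReal_le_ofReal ((ContinuousLinearMap.le_opNorm _ _).trans ?_)
          exact mul_le_mul_of_nonneg_right h3 (norm_nonneg _)
      _ ≤ ∫⁻ t in Ioc (0 : ℝ) 1, ENNReal.ofReal (η * ‖v‖) ^ p := lintegral_mono_set inter_subset_left
      _ = _ := by rw [setLIntegral_const, Real.volume_Ioc]; simp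
  · change _ ≤ 2 ^ (p - 1) * ∫⁻ t in Ioc (0 : ℝ) 1 \ (fun t => a + t • v) ⁻¹' E,
      (‖G (a + t • v) v‖ₑ ^ p + ENNReal.ofReal (M * ‖v‖) ^ p)
    rw [← lintegral_const_mul' _ _ (by
      exact ENNReal.rpow_ne_top_of_nonneg (by linarith) (by simp))]
    refine setLIntegral_mono' (measurableSet_Ioc.diff hmeas) fun t _ => ?_
    have h2 : ‖G b v‖ₑ ≤ ENNReal.ofReal (M * ‖v‖) := by
      rw [← ofReal_norm]
      refine ENNReal.ofReal_le_ofReal ((ContinuousLinearMap.le_opNorm _ _).trans ?_)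
      exact mul_le_mul_of_nonneg_right (h.above b hb) (norm_nonneg _)
    calc ‖G (a + t • v) v - G b v‖ₑ ^ p
        ≤ (‖G (a + t • v) v‖ₑ + ENNReal.ofReal (M * ‖v‖)) ^ p := by
          refine ENNReal.rpow_le_rpow ((enorm_sub_le).trans (by gcongr)) hp0
      _ ≤ _ := ENNReal.rpow_add_le_mul_rpow_add_rpow _ _ hp

end closeness

end Vale.Agent.P073.PK
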