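import Vale.Agent.P073.PK.GridAll

/-!
# P073, packing: thick neighbourhoods of the image boxes

When the dimension of the target is larger than the dimension of the cells, the image boxes are
thin; the foreign strands of most cells also avoid the closed `θ m / 32`-neighbourhoods of the
image boxes.
-/

set_option linter.unusedSectionVars false

namespace Vale.Agent.P073.PK

open Set Filter Topology Metric MeasureTheory
open scoped ENNReal NNReal
open Vale.Agent.P073.HB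

variable {k : ℕ} {Y : Type*} [NormedAddCommGroup Y] [NormedSpace ℝ Y]

section curve

variable {g : (Fin k → ℝ) → Y} {G : (Fin k → ℝ) → ((Fin k → ℝ) →L[ℝ] Y)}
  {E E' : Set (Fin k → ℝ)} {θ M η δ d : ℝ} {o : Fin k → ℝ} {r m τ ρ : ℝ}

/-- Far from the larger neighbourhood. -/
theorem edist_thick {S : Set Y} {s : ℝ} (hs : 0 ≤ s) {x y : Y} (hx : x ∈ cthickening s S)
    (hy : y ∉ thickening (2 * s) S) : ENNReal.ofReal s ≤ edist x y := by
  rw [mem_cthickening_iff] at hx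
  rw [thickening, mem_ofPred_eq, not_lt] at hy
  have h1 : infEDist y S ≤ infEDist x S + edist y x := infEDist_le_infEDist_add_edist
  have h2 : ENNReal.ofReal (2 * s) = ENNReal.ofReal s + ENNReal.ofReal s := by
    rw [← ENNReal.ofReal_add hs hs]
    congr 1
    ring
  rw [h2] at hy
  rw [edist_comm]
  have h3 : ENNReal.ofReal s + ENNReal.ofReal s ≤ ENNReal.ofReal s + edist y x :=
    hy.trans (h1.trans (add_le_add hx le_rfl))
  exact (ENNReal.add_le_add_iff_left ENNReal.ofReal_ne_top).1 h3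

open Classical in
/-- **Number of thick image boxes hit by a foreign curve.** -/
theorem hits_curve_thick (h : Pack g G E E' θ M η δ d) (hs : Scale θ M η δ d r m τ) (hθ : 0 < θ)
    (hρ : m / 2 ≤ ρ) (hρ' : ρ ≤ m) {I : Finset (Fin k → ℤ)} {b : (Fin k → ℤ) → (Fin k → ℝ)}
    (hI : Cells E o r τ I b) {u : ℝ → Y} {q : ℝ → ℝ≥0∞} (hu : HasMod u q)
    (hc : ContinuousOn u (Icc 0 1)) {S : Set ℝ}
    (hS : ∀ t ∈ Icc (0 : ℝ) 1, t ∉ S → ∀ n ∈ I, ∀ z ∈ box o r ρ n,
      θ * m / 16 ≤ ‖u t - aff g G (b n) z‖) :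
    ((I.filter fun n => ∃ t ∈ Icc (0 : ℝ) 1,
      u t ∈ cthickening (θ * m / 32) (img g G o r ρ b n)).card : ℝ≥0∞) *
        ENNReal.ofReal (θ * m / 32) ≤
      ∫⁻ t in Icc (0 : ℝ) 1 ∩ S, (ENNReal.ofReal (θ * m / 32) + q t) := by
  have hm := hs.m_pos
  have hκ : 0 < θ * m / 32 := by positivity
  have e2 : θ * m / 16 = 2 * (θ * m / 32) := by ring
  have hρN : ∀ n ∈ I, ∀ x ∈ cthickening (θ * m / 32) (img g G o r ρ b n), ∀ y,
      y ∉ thickening (θ * m / 16) (img g G o r ρ b n) →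
      ENNReal.ofReal (θ * m / 32) ≤ edist x y := by
    intro n _ x hx y hy
    rw [e2] at hy
    exact edist_thick hκ.le hx hy
  have hsub : Icc (0 : ℝ) 1 ∩ u ⁻¹' (⋃ n ∈ I, thickening (θ * m / 16) (img g G o r ρ b n)) ⊆
      Icc (0 : ℝ) 1 ∩ S := by
    rintro t ⟨ht, htu⟩
    refine ⟨ht, ?_⟩
    by_contra htS
    simp only [mem_preimage, mem_iUnion] at htu
    obtain ⟨n, hn, hy⟩ := htu
    rw [mem_thickening_iff] at hy
    obtain ⟨_, ⟨z, hz, rfl⟩, h1⟩ := hy
    have h2 := hS t ht htS n hn z hz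
    rw [← dist_eq_norm] at h2
    linarith
  have hdisj := img_thick_disjoint h hs hρ hρ' hI
  by_cases hex : ∃ t ∈ Icc (0 : ℝ) 1, t ∉ S
  · obtain ⟨t, ht, htS⟩ := hex
    set J := I.filter fun n => ∃ t ∈ Icc (0 : ℝ) 1,
      u t ∈ cthickening (θ * m / 32) (img g G o r ρ b n) with hJ
    have hJI : J ⊆ I := Finset.filter_subset _ _
    have h1 := hit_count hu hc J (N := fun n => thickening (θ * m / 16) (img g G o r ρ b n))
      (P := fun n => cthickening (θ * m / 32) (img g G o r ρ b n))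
      (ρ := ENNReal.ofReal (θ * m / 32))
      (fun n _ => isOpen_thickening) (hdisj.subset (by exact_mod_cast hJI))
      (fun n hn => hρN n (hJI hn)) (fun n hn => (Finset.mem_filter.1 hn).2)
      (fun n hn => ⟨t, ht, fun hy => by
        rw [mem_thickening_iff] at hy
        obtain ⟨_, ⟨z, hz, rfl⟩, h1⟩ := hy
        have h2 := hS t ht htS n (hJI hn) z hz
        rw [← dist_eq_norm] at h2
        linarith⟩)
    refine h1.trans ?_
    refine le_trans (lintegral_mono_set ?_) (lintegral_mono fun t => ?_)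
      (b := ∫⁻ t in Icc (0 : ℝ) 1 ∩ S, q t)
    · refine Subset.trans ?_ hsub
      refine inter_subset_inter_right _ (preimage_mono ?_)
      exact biUnion_subset_biUnion_left (by exact_mod_cast hJI)
    · exact le_add_self
  · push Not at hex
    have hIS : Icc (0 : ℝ) 1 ∩ S = Icc (0 : ℝ) 1 := inter_eq_left.2 fun t ht => hex t ht
    have h1 := hit_count_add_one hu hc I (N := fun n => thickening (θ * m / 16) (img g G o r ρ b n))
      (P := fun n => cthickening (θ * m / 32) (img g G o r ρ b n))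
      (ρ := ENNReal.ofReal (θ * m / 32)) (fun n _ => isOpen_thickening) hdisj hρN
    refine h1.trans ?_
    rw [hIS, lintegral_add_left measurable_const, setLIntegral_const, Real.volume_Icc]
    simp only [sub_zero, ENNReal.ofReal_one, mul_one]
    gcongr
    exact inter_subset_left

open Classical in
/-- **Number of thick image boxes hit by a foreign segment of the fine net.** -/
theorem hits_segment_thick (h : Pack g G E E' θ M η δ d) (hs : Scale θ M η δ d r m τ) (hθ : 0 < θ)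
    (hρ : m / 2 ≤ ρ) (hρ' : ρ ≤ m) {I : Finset (Fin k → ℤ)} {b : (Fin k → ℤ) → (Fin k → ℝ)}
    (hI : Cells E o r τ I b) {a v : Fin k → ℝ} (hseg : GoodSeg g G a v)
    (hγ : ∀ t ∈ Icc (0 : ℝ) 1, ∀ n ∈ I, a + t • v ∉ ball (ctr o r n) (r / 2)) :
    ((I.filter fun n => ∃ t ∈ Icc (0 : ℝ) 1,
      g (a + t • v) ∈ cthickening (θ * m / 32) (img g G o r ρ b n)).card : ℝ≥0∞) *
        ENNReal.ofReal (θ * m / 32) ≤
      ∫⁻ t in Icc (0 : ℝ) 1 ∩ (fun t => a + t • v) ⁻¹' (E ∪ E')ᶜ,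
        (ENNReal.ofReal (θ * m / 32) + ‖G (a + t • v) v‖ₑ) :=
  hits_curve_thick h hs hθ hρ hρ' hI hseg.hasMod hseg.continuousOn
    (strand_far h hs hρ hρ' hI (γ := fun t => a + t • v) hγ)

end curve

section count

variable {g : (Fin k → ℝ) → Y} {G : (Fin k → ℝ) → ((Fin k → ℝ) →L[ℝ] Y)}
  {E E' : Set (Fin k → ℝ)} {θ M η δ d : ℝ} {o : Fin k → ℝ} {r m τ ρ lam : ℝ} {κ : Type*}

/-- The foreign strands avoid the thick image box. -/
def ForT (g : (Fin k → ℝ) → Y) (G : (Fin k → ℝ) → ((Fin k → ℝ) →L[ℝ] Y)) (θ m : ℝ)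
    (o : Fin k → ℝ) (r ρ : ℝ) (L : Finset κ)
    (a v : κ → (Fin k → ℝ)) (b : (Fin k → ℤ) → (Fin k → ℝ)) (n : Fin k → ℤ) : Prop :=
  ∀ l ∈ L, ¬ InCell o r a v l n → ∀ t ∈ Icc (0 : ℝ) 1,
    g (a l + t • v l) ∉ cthickening (θ * m / 32) (img g G o r ρ b n)

open Classical in
/-- **The number of dense cells with a thick image box which is hit by a foreign strand.** -/
theorem card_not_forT (h : Pack g G E E' θ M η δ d) (hs : Scale θ M η δ d r m τ)
    (hθ : 0 < θ) (hρ : m / 2 ≤ ρ) (hρ' : ρ ≤ m) {p : ℝ} (hp : 1 ≤ p)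
    {I : Finset (Fin k → ℤ)} {b : (Fin k → ℤ) → (Fin k → ℝ)} (hI : Cells E o r τ I b)
    {L : Finset κ} {a v : κ → (Fin k → ℝ)} {K : ℕ} (hnet : Net g G o r m I L a v K) :
    ((I.filter fun n => ¬ ForT g G θ m o r ρ L a v b n).card : ℝ≥0∞) ≤
      ENNReal.ofReal (1 + 32 / θ) * ∑ l ∈ L, beta G p (E ∪ E') a v l := by
  have hm := hs.m_pos
  set D : κ → Finset (Fin k → ℤ) := fun l => (I.filter fun n => ¬ InCell o r a v l n) with hD
  set J₃ := L.biUnion fun l => (D l).filter fun n => ∃ t ∈ Icc (0 : ℝ) 1,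
    g (a l + t • v l) ∈ cthickening (θ * m / 32) (img g G o r ρ b n) with hJ₃
  have hsub : (I.filter fun n => ¬ ForT g G θ m o r ρ L a v b n) ⊆ J₃ := by
    intro n hn
    obtain ⟨hnI, hbad⟩ := Finset.mem_filter.1 hn
    by_contra h3
    refine hbad fun l hl hln t ht hmem => h3 ?_
    exact Finset.mem_biUnion.2 ⟨l, hl, Finset.mem_filter.2
      ⟨Finset.mem_filter.2 ⟨hnI, hln⟩, t, ht, hmem⟩⟩
  have h1 : ∀ l ∈ L, (((D l).filter fun n => ∃ t ∈ Icc (0 : ℝ) 1,
      g (a l + t • v l) ∈ cthickening (θ * m / 32) (img g G o r ρ b n)).card : ℝ≥0∞) ≤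
        ENNReal.ofReal (1 + 32 / θ) * beta G p (E ∪ E') a v l := by
    intro l hl
    have hcells : Cells E o r τ (D l) b :=
      ⟨fun n hn => hI.dense n (Finset.mem_filter.1 hn).1,
        fun n hn => hI.base n (Finset.mem_filter.1 hn).1,
        fun n hn => hI.base' n (Finset.mem_filter.1 hn).1⟩
    have hγ : ∀ t ∈ Icc (0 : ℝ) 1, ∀ n ∈ D l, a l + t • v l ∉ ball (ctr o r n) (r / 2) := by
      intro t ht n hn
      obtain ⟨hnI, hnot⟩ := Finset.mem_filter.1 hn
      exact (hnet.aligned l hl n hnI).resolve_left hnot t ht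
    have h2 := hits_segment_thick h hs hθ hρ hρ' hcells (hnet.good l hl) hγ
    have h3 := lintegral_le_beta (G := G) (θ := θ / 2) hp hm.le (half_pos hθ).le (a := a) (v := v)
      (hnet.len l hl) (E ∪ E')
    have e1 : θ / 2 * m / 16 = θ * m / 32 := by ring
    rw [e1] at h3
    have h4 := h2.trans h3
    have hpos : 0 < θ * m / 32 := by positivity
    rw [← ENNReal.le_div_iff_mul_le (Or.inl (by simpa using hpos)) (Or.inl ENNReal.ofReal_ne_top)]
      at h4
    refine h4.trans_eq ?_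
    rw [ENNReal.mul_div_right_comm, ← ENNReal.ofReal_div_of_pos hpos]
    congr 2
    field_simp
    ring
  calc ((I.filter fun n => ¬ ForT g G θ m o r ρ L a v b n).card : ℝ≥0∞) ≤ (J₃.card : ℝ≥0∞) := by
        exact_mod_cast Finset.card_le_card hsub
    _ ≤ ∑ l ∈ L, (((D l).filter fun n => ∃ t ∈ Icc (0 : ℝ) 1,
        g (a l + t • v l) ∈ cthickening (θ * m / 32) (img g G o r ρ b n)).card : ℝ≥0∞) := by
          exact_mod_cast Finset.card_biUnion_le
    _ ≤ ∑ l ∈ L, ENNReal.ofReal (1 + 32 / θ) * beta G p (E ∪ E') a v l := Finset.sum_le_sum h1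
    _ = _ := by rw [Finset.mul_sum]

end count

open Classical in
/-- The set `K₀` is met by few thick image boxes of cells of dimension `k`. -/
def NeglT (k : ℕ) (K₀ : Set Y) : Prop := ∀ θ : ℝ, 0 < θ → ∀ ε : ℝ≥0∞, ε ≠ 0 →
  ∃ m₀ : ℝ, 0 < m₀ ∧ ∀ m : ℝ, 0 < m → m ≤ m₀ →
    ∀ (g : (Fin k → ℝ) → Y) (G : (Fin k → ℝ) → ((Fin k → ℝ) →L[ℝ] Y))
      (E E' : Set (Fin k → ℝ)) (M η δ d : ℝ) (o : Fin k → ℝ) (r τ ρ : ℝ),
      Pack g G E E' θ M η δ d → Scale θ M η δ d r m τ → m / 2 ≤ ρ → ρ ≤ m →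
      ∀ (I : Finset (Fin k → ℤ)) (b : (Fin k → ℤ) → (Fin k → ℝ)), Cells E o r τ I b →
      ((I.filter fun n => ¬ Disjoint (cthickening (θ * m / 32) (img g G o r ρ b n)) K₀).card :
        ℝ≥0∞) * ENNReal.ofReal m ^ k ≤ ε

theorem neglT_empty : NeglT k (∅ : Set Y) := by
  classical
  intro θ _ ε _
  refine ⟨1, one_pos, fun m _ _ g G E E' M η δ d o r τ ρ _ _ _ _ I b _ => ?_⟩
  have : (I.filter fun n => ¬ Disjoint (cthickening (θ * m / 32) (img g G o r ρ b n))
      (∅ : Set Y)) = ∅ :=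
    Finset.filter_eq_empty_iff.2 fun z _ h => h (Set.disjoint_empty _)
  simp

theorem NeglT.mono {K₀ K₁ : Set Y} (h : NeglT k K₁) (hK : K₀ ⊆ K₁) : NeglT k K₀ := by
  classical
  intro θ hθ ε hε
  obtain ⟨m₀, hm₀, h1⟩ := h θ hθ ε hε
  refine ⟨m₀, hm₀, fun m hm hmm g G E E' M η δ d o r τ ρ hP hS hρ hρ' I b hI => ?_⟩
  refine le_trans ?_ (h1 m hm hmm g G E E' M η δ d o r τ ρ hP hS hρ hρ' I b hI)
  refine mul_le_mul' ?_ le_rfl
  have h2 : (I.filter fun n => ¬ Disjoint (cthickening (θ * m / 32) (img g G o r ρ b n)) K₀) ⊆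
      I.filter fun n => ¬ Disjoint (cthickening (θ * m / 32) (img g G o r ρ b n)) K₁ := by
    intro n hn
    obtain ⟨h3, h4⟩ := Finset.mem_filter.1 hn
    exact Finset.mem_filter.2 ⟨h3, fun h5 => h4 (h5.mono_right hK)⟩
  exact_mod_cast Finset.card_le_card h2

theorem NeglT.union {K₀ K₁ : Set Y} (h₀ : NeglT k K₀) (h₁ : NeglT k K₁) : NeglT k (K₀ ∪ K₁) := by
  classical
  intro θ hθ ε hε
  have hε2 : ε / 2 ≠ 0 := by
    rw [Ne, ENNReal.div_eq_zero_iff]
    exact not_or.2 ⟨hε, by norm_num⟩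
  obtain ⟨m₀, hm₀, h2⟩ := h₀ θ hθ (ε / 2) hε2
  obtain ⟨m₁, hm₁, h3⟩ := h₁ θ hθ (ε / 2) hε2
  refine ⟨min m₀ m₁, lt_min hm₀ hm₁, fun m hm hmm g G E E' M η δ d o r τ ρ hP hS hρ hρ' I b hI => ?_⟩
  have h4 := h2 m hm (hmm.trans (min_le_left _ _)) g G E E' M η δ d o r τ ρ hP hS hρ hρ' I b hI
  have h5 := h3 m hm (hmm.trans (min_le_right _ _)) g G E E' M η δ d o r τ ρ hP hS hρ hρ' I b hI
  have h6 : (I.filter fun n =>
      ¬ Disjoint (cthickening (θ * m / 32) (img g G o r ρ b n)) (K₀ ∪ K₁)) ⊆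
      (I.filter fun n => ¬ Disjoint (cthickening (θ * m / 32) (img g G o r ρ b n)) K₀) ∪
        I.filter fun n => ¬ Disjoint (cthickening (θ * m / 32) (img g G o r ρ b n)) K₁ := by
    intro n hn
    obtain ⟨h7, h8⟩ := Finset.mem_filter.1 hn
    rw [disjoint_union_right, not_and_or] at h8
    rw [Finset.mem_union, Finset.mem_filter, Finset.mem_filter]
    tauto
  calc _ ≤ (((I.filter fun n =>
        ¬ Disjoint (cthickening (θ * m / 32) (img g G o r ρ b n)) K₀).card : ℝ≥0∞) +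
        (I.filter fun n => ¬ Disjoint (cthickening (θ * m / 32) (img g G o r ρ b n)) K₁).card) *
          ENNReal.ofReal m ^ k := by
        refine mul_le_mul' ?_ le_rfl
        exact_mod_cast (Finset.card_le_card h6).trans (Finset.card_union_le _ _)
    _ ≤ ε / 2 + ε / 2 := by rw [add_mul]; exact add_le_add h4 h5
    _ = ε := ENNReal.add_halves ε

theorem NeglT.biUnion {ι : Type*} (S : Finset ι) {K : ι → Set Y} (h : ∀ i ∈ S, NeglT k (K i)) :
    NeglT k (⋃ i ∈ S, K i) := by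
  classical
  induction S using Finset.induction_on with
  | empty => simpa using neglT_empty
  | insert a s _ ih =>
    rw [Finset.set_biUnion_insert]
    exact (h a (Finset.mem_insert_self _ _)).union
      (ih fun i hi => h i (Finset.mem_insert_of_mem hi))

/-- A curve of finite length, if `k ≥ 2`. -/
theorem neglT_curve {u : ℝ → Y} {q : ℝ → ℝ≥0∞} (hu : HasMod u q)
    (hc : ContinuousOn u (Icc 0 1)) (hq : ∫⁻ t in Icc (0 : ℝ) 1, q t ≠ ⊤) (hk : 2 ≤ k) :
    NeglT k (u '' Icc (0 : ℝ) 1) := by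
  classical
  intro θ hθ ε hε
  set A := 1 + ENNReal.ofReal (32 / θ) * ∫⁻ t in Icc (0 : ℝ) 1, q t with hA
  have hAt : A ≠ ⊤ := ENNReal.add_ne_top.2 ⟨by simp, ENNReal.mul_ne_top ENNReal.ofReal_ne_top hq⟩
  have ht : Tendsto (fun m : ℝ => A * ENNReal.ofReal m) (𝓝 0) (𝓝 0) := by
    have h1 : Tendsto (fun m : ℝ => ENNReal.ofReal m) (𝓝 0) (𝓝 0) := by
      have := ENNReal.continuous_ofReal.tendsto 0
      rwa [ENNReal.ofReal_zero] at this
    have h2 := ENNReal.Tendsto.const_mul h1 (Or.inr hAt) (a := A)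
    rwa [mul_zero] at h2
  obtain ⟨s₀, hs₀, h1⟩ := Metric.eventually_nhds_iff.1 (ht.eventually (gt_mem_nhds
    (pos_iff_ne_zero.2 hε)))
  refine ⟨min 1 (s₀ / 2), by positivity, ?_⟩
  intro m hm hmm g G E E' M η δ d o r τ ρ h hs hρ hρ' I b hI
  have hm1 : m ≤ 1 := hmm.trans (min_le_left _ _)
  have hms : m < s₀ := by
    have := hmm.trans (min_le_right _ _)
    linarith
  have e1 : (I.filter fun n => ¬ Disjoint (cthickening (θ * m / 32) (img g G o r ρ b n))
      (u '' Icc (0 : ℝ) 1)) = I.filter fun n => ∃ t ∈ Icc (0 : ℝ) 1,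
        u t ∈ cthickening (θ * m / 32) (img g G o r ρ b n) := by
    refine Finset.filter_congr fun n _ => ?_
    rw [not_disjoint_iff]
    constructor
    · rintro ⟨y, hy, t, ht, rfl⟩
      exact ⟨t, ht, hy⟩
    · rintro ⟨t, ht, hy⟩
      exact ⟨u t, hy, t, ht, rfl⟩
  have h2 : ((I.filter fun n => ∃ t ∈ Icc (0 : ℝ) 1,
      u t ∈ cthickening (θ * m / 32) (img g G o r ρ b n)).card : ℝ≥0∞) * ENNReal.ofReal m ≤ A := by
    have h3 := hits_curve_thick h hs hθ hρ hρ' hI hu hc (S := univ)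
      (fun t _ ht => absurd (mem_univ t) ht)
    rw [inter_univ, lintegral_add_left measurable_const, setLIntegral_const, Real.volume_Icc,
      sub_zero, ENNReal.ofReal_one, mul_one] at h3
    have hpos : 0 < 32 / θ := by positivity
    calc _ = ENNReal.ofReal (32 / θ) * (((I.filter fun n => ∃ t ∈ Icc (0 : ℝ) 1,
          u t ∈ cthickening (θ * m / 32) (img g G o r ρ b n)).card : ℝ≥0∞) *
            ENNReal.ofReal (θ * m / 32)) := by
          rw [mul_left_comm, ← ENNReal.ofReal_mul hpos.le]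
          congr 2
          field_simp
      _ ≤ ENNReal.ofReal (32 / θ) * (ENNReal.ofReal (θ * m / 32) +
          ∫⁻ t in Icc (0 : ℝ) 1, q t) := by gcongr
      _ = ENNReal.ofReal m + ENNReal.ofReal (32 / θ) * ∫⁻ t in Icc (0 : ℝ) 1, q t := by
          rw [mul_add, ← ENNReal.ofReal_mul hpos.le]
          congr 2
          field_simp
      _ ≤ _ := by
          rw [hA]
          gcongr
          rwa [ENNReal.ofReal_le_one]
  have h5 : ENNReal.ofReal m ^ k ≤ ENNReal.ofReal m * ENNReal.ofReal m := by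
    rw [← sq]
    exact pow_le_pow_right_of_le_one' (ENNReal.ofReal_le_one.2 hm1) hk
  have h6 : A * ENNReal.ofReal m < ε := by
    refine h1 ?_
    rw [Real.dist_eq, sub_zero, abs_of_pos hm]
    exact hms
  rw [e1]
  calc _ ≤ ((I.filter fun n => ∃ t ∈ Icc (0 : ℝ) 1,
        u t ∈ cthickening (θ * m / 32) (img g G o r ρ b n)).card : ℝ≥0∞) *
          (ENNReal.ofReal m * ENNReal.ofReal m) := by gcongr
    _ = (((I.filter fun n => ∃ t ∈ Icc (0 : ℝ) 1,
        u t ∈ cthickening (θ * m / 32) (img g G o r ρ b n)).card : ℝ≥0∞) *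
          ENNReal.ofReal m) * ENNReal.ofReal m := by rw [mul_assoc]
    _ ≤ A * ENNReal.ofReal m := mul_le_mul' h2 le_rfl
    _ ≤ ε := h6.le

/-- The image of a good segment, if `k ≥ 2`. -/
theorem neglT_segment {k' : ℕ} {f : (Fin k' → ℝ) → Y}
    {F : (Fin k' → ℝ) → ((Fin k' → ℝ) →L[ℝ] Y)} {a w : Fin k' → ℝ}
    (h : HB.GoodSeg f F a w) (hk : 2 ≤ k) :
    NeglT k ((fun t : ℝ => f (a + t • w)) '' Icc (0 : ℝ) 1) :=
  neglT_curve h.hasMod h.continuousOn (GoodSeg.lintegral_ne_top h) hk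

end Vale.Agent.P073.PK
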